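import Mathlib

/-! Weighted permutation operators on vector-valued `ℓ²` (shared API for row 78). -/

set_option autoImplicit false
set_option linter.unusedSectionVars false
open scoped InnerProductSpace

namespace Crest.Agent.KK

/-- Vector-valued `ℓ²`. -/
abbrev L2 (α : Type) (K : Type*) [NormedAddCommGroup K] := lp (fun _ : α => K) 2

variable {α : Type} {K : Type*} [NormedAddCommGroup K] [InnerProductSpace ℂ K]

/-- A bounded family of operators. -/
def Bdd (d : α → K →L[ℂ] K) : Prop := ∃ C : ℝ, ∀ a, ‖d a‖ ≤ C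

lemma wp_aux (e : Equiv.Perm α) {d : α → K →L[ℂ] K} {C : ℝ} (_hC : 0 ≤ C) (h : ∀ a, ‖d a‖ ≤ C)
    (ξ : L2 α K) (s : Finset α) :
    ∑ y ∈ s, ‖d (e⁻¹ y) (ξ (e⁻¹ y))‖ ^ (2 : ENNReal).toReal ≤ (C * ‖ξ‖) ^ (2 : ENNReal).toReal := by
  have h1 := lp.sum_rpow_le_norm_rpow (by norm_num) ξ (s.map (e⁻¹ : Equiv.Perm α).toEmbedding)
  rw [Finset.sum_map] at h1
  simp only [ENNReal.toReal_ofNat, Real.rpow_ofNat, Equiv.coe_toEmbedding] at h1 ⊢
  calc _ ≤ ∑ y ∈ s, C ^ 2 * ‖ξ (e⁻¹ y)‖ ^ 2 := Finset.sum_le_sum fun y _ => by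
        rw [← mul_pow]
        exact pow_le_pow_left₀ (norm_nonneg _) ((d _).le_of_opNorm_le (h _) _) 2
    _ ≤ _ := by rw [← Finset.mul_sum, mul_pow]; gcongr

lemma Bdd.nonneg {d : α → K →L[ℂ] K} (h : Bdd d) : ∃ C : ℝ, 0 ≤ C ∧ ∀ a, ‖d a‖ ≤ C :=
  ⟨max h.choose 0, le_max_right _ _, fun a => (h.choose_spec a).trans (le_max_left _ _)⟩

open Classical in
/-- The operator `single x v ↦ single (e x) (d x v)` (zero if `d` is unbounded). -/
noncomputable def wp (e : Equiv.Perm α) (d : α → K →L[ℂ] K) : L2 α K →L[ℂ] L2 α K :=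
  if h : Bdd d then
    LinearMap.mkContinuous
      { toFun := fun ξ => ⟨fun y => d (e⁻¹ y) (ξ (e⁻¹ y)),
          memℓp_gen' (wp_aux e h.nonneg.choose_spec.1 h.nonneg.choose_spec.2 ξ)⟩
        map_add' := fun ξ η => lp.ext (funext fun y => by simp)
        map_smul' := fun c ξ => lp.ext (funext fun y => by simp) } h.nonneg.choose fun ξ =>
      lp.norm_le_of_forall_sum_le (by norm_num)
        (mul_nonneg h.nonneg.choose_spec.1 (norm_nonneg _))
        (wp_aux e h.nonneg.choose_spec.1 h.nonneg.choose_spec.2 ξ)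
  else 0

/-- Block diagonal operators. -/
noncomputable abbrev dg (d : α → K →L[ℂ] K) : L2 α K →L[ℂ] L2 α K := wp 1 d

/-- Permutation operators. -/
noncomputable abbrev pm (K : Type*) [NormedAddCommGroup K] [InnerProductSpace ℂ K]
    (e : Equiv.Perm α) : L2 α K →L[ℂ] L2 α K := wp e fun _ => 1

open Classical in
/-- The inclusion of the `x`-th block. -/
noncomputable def sg (x : α) : K →L[ℂ] L2 α K := lp.singleContinuousLinearMap ℂ (fun _ => K) 2 x

/-- The `x`-th coordinate. -/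
noncomputable def ev (x : α) : L2 α K →L[ℂ] K := lp.evalCLM ℂ (fun _ => K) 2 x

@[simp] lemma ev_apply (x : α) (ξ : L2 α K) : ev x ξ = ξ x := rfl

open Classical in
lemma sg_apply (x y : α) (v : K) : (sg x v : L2 α K) y = if y = x then v else 0 := by
  change lp.single (E := fun _ : α => K) 2 x v y = _
  rw [lp.single_apply, Pi.single_apply]

@[simp] lemma sg_apply_self (x : α) (v : K) : (sg x v : L2 α K) x = v := by simp [sg_apply]

lemma sg_apply_ne {x y : α} (h : y ≠ x) (v : K) : (sg x v : L2 α K) y = 0 := by simp [sg_apply, h]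

@[simp] lemma norm_sg (x : α) (v : K) : ‖(sg x v : L2 α K)‖ = ‖v‖ := by
  classical exact lp.norm_single (E := fun _ : α => K) (p := 2) (by norm_num) x v

lemma hasSum_sg (ξ : L2 α K) : HasSum (fun x => (sg x (ξ x) : L2 α K)) ξ := by
  classical exact lp.hasSum_single (by norm_num) ξ

lemma bdd_const (b : K →L[ℂ] K) : Bdd fun _ : α => b := ⟨‖b‖, fun _ => le_rfl⟩

lemma Bdd.mul {d d' : α → K →L[ℂ] K} (h : Bdd d) (h' : Bdd d') (f : α → α) :
    Bdd fun a => d (f a) * d' a := by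
  obtain ⟨C, h0, hC⟩ := h.nonneg
  obtain ⟨C', -, hC'⟩ := h'.nonneg
  exact ⟨C * C', fun a => (norm_mul_le _ _).trans (mul_le_mul (hC _) (hC' _) (norm_nonneg _) h0)⟩

lemma Bdd.add {d d' : α → K →L[ℂ] K} (h : Bdd d) (h' : Bdd d') : Bdd fun a => d a + d' a := by
  obtain ⟨C, hC⟩ := h
  obtain ⟨C', hC'⟩ := h'
  exact ⟨C + C', fun a => (norm_add_le _ _).trans (add_le_add (hC _) (hC' _))⟩

lemma Bdd.sub {d d' : α → K →L[ℂ] K} (h : Bdd d) (h' : Bdd d') : Bdd fun a => d a - d' a := by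
  obtain ⟨C, hC⟩ := h
  obtain ⟨C', hC'⟩ := h'
  exact ⟨C + C', fun a => (norm_sub_le _ _).trans (add_le_add (hC _) (hC' _))⟩

lemma wp_apply (e : Equiv.Perm α) {d : α → K →L[ℂ] K} (h : Bdd d) (ξ : L2 α K) (y : α) :
    wp e d ξ y = d (e⁻¹ y) (ξ (e⁻¹ y)) := by
  rw [wp, dif_pos h]; rfl

lemma norm_wp_le (e : Equiv.Perm α) {d : α → K →L[ℂ] K} {C : ℝ} (hC : 0 ≤ C)
    (h : ∀ a, ‖d a‖ ≤ C) : ‖wp e d‖ ≤ C :=
  ContinuousLinearMap.opNorm_le_bound _ hC fun ξ =>
    lp.norm_le_of_forall_sum_le (by norm_num) (by positivity) fun s => by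
      simp only [wp_apply e ⟨C, h⟩]; exact wp_aux e hC h ξ s

lemma wp_sg (e : Equiv.Perm α) {d : α → K →L[ℂ] K} (h : Bdd d) (x : α) (v : K) :
    wp e d (sg x v) = sg (e x) (d x v) := by
  refine lp.ext (funext fun z => ?_)
  rw [wp_apply e h]
  by_cases hz : z = e x
  · subst hz; simp
  · rw [sg_apply_ne hz, sg_apply_ne, map_zero]
    rintro rfl
    simp at hz

/-- Operators out of `L2` are determined by their values on the blocks. -/
lemma ext_sg {F : Type*} [NormedAddCommGroup F] [NormedSpace ℂ F] {S T : L2 α K →L[ℂ] F}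
    (h : ∀ x v, S (sg x v) = T (sg x v)) : S = T :=
  ContinuousLinearMap.ext fun ξ => ((hasSum_sg ξ).mapL S).unique (by
    simpa only [h] using (hasSum_sg ξ).mapL T)

/-- Operators on `L2` are determined by their matrix entries. -/
lemma ext_ent {S T : L2 α K →L[ℂ] L2 α K} (h : ∀ x y v, S (sg y v) x = T (sg y v) x) : S = T :=
  ext_sg fun y v => lp.ext (funext fun x => h x y v)

lemma wp_mul (e e' : Equiv.Perm α) {d d' : α → K →L[ℂ] K} (h : Bdd d) (h' : Bdd d') :
    wp e d * wp e' d' = wp (e * e') fun a => d (e' a) * d' a :=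
  ext_sg fun x v => by
    rw [mul_apply_eq_comp, wp_sg _ h', wp_sg _ h, wp_sg _ (h.mul h' e')]; rfl

lemma wp_one : wp (1 : Equiv.Perm α) (fun _ => (1 : K →L[ℂ] K)) = 1 :=
  ext_sg fun x v => by rw [wp_sg _ (bdd_const 1)]; rfl

lemma wp_add (e : Equiv.Perm α) {d d' : α → K →L[ℂ] K} (h : Bdd d) (h' : Bdd d') :
    wp e (fun a => d a + d' a) = wp e d + wp e d' :=
  ext_sg fun x v => by
    rw [add_apply, wp_sg _ h', wp_sg _ h, wp_sg _ (h.add h'), ← map_add]; rfl

lemma wp_sub (e : Equiv.Perm α) {d d' : α → K →L[ℂ] K} (h : Bdd d) (h' : Bdd d') :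
    wp e (fun a => d a - d' a) = wp e d - wp e d' :=
  ext_sg fun x v => by
    rw [sub_apply, wp_sg _ h', wp_sg _ h, wp_sg _ (h.sub h'), ← map_sub]; rfl

lemma Bdd.smul {d : α → K →L[ℂ] K} (h : Bdd d) (c : ℂ) : Bdd fun a => c • d a := by
  obtain ⟨C, hC⟩ := h
  exact ⟨‖c‖ * C, fun a => by rw [norm_smul]; gcongr; exact hC a⟩

lemma wp_smul (e : Equiv.Perm α) {d : α → K →L[ℂ] K} (h : Bdd d) (c : ℂ) :
    wp e (fun a => c • d a) = c • wp e d :=
  ext_sg fun x v => by
    rw [smul_apply, wp_sg _ h, wp_sg _ (h.smul c), ← map_smul]; rfl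

lemma inner_sg_left (x : α) (v : K) (ξ : L2 α K) : ⟪(sg x v : L2 α K), ξ⟫_ℂ = ⟪v, ξ x⟫_ℂ := by
  classical exact lp.inner_single_left (𝕜 := ℂ) (G := fun _ : α => K) x v ξ

lemma inner_sg_right (x : α) (v : K) (ξ : L2 α K) : ⟪ξ, (sg x v : L2 α K)⟫_ℂ = ⟪ξ x, v⟫_ℂ := by
  classical exact lp.inner_single_right (𝕜 := ℂ) (G := fun _ : α => K) x v ξ

variable [CompleteSpace K]

lemma adjoint_sg (x : α) : ContinuousLinearMap.adjoint (sg x : K →L[ℂ] L2 α K) = ev x := by
  symm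
  rw [ContinuousLinearMap.eq_adjoint_iff]
  intro ξ v
  rw [inner_sg_right, ev_apply]

lemma Bdd.star {d : α → K →L[ℂ] K} (h : Bdd d) (f : α → α) : Bdd fun a => star (d (f a)) :=
  h.imp fun _ hC a => by rw [norm_star]; exact hC _

lemma star_wp (e : Equiv.Perm α) {d : α → K →L[ℂ] K} (h : Bdd d) :
    star (wp e d) = wp e⁻¹ fun a => star (d (e⁻¹ a)) := by
  refine ext_ent fun x y v => ext_inner_left ℂ fun w => ?_
  rw [← inner_sg_left, ContinuousLinearMap.star_eq_adjoint, ContinuousLinearMap.adjoint_inner_right,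
    wp_sg _ h, wp_sg _ (h.star _), inner_sg_left]
  by_cases hy : y = e x
  · subst hy
    simp [ContinuousLinearMap.star_eq_adjoint, ContinuousLinearMap.adjoint_inner_right]
  · rw [sg_apply_ne (Ne.symm hy), sg_apply_ne, inner_zero_right, inner_zero_right]
    rintro rfl
    simp at hy

lemma wp_mem_unitary (e : Equiv.Perm α) {d : α → K →L[ℂ] K} (h : ∀ a, d a ∈ unitary (K →L[ℂ] K)) :
    wp e d ∈ unitary (L2 α K →L[ℂ] L2 α K) := by
  have hb : Bdd d := ⟨1, fun a => by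
    rcases subsingleton_or_nontrivial (K →L[ℂ] K) with h' | h'
    · rw [Subsingleton.elim (d a) 0, norm_zero]; exact zero_le_one
    · exact (CStarRing.norm_of_mem_unitary (h a)).le⟩
  constructor
  · rw [star_wp _ hb, wp_mul _ _ (hb.star _) hb, ← wp_one]
    congr 1
    · simp
    · funext a; simpa using (h a).1
  · rw [star_wp _ hb, wp_mul _ _ hb (hb.star _), ← wp_one]
    congr 1
    · simp
    · funext a; exact (h _).2

instance sepL2 [Countable α] [TopologicalSpace.SeparableSpace K] :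
    TopologicalSpace.SeparableSpace (L2 α K) := by
  have h : ∀ x : α, TopologicalSpace.IsSeparable (Set.range (sg x : K →L[ℂ] L2 α K)) := fun x =>
    TopologicalSpace.isSeparable_range (sg x : K →L[ℂ] L2 α K).continuous
  have h2 := (TopologicalSpace.IsSeparable.iUnion h).span (R := ℂ) |>.closure
  refine TopologicalSpace.isSeparable_univ_iff.1 (h2.mono fun ξ _ => ?_)
  refine mem_closure_of_tendsto (hasSum_sg ξ) (.of_forall fun s => ?_)
  exact Submodule.sum_mem _ fun x _ => Submodule.subset_span (Set.mem_iUnion.2 ⟨x, _, rfl⟩)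

end Crest.Agent.KK
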