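import Crest.Agent.KK.B5

/-! Job A4. -/

set_option autoImplicit false

namespace Crest.Agent.KK
open B5

variable {H : Type} [NormedAddCommGroup H] [InnerProductSpace ℂ H] [CompleteSpace H]

/-- the commutant of a set and its adjoint -/
noncomputable def vn (s : Set (H →L[ℂ] H)) : VonNeumannAlgebra H where
  toStarSubalgebra := StarSubalgebra.centralizer ℂ s
  centralizer_centralizer' := by simp

lemma mem_vn {s : Set (H →L[ℂ] H)} {x : H →L[ℂ] H} :
    x ∈ vn s ↔ ∀ g ∈ s, g * x = x * g ∧ star g * x = x * star g :=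
  StarSubalgebra.mem_centralizer_iff ℂ

lemma conj_comm {A : Type} [CStarAlgebra A] {V a b : A} (hV : V ∈ unitary A) (h : Commute a b) :
    V * a * star V * (V * b * star V) = V * b * star V * (V * a * star V) := by
  have : ∀ x, star V * (V * x) = x := fun x => by rw [← mul_assoc, hV.1, one_mul]
  simp only [mul_assoc, this]
  rw [← mul_assoc a, h.eq, mul_assoc]

lemma KD.mono {A G : Type} [CStarAlgebra A] [Group G] {σ₁ σ₂ : G →* unitary A} {δ δ' : ℝ}
    (h : KD σ₁ σ₂ δ) (h' : δ ≤ δ') : KD σ₁ σ₂ δ' := by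
  obtain ⟨ι, B, C, w, h1, h2, h3, h4, h5⟩ := h
  exact ⟨ι, B, C, w, h1, h2, h3, h4.trans h', h5⟩

/-- the right regular representation -/
noncomputable def rho (H : Type) [NormedAddCommGroup H] [InnerProductSpace ℂ H] [CompleteSpace H]
    (Γ : Type) [Group Γ] : Γ →* unitary (L2 Γ H →L[ℂ] L2 Γ H) where
  toFun g := ⟨Rt H g, Rt_unitary g⟩
  map_one' := Subtype.ext (ext_sg fun x v => by simp [Rt_sg])
  map_mul' g h := Subtype.ext (ext_sg fun x v => by simp [Rt_sg, mul_assoc])

theorem jobA4 : JobA4 := by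
  intro hM hN hF
  refine ⟨1 / 100000, by norm_num, fun δ hδ => ?_⟩
  obtain ⟨H, K, _, _, _, _, _, _, _, σ₁, σ₂, p₁, p₂, Z₁, Z₂, J, S₀, T, g₁, g₂, hKD, h1, h2, h3, h4,
    h5, h6, h7⟩ := hM 100000 (min (δ / 3) (1 / 100000)) (by positivity)
  have hV : Vt σ₁ σ₂ ∈ unitary _ := wp_mem_unitary _ fun _ =>
    mul_mem (Unitary.star_mem (σ₂ _).2) (Unitary.star_mem (σ₁ _).2)
  set V := Vt σ₁ σ₂ with hVd
  refine ⟨L2 (F 100000 × F 100000) H, _, _, inferInstance, inferInstance,
    vn (Set.range (fun γ => V * Lt H γ * star V) ∪ Set.range fun b => V * (dg fun _ => b) * star V),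
    vn (Set.range (Lt H)), fun x hx hx1 => ?_, fun u hu hu' => ?_⟩
  · have hc : ∀ t, V * t * star V * x = x * (V * t * star V) → Commute (star V * x * V) t :=
      fun t ht => by
        have := conj_comm (Unitary.star_mem hV) (show Commute _ _ from ht.symm)
        simpa [mul_assoc, hV.1, ← mul_assoc (star V) V, Commute, SemiconjBy] using this
    obtain ⟨X, hX, hX'⟩ := hN _ H σ₁ σ₂ _ (hKD.mono (min_le_left _ _)) (star V * x * V)
      (fun γ => hc _ (mem_vn.1 hx _ (.inl ⟨γ, rfl⟩)).1)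
      (fun b => hc _ (mem_vn.1 hx _ (.inr ⟨b, rfl⟩)).1)
    refine ⟨X, mem_vn.2 ?_, ?_⟩
    · rintro _ ⟨γ, rfl⟩
      exact ⟨(hX γ).symm, by rw [star_Lt]; exact (hX _).symm⟩
    · rw [← hVd, CStarRing.norm_mul_mem_unitary _ hV, CStarRing.norm_mem_unitary_mul _
        (Unitary.star_mem hV), ← mul_assoc, ← mul_assoc, hV.2, one_mul, mul_assoc x, hV.2,
        mul_one] at hX'
      nlinarith [norm_nonneg x]
  · by_contra h
    push Not at h
    have hy : ∀ γ, (((MulAut.conj (⟨u * V, mul_mem hu hV⟩ : unitary _)).toMonoidHom.comp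
        (rho H (F 100000 × F 100000)) γ : unitary _) : L2 _ H →L[ℂ] L2 _ H) =
        u * (V * Rt H γ * star V) * star u := fun γ => by
      simp [← Unitary.star_eq_inv, rho, mul_assoc]
    refine hF 100000 le_rfl H K σ₁ σ₂ p₁ p₂ Z₁ Z₂ J S₀ T g₁ g₂ (hKD.mono (min_le_right _ _)) h1 h2 h3
      h4 h5 h6 h7 ((MulAut.conj (⟨u * V, mul_mem hu hV⟩ : unitary _)).toMonoidHom.comp
        (rho H (F 100000 × F 100000))) (fun γ γ' => ?_) fun γ => ?_
    · rw [hy]
      refine (mem_vn.1 (hu' _ (mem_vn.2 ?_)) _ ⟨γ', rfl⟩).1.symm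
      rintro _ (⟨g, rfl⟩ | ⟨b, rfl⟩)
      · simp only [star_mul, star_star, ← mul_assoc V, star_Lt]
        constructor <;>
          exact conj_comm hV (ext_sg fun x v => by simp [Lt_sg, Rt_sg, mul_assoc])
      · simp only [star_mul, star_star, ← mul_assoc V, star_dc]
        constructor <;> exact conj_comm hV (ext_sg fun x v => by simp [dc_sg, Rt_sg])
    · have hw := mul_mem (mul_mem hV (Rt_unitary γ)) (Unitary.star_mem hV)
      rw [hy, ← hVd]
      generalize V * Rt H γ * star V = w at hw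
      rw [show u * w * star u - w = (u - 1) * (w * star u) + w * star (u - 1) by
        rw [star_sub, star_one]; noncomm_ring]
      refine (norm_add_le _ _).trans ?_
      rw [CStarRing.norm_mul_mem_unitary _ (mul_mem hw (Unitary.star_mem hu)),
        CStarRing.norm_mem_unitary_mul _ hw]
      have : ‖star (u - 1)‖ = ‖u - 1‖ := norm_star _
      linarith

end Crest.Agent.KK
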