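import Crest.Agent.KK.A5a

/-! Row 78, job A5: the algebras. -/

set_option autoImplicit false
set_option linter.unusedSectionVars false
open Filter Topology TopologicalSpace
open scoped InnerProductSpace

namespace Crest.Agent.KK.A5

variable {K : Type} [NormedAddCommGroup K] [InnerProductSpace ℂ K] [CompleteSpace K]

lemma norm_u_le {U : K →L[ℂ] K} (hU : U ∈ unitary (K →L[ℂ] K)) : ‖U‖ ≤ 1 := by
  rcases subsingleton_or_nontrivial (K →L[ℂ] K) with h' | h'
  · rw [Subsingleton.elim U 0, norm_zero]; exact zero_le_one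
  · exact (CStarRing.norm_of_mem_unitary hU).le

lemma bdd_conj {θ : ℕ → K →L[ℂ] K} (hθ : ∀ k, θ k ∈ unitary (K →L[ℂ] K)) (d : K →L[ℂ] K) :
    Bdd fun k => θ k * d * star (θ k) := ⟨‖d‖, fun k => (norm_conj (hθ k) d).le⟩

/-- The eventually exact elements. -/
noncomputable def A₀ (E D : StarSubalgebra ℂ (K →L[ℂ] K)) (θ : ℕ → K →L[ℂ] K)
    (hθ : ∀ k, θ k ∈ unitary (K →L[ℂ] K)) : StarSubalgebra ℂ (L2 ℕ K →L[ℂ] L2 ℕ K) where
  carrier := {y | ∃ a : ℕ → K →L[ℂ] K, Bdd a ∧ (∀ k, a k ∈ E) ∧ y = dg a ∧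
    ∃ d ∈ D, ∀ᶠ k in atTop, a k = θ k * d * star (θ k)}
  mul_mem' := by
    rintro _ _ ⟨a, ha, hE, rfl, d, hd, h⟩ ⟨a', ha', hE', rfl, d', hd', h'⟩
    refine ⟨fun k => a k * a' k, ha.mul ha' id, fun k => mul_mem (hE k) (hE' k), ?_, d * d',
      mul_mem hd hd', ?_⟩
    · rw [wp_mul _ _ ha ha']; rfl
    · filter_upwards [h, h'] with k h1 h2
      rw [h1, h2]
      simp only [mul_assoc]
      rw [← mul_assoc (star (θ k)), (hθ k).1, one_mul]
  add_mem' := by
    rintro _ _ ⟨a, ha, hE, rfl, d, hd, h⟩ ⟨a', ha', hE', rfl, d', hd', h'⟩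
    refine ⟨fun k => a k + a' k, ha.add ha', fun k => add_mem (hE k) (hE' k),
      (wp_add _ ha ha').symm, d + d', add_mem hd hd', ?_⟩
    filter_upwards [h, h'] with k h1 h2
    rw [h1, h2, mul_add, add_mul]
  algebraMap_mem' := fun c => by
    refine ⟨fun _ => c • 1, bdd_const _, fun k => E.smul_mem (one_mem _) c, ?_, c • 1,
      D.smul_mem (one_mem _) c, .of_forall fun k => ?_⟩
    · rw [dg, wp_smul _ (bdd_const 1), wp_one, Algebra.algebraMap_eq_smul_one]
    · rw [mul_smul_comm, smul_mul_assoc, mul_one, (hθ k).2]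
  star_mem' := by
    rintro _ ⟨a, ha, hE, rfl, d, hd, h⟩
    refine ⟨fun k => star (a k), ha.star id, fun k => star_mem (hE k), ?_, star d, star_mem hd, ?_⟩
    · rw [star_wp _ ha]; rfl
    · filter_upwards [h] with k h1
      rw [h1, star_mul, star_mul, star_star, mul_assoc]

variable {E D : StarSubalgebra ℂ (K →L[ℂ] K)} {θ θ' : ℕ → K →L[ℂ] K}

lemma sep_A₀ (hθ : ∀ k, θ k ∈ unitary (K →L[ℂ] K)) (hE : IsSeparable (E : Set (K →L[ℂ] K)))
    (hDE : D ≤ E) (hθE : ∀ k, ∀ d ∈ D, θ k * d * star (θ k) ∈ E) :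
    IsSeparable (A₀ E D θ hθ : Set (L2 ℕ K →L[ℂ] L2 ℕ K)) := by
  have c1 : ∀ k, Continuous (ob k : (K →L[ℂ] K) → _) := fun k => by
    unfold ob; fun_prop
  have c2 : Continuous fun d : K →L[ℂ] K => dg fun k => θ k * d * star (θ k) := by
    refine (LipschitzWith.of_dist_le_mul (K := 1) fun d d' => ?_).continuous
    rw [dist_eq_norm, dist_eq_norm, ← wp_sub _ (bdd_conj hθ d) (bdd_conj hθ d'), NNReal.coe_one,
      one_mul]
    exact norm_wp_le _ (norm_nonneg _) fun k => by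
      rw [← sub_mul, ← mul_sub, norm_conj (hθ k)]
  have s1 := IsSeparable.iUnion fun k => hE.image (c1 k)
  have s2 := (hE.mono (show (D : Set (K →L[ℂ] K)) ⊆ E from hDE)).image c2
  refine ((s1.union s2).span (R := ℂ)).mono ?_
  rintro _ ⟨a, ha, haE, rfl, d, hd, h⟩
  obtain ⟨N, hN⟩ := eventually_atTop.1 h
  have : dg a = (dg fun k => θ k * d * star (θ k)) +
      ∑ k ∈ Finset.range N, ob k (a k - θ k * d * star (θ k)) := by
    refine ext_sg fun i v => ?_
    rw [add_apply, wp_sg _ ha, wp_sg _ (bdd_conj hθ d),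
      sum_apply, Finset.sum_eq_single i]
    · simp [ob_apply]
    · intro k _ hk; simp [ob_apply, sg_apply_ne hk]
    · intro hi
      rw [hN i (by simpa using hi), sub_self]; simp [ob_apply]
  rw [this]
  refine Submodule.add_mem _ (Submodule.subset_span (Or.inr ⟨d, hd, rfl⟩))
    (Submodule.sum_mem _ fun k _ => Submodule.subset_span (Or.inl (Set.mem_iUnion.2
      ⟨k, _, sub_mem (haE k) (hθE k d hd), rfl⟩)))

lemma cent_A (hθ : ∀ k, θ k ∈ unitary (K →L[ℂ] K)) :
    ((A₀ E D θ hθ).topologicalClosure : Set (L2 ℕ K →L[ℂ] L2 ℕ K)).centralizer =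
      (OB (E : Set (K →L[ℂ] K))).centralizer := by
  refine subset_antisymm (Set.centralizer_subset ?_) fun T hT y hy => ?_
  · rintro _ ⟨k, e, he, rfl⟩
    refine (A₀ E D θ hθ).le_topologicalClosure ⟨_, bdd_single k e, fun i => ?_, ob_eq_dg k e, 0,
      zero_mem _, ?_⟩
    · split_ifs
      · exact he
      · exact zero_mem _
    · filter_upwards [eventually_gt_atTop k] with i hi
      simp [hi.ne']
  · have : IsClosed {y : L2 ℕ K →L[ℂ] L2 ℕ K | y * T = T * y} :=
      isClosed_eq (by fun_prop) (by fun_prop)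
    refine closure_minimal ?_ this hy
    rintro _ ⟨a, ha, haE, rfl, -⟩
    exact dg_comm (one_mem E) hT ha haE

lemma norm_le_dg {a : ℕ → K →L[ℂ] K} (ha : Bdd a) (k : ℕ) : ‖a k‖ ≤ ‖dg a‖ := by
  rw [← ent_dg k ha]; exact norm_ent_le _ _ _

lemma close (hθ : ∀ k, θ k ∈ unitary (K →L[ℂ] K)) (hθ' : ∀ k, θ' k ∈ unitary (K →L[ℂ] K))
    (hθE : ∀ k, ∀ d ∈ D, θ k * d * star (θ k) ∈ E) (hθE' : ∀ k, ∀ d ∈ D, θ' k * d * star (θ' k) ∈ E)
    {η : ℝ} (h0 : 0 < η) (h1 : η ≤ 1) (hη : ∀ k, ‖θ k - θ' k‖ ≤ η) :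
    ∀ y ∈ (A₀ E D θ hθ).topologicalClosure, ‖y‖ ≤ 1 →
      ∃ z ∈ (A₀ E D θ' hθ').topologicalClosure, ‖z‖ ≤ 1 ∧ ‖y - z‖ < 11 * η := by
  intro y hy hy1
  obtain ⟨_, ⟨a, ha, haE, rfl, d, hd, h⟩, hya⟩ := Metric.mem_closure_iff.1 hy η h0
  rw [dist_eq_norm] at hya
  have ha2 : ‖dg a‖ ≤ 2 := by
    have := norm_sub_le y (y - dg a)
    rw [sub_sub_cancel] at this
    linarith
  have hd2 : ‖d‖ ≤ 2 := by
    obtain ⟨k, hk⟩ := h.exists
    rw [← norm_conj (hθ k), ← hk]
    exact (norm_le_dg ha k).trans ha2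
  have hb := (bdd_conj hθ d).sub (bdd_conj hθ' d)
  have hz : dg (fun k => a k - (θ k * d * star (θ k) - θ' k * d * star (θ' k))) ∈ A₀ E D θ' hθ' := by
    refine ⟨_, ha.sub hb, fun k => sub_mem (haE k) (sub_mem (hθE k d hd) (hθE' k d hd)), rfl, d, hd,
      ?_⟩
    filter_upwards [h] with k hk
    rw [hk, sub_sub_cancel]
  set z := dg (fun k => a k - (θ k * d * star (θ k) - θ' k * d * star (θ' k))) with hzd
  have hyz : ‖y - z‖ < 5 * η := by
    have e : y - z = (y - dg a) + dg fun k => θ k * d * star (θ k) - θ' k * d * star (θ' k) := by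
      rw [hzd, dg, wp_sub _ ha hb]; abel
    have : ‖dg fun k => θ k * d * star (θ k) - θ' k * d * star (θ' k)‖ ≤ 4 * η :=
      norm_wp_le _ (by positivity) fun k => by
        have e : θ k * d * star (θ k) - θ' k * d * star (θ' k) =
            (θ k - θ' k) * d * star (θ k) + θ' k * d * star (θ k - θ' k) := by
          rw [star_sub]; noncomm_ring
        have n1 : ‖(θ k - θ' k) * d * star (θ k)‖ ≤ η * 2 := by
          rw [CStarRing.norm_mul_mem_unitary _ (Unitary.star_mem (hθ k))]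
          exact (norm_mul_le _ _).trans (mul_le_mul (hη k) hd2 (norm_nonneg _) h0.le)
        have n2 : ‖θ' k * d * star (θ k - θ' k)‖ ≤ 2 * η := by
          rw [mul_assoc, CStarRing.norm_mem_unitary_mul _ (hθ' k)]
          exact (norm_mul_le _ _).trans
            (mul_le_mul hd2 ((norm_star _).trans_le (hη k)) (norm_nonneg _) zero_le_two)
        rw [e]
        exact (norm_add_le _ _).trans (by linarith)
    rw [e]
    exact (norm_add_le _ _).trans_lt (by linarith)
  have hz1 : ‖z‖ ≤ 1 + 5 * η := by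
    have := norm_sub_le y (y - z)
    rw [sub_sub_cancel] at this
    linarith
  have hp : (0 : ℝ) < 1 + 5 * η := by positivity
  refine ⟨(((1 + 5 * η)⁻¹ : ℝ) : ℂ) • z, StarSubalgebra.smul_mem _
    ((A₀ E D θ' hθ').le_topologicalClosure hz) _, ?_, ?_⟩
  · rw [norm_smul, Complex.norm_real, Real.norm_of_nonneg (by positivity), inv_mul_le_iff₀ hp,
      mul_one]
    exact hz1
  · have e : y - (((1 + 5 * η)⁻¹ : ℝ) : ℂ) • z =
        (y - z) + ((5 * η * (1 + 5 * η)⁻¹ : ℝ) : ℂ) • z := by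
      have : (5 * η * (1 + 5 * η)⁻¹ : ℝ) = 1 - (1 + 5 * η)⁻¹ := by field_simp; ring
      rw [this, Complex.ofReal_sub, sub_smul, Complex.ofReal_one, one_smul]; abel
    have n : ‖((5 * η * (1 + 5 * η)⁻¹ : ℝ) : ℂ) • z‖ ≤ 5 * η := by
      rw [norm_smul, Complex.norm_real, Real.norm_of_nonneg (by positivity), mul_assoc]
      refine mul_le_of_le_one_right (by positivity) ?_
      rw [inv_mul_le_iff₀ hp, mul_one]; exact hz1
    rw [e]
    exact (norm_add_le _ _).trans_lt (by linarith)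

lemma no_unitary [Nontrivial K] (hθ : ∀ k, θ k ∈ unitary (K →L[ℂ] K))
    (hf : ∀ z ∈ (E : Set (K →L[ℂ] K)).centralizer,
      z ∈ (E : Set (K →L[ℂ] K)).centralizer.centralizer → ∃ c : ℂ, z = c • 1)
    (hθE : ∀ k, ∀ d ∈ D, θ k * d * star (θ k) ∈ E) {n : ℕ} {x : Fin n → K →L[ℂ] K}
    (hx : ∀ s, x s ∈ D) {u : L2 ℕ K →L[ℂ] L2 ℕ K} (hu : u ∈ unitary _)
    (h : ∀ y, y ∈ (A₀ E D θ hθ).topologicalClosure ↔
      ∃ x ∈ (A₀ E D (fun _ => 1) fun _ => one_mem _).topologicalClosure, y = u * x * star u)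
    {δ : ℝ} (hδ : 0 < δ) : ∃ r : ℝ, ∀ᶠ j in atTop,
      |FL (E : Set (K →L[ℂ] K)) (fun s => θ j * x s * star (θ j)) - r| ≤ n * δ := by
  have hA : ∀ y ∈ (A₀ E D θ hθ).topologicalClosure,
      star u * y * u ∈ (A₀ E D (fun _ => 1) fun _ => one_mem _).topologicalClosure := fun y hy => by
    obtain ⟨x, hx, rfl⟩ := (h y).1 hy
    simpa only [← mul_assoc, hu.1, one_mul, mul_assoc _ (star u) u, mul_one] using hx
  have hB : ∀ x ∈ (A₀ E D (fun _ => 1) fun _ => one_mem _).topologicalClosure,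
      u * x * star u ∈ (A₀ E D θ hθ).topologicalClosure := fun x hx => (h _).2 ⟨x, hx, rfl⟩
  have h1 : ∀ T ∈ (OB (E : Set (K →L[ℂ] K))).centralizer,
      u * T * star u ∈ (OB (E : Set (K →L[ℂ] K))).centralizer := fun T hT => by
    rw [← cent_A (D := D) hθ]
    rw [← cent_A (D := D) (θ := fun _ => 1) fun _ => one_mem _] at hT
    intro y hy
    have := hT _ (hA y hy)
    calc y * (u * T * star u) = u * ((star u * y * u) * T) * star u := by
          simp only [← mul_assoc, hu.2, one_mul]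
      _ = _ := by rw [this]; simp only [mul_assoc, hu.2, mul_one]
  have h2 : ∀ T ∈ (OB (E : Set (K →L[ℂ] K))).centralizer,
      star u * T * u ∈ (OB (E : Set (K →L[ℂ] K))).centralizer := fun T hT => by
    rw [← cent_A (D := D) (θ := fun _ => 1) fun _ => one_mem _]
    rw [← cent_A (D := D) hθ] at hT
    intro y hy
    have := hT _ (hB y hy)
    calc y * (star u * T * u) = star u * ((u * y * star u) * T) * u := by
          simp only [← mul_assoc, hu.1, one_mul]
      _ = _ := by rw [this]; simp only [mul_assoc, hu.1, mul_one]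
  choose π hπ using perm (one_mem E) hf hu h1 h2
  have hinj : Function.Injective π := fun j j' hj => by
    by_contra hne
    have e : star u * ob j 1 * u = star u * ob j' 1 * u := by rw [hπ, hπ, hj]
    have e' : ob j (1 : K →L[ℂ] K) = ob j' 1 := by
      have := congrArg (fun f => u * f * star u) e
      simpa only [← mul_assoc, hu.2, one_mul, mul_assoc _ u (star u), mul_one] using this
    refine ob_ne_zero (K := K) j ?_
    have := ob_mul_ob_ne hne (1 : K →L[ℂ] K) 1
    rwa [← e', ob_mul_ob, mul_one] at this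
  have hb : ∀ s, (dg fun k => θ k * x s * star (θ k)) ∈ (A₀ E D θ hθ).topologicalClosure := fun s =>
    (A₀ E D θ hθ).le_topologicalClosure ⟨_, bdd_conj hθ _, fun k => hθE k _ (hx s), rfl, x s, hx s,
      .of_forall fun _ => rfl⟩
  have key : ∀ s, ∃ d : K →L[ℂ] K, ∀ᶠ k in atTop,
      ‖ent k k (star u * (dg fun k => θ k * x s * star (θ k)) * u) - d‖ ≤ δ := fun s => by
    obtain ⟨_, ⟨a, ha, -, rfl, d, -, h⟩, hya⟩ := Metric.mem_closure_iff.1 (hA _ (hb s)) δ hδ
    refine ⟨d, h.mono fun k hk => ?_⟩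
    rw [star_one, one_mul, mul_one] at hk
    rw [← hk, ← ent_dg k ha, ← ent_sub]
    exact (norm_ent_le _ _ _).trans (by rw [← dist_eq_norm]; exact hya.le)
  choose d hd using key
  refine ⟨FL (E : Set (K →L[ℂ] K)) d, ?_⟩
  filter_upwards [hinj.nat_tendsto_atTop.eventually (eventually_all.2 hd)] with j hj
  have t := FL_transport hu h1 h2 (hπ j) fun s => dg fun k => θ k * x s * star (θ k)
  simp only [ent_dg j (bdd_conj hθ _)] at t
  rw [← t]
  have s1 : ∑ s, ‖ent (π j) (π j) (star u * (dg fun k => θ k * x s * star (θ k)) * u) - d s‖ ≤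
      n * δ := (Finset.sum_le_sum fun s _ => hj s).trans (by simp)
  have l1 := FL_le (E := (E : Set (K →L[ℂ] K)))
    (fun s => ent (π j) (π j) (star u * (dg fun k => θ k * x s * star (θ k)) * u)) d
  have l2 := FL_le (E := (E : Set (K →L[ℂ] K))) d
    (fun s => ent (π j) (π j) (star u * (dg fun k => θ k * x s * star (θ k)) * u))
  simp only [norm_sub_rev (d _)] at l2
  rw [abs_le]
  constructor <;> linarith

end A5

open A5 in
theorem jobA5 : JobA5 := by
  intro H ε hε
  obtain ⟨K, _, _, _, _, _, E, D, W, n, x, -, hE, hf, -, hDE, hW, hW1, hWE, hx, hne⟩ :=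
    H (min (ε / 11) 1) (by positivity)
  set θ : ℕ → K →L[ℂ] K := fun k => if Even k then W else 1 with hθd
  have hθ : ∀ k, θ k ∈ unitary (K →L[ℂ] K) := fun k => by
    simp only [hθd]; split_ifs
    · exact hW
    · exact one_mem _
  have h1E : ∀ k : ℕ, ∀ d ∈ D, (fun _ : ℕ => (1 : K →L[ℂ] K)) k * d *
      star ((fun _ : ℕ => (1 : K →L[ℂ] K)) k) ∈ E := fun k d hd => by simpa using hDE hd
  have hθE : ∀ k, ∀ d ∈ D, θ k * d * star (θ k) ∈ E := fun k d hd => by
    simp only [hθd]; split_ifs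
    · exact hWE d hd
    · exact h1E k d hd
  have hη : ∀ k, ‖θ k - 1‖ ≤ min (ε / 11) 1 := fun k => by
    simp only [hθd]; split_ifs
    · exact hW1
    · rw [sub_self, norm_zero]; positivity
  have h11 : 11 * min (ε / 11) 1 ≤ ε := by have := min_le_left (ε / 11) 1; linarith
  refine ⟨L2 ℕ K, inferInstance, inferInstance, inferInstance, inferInstance,
    (A₀ E D (fun _ => 1) fun _ => one_mem _).topologicalClosure, (A₀ E D θ hθ).topologicalClosure,
    StarSubalgebra.isClosed_topologicalClosure _, StarSubalgebra.isClosed_topologicalClosure _,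
    (sep_A₀ _ hE hDE h1E).closure, (sep_A₀ _ hE hDE hθE).closure, fun a ha ha1 => ?_,
    fun a ha ha1 => ?_, by rw [cent_A, cent_A], ?_⟩
  · obtain ⟨z, hz, h1, h2⟩ := close _ hθ h1E hθE (η := min (ε / 11) 1) (by positivity) (min_le_right _ _)
      (fun k => by rw [norm_sub_rev]; exact hη k) a ha ha1
    exact ⟨z, hz, h1, h2.trans_le h11⟩
  · obtain ⟨z, hz, h1, h2⟩ := close hθ (fun _ => one_mem _) hθE h1E (by positivity)
      (min_le_right _ _) hη a ha ha1
    exact ⟨z, hz, h1, h2.trans_le h11⟩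
  · rintro ⟨u, hu, h⟩
    refine hne (eq_of_forall_dist_le fun δ hδ => ?_)
    obtain ⟨r, hr⟩ := no_unitary hθ hf hθE hx hu h (δ := δ / (2 * n + 1)) (by positivity)
    obtain ⟨N, hN⟩ := eventually_atTop.1 hr
    have e1 := hN (2 * N) (by omega)
    have e2 := hN (2 * N + 1) (by omega)
    simp only [hθd, even_two_mul, if_true, Nat.even_add_one, not_true, if_false, star_one, one_mul,
      mul_one] at e1 e2
    have : (n : ℝ) * (δ / (2 * n + 1)) ≤ δ / 2 := by
      rw [← mul_div_assoc, div_le_div_iff₀ (by positivity) (by positivity)]; nlinarith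
    rw [Real.dist_eq, abs_le]
    rw [abs_le] at e1 e2
    constructor <;> linarith [e1.1, e1.2, e2.1, e2.2]

end Crest.Agent.KK
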