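import Crest.Agent.KK.Defs

/-! Row 78, job A5, part a: blocks, the commutant, the invariant `FL`. -/

set_option autoImplicit false
set_option linter.unusedSectionVars false
open Filter Topology TopologicalSpace
open scoped InnerProductSpace

namespace Crest.Agent.KK.A5

variable {K : Type} [NormedAddCommGroup K] [InnerProductSpace ℂ K] [CompleteSpace K]

/-- One-block operators. -/
noncomputable def ob (k : ℕ) (x : K →L[ℂ] K) : L2 ℕ K →L[ℂ] L2 ℕ K := sg k ∘L x ∘L ev k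

/-- Matrix entries. -/
noncomputable def ent (k j : ℕ) (y : L2 ℕ K →L[ℂ] L2 ℕ K) : K →L[ℂ] K := ev k ∘L y ∘L sg j

lemma ob_apply (k : ℕ) (x : K →L[ℂ] K) (ξ : L2 ℕ K) : ob k x ξ = sg k (x (ξ k)) := rfl

lemma ent_apply (k j : ℕ) (y : L2 ℕ K →L[ℂ] L2 ℕ K) (v : K) : ent k j y v = y (sg j v) k := rfl

lemma norm_ent_le (k j : ℕ) (y : L2 ℕ K →L[ℂ] L2 ℕ K) : ‖ent k j y‖ ≤ ‖y‖ :=
  ContinuousLinearMap.opNorm_le_bound _ (norm_nonneg _) fun v => by
    rw [ent_apply]
    refine (lp.norm_apply_le_norm (by norm_num) _ k).trans ?_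
    simpa using y.le_opNorm (sg j v)

lemma norm_ob_le (k : ℕ) (x : K →L[ℂ] K) : ‖ob k x‖ ≤ ‖x‖ :=
  ContinuousLinearMap.opNorm_le_bound _ (norm_nonneg _) fun ξ => by
    rw [ob_apply, norm_sg]
    exact (x.le_opNorm _).trans
      (mul_le_mul_of_nonneg_left (lp.norm_apply_le_norm (by norm_num) ξ k) (norm_nonneg _))

lemma ent_sub (k j : ℕ) (y z : L2 ℕ K →L[ℂ] L2 ℕ K) : ent k j (y - z) = ent k j y - ent k j z := by
  ext v; simp [ent_apply]

lemma ent_dg (k : ℕ) {a : ℕ → K →L[ℂ] K} (h : Bdd a) : ent k k (dg a) = a k := by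
  ext v; rw [ent_apply, wp_sg _ h]; simp

lemma ent_mul_ob (k j i : ℕ) (y z : L2 ℕ K →L[ℂ] L2 ℕ K) (x : K →L[ℂ] K) :
    ent k i (y * ob j x * z) = ent k j y * x * ent j i z := rfl

lemma ent_ob (k : ℕ) (x : K →L[ℂ] K) : ent k k (ob k x) = x := by
  ext v; simp [ent_apply, ob_apply]

lemma ent_ob_mul (k i : ℕ) (x : K →L[ℂ] K) (y : L2 ℕ K →L[ℂ] L2 ℕ K) :
    ent k i (ob k x * y) = x * ent k i y := by
  ext v; simp [ent_apply, ob_apply]

lemma ent_mul_ob' (k i : ℕ) (x : K →L[ℂ] K) (y : L2 ℕ K →L[ℂ] L2 ℕ K) :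
    ent i k (y * ob k x) = ent i k y * x := by
  ext v; simp [ent_apply, ob_apply]

lemma star_ent (k j : ℕ) (y : L2 ℕ K →L[ℂ] L2 ℕ K) : star (ent k j y) = ent j k (star y) := by
  rw [ContinuousLinearMap.star_eq_adjoint, ContinuousLinearMap.star_eq_adjoint, ent, ent,
    ContinuousLinearMap.adjoint_comp, ContinuousLinearMap.adjoint_comp, adjoint_sg, ← adjoint_sg k,
    ContinuousLinearMap.adjoint_adjoint]
  rfl

lemma ob_mul_ob (k : ℕ) (x y : K →L[ℂ] K) : ob k x * ob k y = ob k (x * y) := by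
  ext1 ξ; simp [ob_apply]

lemma ob_mul_ob_ne {k j : ℕ} (h : k ≠ j) (x y : K →L[ℂ] K) : ob k x * ob j y = 0 := by
  ext1 ξ; simp [ob_apply, sg_apply_ne h]

lemma bdd_single (k : ℕ) (x : K →L[ℂ] K) : Bdd fun i => if i = k then x else 0 :=
  ⟨‖x‖, fun i => by dsimp only; split_ifs <;> simp⟩

lemma ob_eq_dg (k : ℕ) (x : K →L[ℂ] K) : ob k x = dg fun i => if i = k then x else 0 :=
  ext_sg fun i v => by
    rw [wp_sg _ (bdd_single k x), ob_apply]
    by_cases h : i = k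
    · subst h; simp
    · simp [h, sg_apply_ne (Ne.symm h)]

lemma ob_ne_zero [Nontrivial K] (k : ℕ) : ob k (1 : K →L[ℂ] K) ≠ 0 := fun h => by
  have := ent_ob k (1 : K →L[ℂ] K)
  rw [h] at this
  exact one_ne_zero (α := K →L[ℂ] K) (this.symm.trans (by ext v; simp [ent_apply]))

/-- The one-block operators with entries in `E`. -/
def OB (E : Set (K →L[ℂ] K)) : Set (L2 ℕ K →L[ℂ] L2 ℕ K) := {y | ∃ k, ∃ e ∈ E, y = ob k e}

variable {E : Set (K →L[ℂ] K)}

lemma ob_mem_C {c : K →L[ℂ] K} (hc : c ∈ E.centralizer) (k : ℕ) : ob k c ∈ (OB E).centralizer := by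
  rintro _ ⟨j, e, he, rfl⟩
  by_cases h : j = k
  · subst h; rw [ob_mul_ob, ob_mul_ob, hc e he]
  · rw [ob_mul_ob_ne h, ob_mul_ob_ne (Ne.symm h)]

lemma ent_mem {T : L2 ℕ K →L[ℂ] L2 ℕ K} (hT : T ∈ (OB E).centralizer) (k : ℕ) :
    ent k k T ∈ E.centralizer := fun e he => by
  rw [← ent_ob_mul, hT _ ⟨k, e, he, rfl⟩, ent_mul_ob']

lemma mul_p (h1 : (1 : K →L[ℂ] K) ∈ E) {T : L2 ℕ K →L[ℂ] L2 ℕ K} (hT : T ∈ (OB E).centralizer)
    (k : ℕ) : T * ob k 1 = ob k (ent k k T) := by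
  have h := hT _ ⟨k, 1, h1, rfl⟩
  have : T * ob k 1 = ob k 1 * T * ob k 1 := by rw [h, mul_assoc, ob_mul_ob, mul_one]
  rw [this]; rfl

lemma dg_comm (h1 : (1 : K →L[ℂ] K) ∈ E) {T : L2 ℕ K →L[ℂ] L2 ℕ K} (hT : T ∈ (OB E).centralizer)
    {a : ℕ → K →L[ℂ] K} (ha : Bdd a) (hE : ∀ k, a k ∈ E) : dg a * T = T * dg a :=
  ext_sg fun k v => by
    have e1 : (sg k v : L2 ℕ K) = ob k 1 (sg k v) := by simp [ob_apply]
    have e2 : T (sg k v) = sg k (ent k k T v) := by
      conv_lhs => rw [e1]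
      rw [← mul_apply_eq_comp]
      rw [mul_p h1 hT]; simp [ob_apply]
    have e3 : T (sg k (a k v)) = sg k (ent k k T (a k v)) := by
      have e1' : (sg k (a k v) : L2 ℕ K) = ob k 1 (sg k (a k v)) := by simp [ob_apply]
      conv_lhs => rw [e1']
      rw [← mul_apply_eq_comp]
      rw [mul_p h1 hT]; simp [ob_apply]
    change dg a (T (sg k v)) = T (dg a (sg k v))
    rw [e2, wp_sg _ ha, wp_sg _ ha]
    change _ = T (sg k (a k v))
    rw [e3]
    exact congrArg (sg k) (congrArg (fun f : K →L[ℂ] K => f v) (ent_mem hT k _ (hE k)))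

/-- The centre of the commutant acts by scalars on the blocks. -/
lemma centre (h1 : (1 : K →L[ℂ] K) ∈ E)
    (hf : ∀ z ∈ E.centralizer, z ∈ E.centralizer.centralizer → ∃ c : ℂ, z = c • 1)
    {z : L2 ℕ K →L[ℂ] L2 ℕ K} (hz : z ∈ (OB E).centralizer)
    (hz' : z ∈ (OB E).centralizer.centralizer) (k : ℕ) : ∃ c : ℂ, z * ob k 1 = c • ob k 1 := by
  obtain ⟨c, hc⟩ := hf _ (ent_mem hz k) fun e he => by
    rw [← ent_ob_mul, hz' _ (ob_mem_C he k), ent_mul_ob']
  refine ⟨c, ?_⟩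
  rw [mul_p h1 hz, hc]
  ext1 ξ; simp [ob_apply]

lemma p_mem (k : ℕ) : ob k 1 ∈ (OB E).centralizer := ob_mem_C (fun e _ => by simp) k

lemma p_mem' (h1 : (1 : K →L[ℂ] K) ∈ E) (k : ℕ) : ob k 1 ∈ (OB E).centralizer.centralizer :=
  Set.subset_centralizer_centralizer ⟨k, 1, h1, rfl⟩

section conj
variable {R : Type*} [Ring R] [StarRing R] {C : Set R} {u : R}

lemma conj_cc (hu : u ∈ unitary R) (h : ∀ T ∈ C, u * T * star u ∈ C) {z : R}
    (hz : z ∈ C.centralizer) : star u * z * u ∈ C.centralizer := fun T hT => by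
  have := hz _ (h T hT)
  calc T * (star u * z * u) = star u * ((u * T * star u) * z) * u := by
        simp only [← mul_assoc, hu.1, one_mul]
    _ = _ := by rw [this]; simp only [mul_assoc, hu.1, mul_one]

end conj

/-- A unitary normalising the commutant permutes the blocks. -/
lemma perm [Nontrivial K] (h1 : (1 : K →L[ℂ] K) ∈ E)
    (hf : ∀ z ∈ E.centralizer, z ∈ E.centralizer.centralizer → ∃ c : ℂ, z = c • 1)
    {u : L2 ℕ K →L[ℂ] L2 ℕ K} (hu : u ∈ unitary _)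
    (h : ∀ T ∈ (OB E).centralizer, u * T * star u ∈ (OB E).centralizer)
    (h' : ∀ T ∈ (OB E).centralizer, star u * T * u ∈ (OB E).centralizer) (j : ℕ) :
    ∃ k, star u * ob j 1 * u = ob k 1 := by
  set q := star u * ob j 1 * u with hq
  have hq1 : q ∈ (OB E).centralizer := h' _ (p_mem j)
  have hq2 : q ∈ (OB E).centralizer.centralizer := conj_cc hu h (p_mem' h1 j)
  have hqq : q * q = q := by
    simp only [hq, mul_assoc]
    rw [← mul_assoc u, hu.2, one_mul, ← mul_assoc (ob j 1), ob_mul_ob, mul_one]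
  have hq0 : q ≠ 0 := fun h0 => ob_ne_zero (K := K) j (by
    have : u * q * star u = ob j 1 := by
      simp only [hq, ← mul_assoc, hu.2, one_mul]; rw [mul_assoc, hu.2, mul_one]
    rw [← this, h0, mul_zero, zero_mul])
  obtain ⟨k, hk⟩ : ∃ k, q * ob k 1 ≠ 0 := by
    by_contra hc
    push Not at hc
    refine hq0 (ext_sg fun k v => ?_)
    have := congrArg (fun f : L2 ℕ K →L[ℂ] L2 ℕ K => f (sg k v)) (hc k)
    simpa [ob_apply] using this
  refine ⟨k, ?_⟩
  obtain ⟨c, hc⟩ := centre h1 hf hq1 hq2 k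
  have hu' : star u ∈ unitary (L2 ℕ K →L[ℂ] L2 ℕ K) := Unitary.star_mem hu
  obtain ⟨c', hc'⟩ := centre h1 hf (h _ (p_mem k))
    (by simpa using conj_cc hu' (by simpa using h') (p_mem' h1 k)) j
  have hpq : ob k 1 * q = c' • q := by
    have := congrArg (fun f => star u * f * u) hc'
    simp only [← mul_assoc, hu.1, one_mul, mul_smul_comm, smul_mul_assoc] at this
    simpa only [hq, mul_assoc] using this
  have hcomm : ob k 1 * q = q * ob k 1 := hq2 _ (p_mem k)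
  have hc1 : q * ob k 1 = ob k 1 := by
    have h0 : c ≠ 0 := by rintro rfl; exact hk (by simpa using hc)
    have : c • (q * ob k 1) = c • ob k 1 := by
      rw [← mul_smul_comm, ← hc, ← mul_assoc, hqq]
    exact smul_right_injective _ h0 this
  have hc2 : ob k 1 * q = q := by
    have h0 : c' ≠ 0 := by rintro rfl; exact hk (by rw [← hcomm]; simpa using hpq)
    have : c' • (ob k 1 * q) = c' • q := by
      rw [← mul_smul_comm, ← hpq, ← mul_assoc, ob_mul_ob, mul_one]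
    exact smul_right_injective _ h0 this
  rw [← hc2, hcomm, hc1]

/-! ### The invariant -/

/-- The set whose supremum is `FL`. -/
def FS (E : Set (K →L[ℂ] K)) {n : ℕ} (x : Fin n → K →L[ℂ] K) : Set ℝ :=
  {r | ∃ u : Fin n → K →L[ℂ] K, (∀ s, u s ∈ E.centralizer ∧ ‖u s‖ ≤ 1) ∧ r = ‖∑ s, u s * x s‖}

lemma norm_sum_le' {n : ℕ} {u : Fin n → K →L[ℂ] K} (hu : ∀ s, ‖u s‖ ≤ 1) (x : Fin n → K →L[ℂ] K) :
    ‖∑ s, u s * x s‖ ≤ ∑ s, ‖x s‖ :=
  (norm_sum_le _ _).trans (Finset.sum_le_sum fun s _ =>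
    (norm_mul_le _ _).trans (mul_le_of_le_one_left (norm_nonneg _) (hu s)))

lemma FL_le {n : ℕ} (x y : Fin n → K →L[ℂ] K) : FL E x ≤ FL E y + ∑ s, ‖x s - y s‖ := by
  have hb : BddAbove (FS E y) := ⟨∑ s, ‖y s‖, by
    rintro _ ⟨u, hu, rfl⟩; exact norm_sum_le' (fun s => (hu s).2) y⟩
  refine csSup_le (s := FS E x) ⟨_, 0, fun s => ⟨fun e _ => by simp, by simp⟩, rfl⟩ ?_
  rintro _ ⟨u, hu, rfl⟩
  have h1 : ‖∑ s, u s * y s‖ ≤ FL E y := le_csSup hb ⟨u, hu, rfl⟩
  have h2 := norm_sum_le' (fun s => (hu s).2) fun s => x s - y s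
  have h3 : ∑ s, u s * x s = ∑ s, u s * y s + ∑ s, u s * (x s - y s) := by
    rw [← Finset.sum_add_distrib]; exact Finset.sum_congr rfl fun s _ => by noncomm_ring
  rw [h3]
  exact (norm_add_le _ _).trans (add_le_add h1 h2)

lemma norm_conj {R : Type*} [NormedRing R] [StarRing R] [CStarRing R] {U : R}
    (hU : U ∈ unitary R) (x : R) : ‖U * x * star U‖ = ‖x‖ := by
  rw [CStarRing.norm_mul_mem_unitary _ (Unitary.star_mem hU), CStarRing.norm_mem_unitary_mul _ hU]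

lemma FS_conj_sub {n : ℕ} {U : K →L[ℂ] K} (hU : U ∈ unitary _)
    (h : ∀ c ∈ E.centralizer, U * c * star U ∈ E.centralizer) (x : Fin n → K →L[ℂ] K) :
    FS E x ⊆ FS E fun s => U * x s * star U := by
  rintro _ ⟨u, hu, rfl⟩
  refine ⟨fun s => U * u s * star U, fun s => ⟨h _ (hu s).1, (norm_conj hU _).trans_le (hu s).2⟩, ?_⟩
  rw [← norm_conj hU, Finset.mul_sum, Finset.sum_mul]
  congr 1
  refine Finset.sum_congr rfl fun s _ => ?_
  simp only [mul_assoc]
  rw [← mul_assoc (star U) U, hU.1, one_mul]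

lemma FL_conj {n : ℕ} {U : K →L[ℂ] K} (hU : U ∈ unitary _)
    (h : ∀ c ∈ E.centralizer, U * c * star U ∈ E.centralizer)
    (h' : ∀ c ∈ E.centralizer, star U * c * U ∈ E.centralizer) (x : Fin n → K →L[ℂ] K) :
    FL E (fun s => U * x s * star U) = FL E x := by
  change sSup (FS E _) = sSup (FS E _)
  congr 1
  refine subset_antisymm ?_ (FS_conj_sub hU h x)
  refine (FS_conj_sub (Unitary.star_mem hU) (by simpa using h') _).trans (subset_of_eq ?_)
  congr 1
  funext s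
  simp only [star_star, ← mul_assoc, hU.1, one_mul]
  rw [mul_assoc, hU.1, mul_one]

/-- Transport of the invariant along a unitary that maps block `j` to block `k`. -/
lemma FL_transport {n : ℕ} {u : L2 ℕ K →L[ℂ] L2 ℕ K} (hu : u ∈ unitary _)
    (h : ∀ T ∈ (OB E).centralizer, u * T * star u ∈ (OB E).centralizer)
    (h' : ∀ T ∈ (OB E).centralizer, star u * T * u ∈ (OB E).centralizer) {j k : ℕ}
    (hjk : star u * ob j 1 * u = ob k 1) (b : Fin n → L2 ℕ K →L[ℂ] L2 ℕ K) :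
    FL E (fun s => ent k k (star u * b s * u)) = FL E fun s => ent j j (b s) := by
  have hkj : u * ob k 1 * star u = ob j 1 := by
    rw [← hjk]; simp only [← mul_assoc, hu.2, one_mul]; rw [mul_assoc, hu.2, mul_one]
  have hs : star (ent k j (star u)) = ent j k u := by rw [star_ent, star_star]
  have hU : ent k j (star u) ∈ unitary (K →L[ℂ] K) := by
    constructor
    · rw [hs, ← mul_one (ent j k u), ← ent_mul_ob, hkj, ent_ob]
    · rw [hs, ← mul_one (ent k j (star u)), ← ent_mul_ob, hjk, ent_ob]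
  rw [← FL_conj hU (fun c hc => ?_) (fun c hc => ?_) fun s => ent j j (b s)]
  · congr 1
    funext s
    have e1 : ob k 1 * star u = star u * ob j 1 := by rw [← hjk, mul_assoc, hu.2, mul_one]
    have e2 : u * ob k 1 = ob j 1 * u := by rw [← hkj, mul_assoc, hu.1, mul_one]
    calc ent k k (star u * b s * u) = ent k k (ob k 1 * (star u * b s * u) * ob k 1) := by
          rw [ent_mul_ob', ent_ob_mul, one_mul, mul_one]
      _ = ent k k (star u * ob j 1 * b s * ob j 1 * u) := by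
          rw [← mul_assoc, ← mul_assoc, e1, mul_assoc _ u, e2, ← mul_assoc]
      _ = _ := by rw [hs]; rfl
  · rw [hs, ← ent_mul_ob]; exact ent_mem (h' _ (ob_mem_C hc j)) k
  · rw [hs, ← ent_mul_ob]; exact ent_mem (h _ (ob_mem_C hc k)) j

end Crest.Agent.KK.A5
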