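import Crest.Agent.KK.Defs

/-! Job B5: the data for S0105. -/

set_option autoImplicit false
open Filter Topology TopologicalSpace
open scoped InnerProductSpace

namespace Crest.Agent.KK.B5

lemma sep_adjoin {A : Type} [CStarAlgebra A] {s : Set A} (hs : s.Countable) :
    IsSeparable ((StarAlgebra.adjoin ℂ s).topologicalClosure : Set A) := by
  have h1 : (s ∪ star s).Countable := hs.union (hs.preimage star_injective)
  have h2 : (Submonoid.closure (s ∪ star s) : Set A).Countable := by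
    have := h1.to_subtype
    refine (Set.countable_range (FreeMonoid.lift (fun x : ↥(s ∪ star s) => (x : A)))).mono ?_
    rw [← MonoidHom.coe_mrange, FreeMonoid.mrange_lift, Subtype.range_coe]
  refine ((h2.isSeparable.span (R := ℂ)).mono fun x hx => ?_).closure
  rw [← Algebra.adjoin_eq_span, ← StarAlgebra.adjoin_toSubalgebra]
  exact hx

lemma mem_centralizer_adjoin {A : Type} [CStarAlgebra A] {s : Set A} {t : A}
    (h : ∀ x ∈ s, Commute t x ∧ Commute t (star x)) :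
    t ∈ ((StarAlgebra.adjoin ℂ s).topologicalClosure : Set A).centralizer := by
  intro x hx
  have hc : IsClosed {x : A | x * t = t * x} := isClosed_eq (by fun_prop) (by fun_prop)
  refine hc.closure_subset_iff.2 (fun y hy => ?_) hx
  have : Algebra.adjoin ℂ (s ∪ star s) ≤ Subalgebra.centralizer ℂ {t} := Algebra.adjoin_le (by
    rintro y (hy | hy) _ rfl
    · exact (h y hy).1
    · simpa using (h _ hy).2.eq)
  exact (this (show y ∈ (StarAlgebra.adjoin ℂ s).toSubalgebra from hy) t rfl).symm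

lemma conj_mem {A : Type} [CStarAlgebra A] {W : A} (hW : W ∈ unitary A) {E : StarSubalgebra ℂ A}
    (hE : IsClosed (E : Set A)) {s : Set A} (h : ∀ x ∈ s, W * x * star W ∈ E) {d : A}
    (hd : d ∈ (StarAlgebra.adjoin ℂ s).topologicalClosure) : W * d * star W ∈ E := by
  have : (StarAlgebra.adjoin ℂ s).topologicalClosure ≤
      E.comap (Unitary.conjStarAlgAut ℂ A ⟨W, hW⟩ : A →⋆ₐ[ℂ] A) :=
    StarSubalgebra.topologicalClosure_minimal (StarAlgebra.adjoin_le h)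
      (hE.preimage (f := fun d => W * d * star W) (by fun_prop))
  exact this hd

variable {Γ : Type} [Group Γ]

open Classical in
/-- indicator projections -/
noncomputable def ind (S : Γ → Prop) : L2 Γ ℂ →L[ℂ] L2 Γ ℂ := dg fun x => if S x then 1 else 0

omit [Group Γ] in
open Classical in
lemma bdd_ind (S : Γ → Prop) : Bdd fun x => if S x then (1 : ℂ →L[ℂ] ℂ) else 0 :=
  ⟨1, fun x => by by_cases h : S x <;> simp [h]⟩

omit [Group Γ] in
open Classical in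
lemma ind_sg (S : Γ → Prop) (x : Γ) (v : ℂ) : ind S (sg x v) = if S x then sg x v else 0 := by
  rw [ind, wp_sg _ (bdd_ind S)]
  split_ifs <;> simp

omit [Group Γ] in
lemma ind_proj (S : Γ → Prop) : IsStarProjection (ind S) := by
  constructor
  · refine ext_sg fun x v => ?_
    rw [mul_apply_eq_comp, ind_sg]
    split_ifs with h <;> simp [ind_sg, h]
  · rw [IsSelfAdjoint, ind, star_wp _ (bdd_ind S)]
    congr 1
    funext a
    by_cases h : S a <;> simp [h]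

variable {H : Type} [NormedAddCommGroup H] [InnerProductSpace ℂ H] [CompleteSpace H]

omit [Group Γ] [CompleteSpace H] in
lemma pm_sg (e : Equiv.Perm Γ) (x : Γ) (v : H) : pm H e (sg x v) = sg (e x) v :=
  wp_sg e (bdd_const 1) x v

omit [Group Γ] [CompleteSpace H] in
lemma dc_sg (b : H →L[ℂ] H) (x : Γ) (v : H) : dg (fun _ : Γ => b) (sg x v) = sg x (b v) :=
  wp_sg 1 (bdd_const b) x v

omit [Group Γ] [CompleteSpace H] in
lemma dc_apply (b : H →L[ℂ] H) (ξ : L2 Γ H) (x : Γ) : dg (fun _ : Γ => b) ξ x = b (ξ x) :=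
  wp_apply 1 (bdd_const b) ξ x

omit [CompleteSpace H] in
lemma Lt_sg (g x : Γ) (v : H) : Lt H g (sg x v) = sg (g * x) v := pm_sg _ x v

omit [CompleteSpace H] in
lemma Rt_sg (g x : Γ) (v : H) : Rt H g (sg x v) = sg (x * g⁻¹) v := pm_sg _ x v

omit [CompleteSpace H] in
lemma Lt_apply (g x : Γ) (ξ : L2 Γ H) : Lt H g ξ (g * x) = ξ x := by
  rw [Lt, wp_apply _ (bdd_const 1)]; simp

omit [CompleteSpace H] in
lemma Rt_apply (g x : Γ) (ξ : L2 Γ H) : Rt H g ξ (x * g⁻¹) = ξ x := by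
  rw [Rt, wp_apply _ (bdd_const 1)]; simp

lemma star_Lt (g : Γ) : star (Lt H g) = Lt H g⁻¹ := by
  rw [Lt, star_wp _ (bdd_const 1)]; simp [Lt]

lemma star_Rt (g : Γ) : star (Rt H g) = Rt H g⁻¹ := by
  rw [Rt, star_wp _ (bdd_const 1)]; simp [Rt]

omit [Group Γ] in
lemma star_dc (b : H →L[ℂ] H) : star (dg fun _ : Γ => b) = dg fun _ => star b := by
  rw [star_wp _ (bdd_const b)]; simp

omit [Group Γ] [CompleteSpace H] in
lemma dc_mul (b c : H →L[ℂ] H) : (dg fun _ : Γ => b) * (dg fun _ => c) = dg fun _ => b * c :=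
  ext_sg fun x v => by simp [mul_apply_eq_comp, dc_sg]

lemma Rt_unitary (g : Γ) : Rt H g ∈ unitary (L2 Γ H →L[ℂ] L2 Γ H) :=
  wp_mem_unitary _ fun _ => one_mem _

omit [Group Γ] in
lemma dc_unitary {b : H →L[ℂ] H} (hb : b ∈ unitary (H →L[ℂ] H)) :
    (dg fun _ : Γ => b) ∈ unitary (L2 Γ H →L[ℂ] L2 Γ H) := wp_mem_unitary _ fun _ => hb

/-- the left regular representation -/
noncomputable def lam (Γ : Type) [Group Γ] : Γ →* unitary (L2 Γ ℂ →L[ℂ] L2 Γ ℂ) where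
  toFun g := ⟨Lt ℂ g, wp_mem_unitary _ fun _ => one_mem _⟩
  map_one' := Subtype.ext (ext_sg fun x v => by simp [Lt_sg])
  map_mul' g h := Subtype.ext (ext_sg fun x v => by simp [Lt_sg, mul_apply_eq_comp, mul_assoc])

lemma lam_coe (g : Γ) : (lam Γ g : L2 Γ ℂ →L[ℂ] L2 Γ ℂ) = Lt ℂ g := rfl

open Classical in
lemma mu_sg {n : ℕ} (a b x : F n) (v : ℂ) :
    mu (lam (F n)) (ind (· = 1)) a b (sg x v) = if x = b then sg a v else 0 := by
  simp only [mu, lam_coe, star_Lt, mul_apply_eq_comp, Lt_sg, ind_sg, inv_mul_eq_one, eq_comm (a := b)]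
  split_ifs with h
  · simp [h, Lt_sg]
  · simp

lemma tree {n : ℕ} (hW : Words) : ∃ P, Tree (lam (F n)) (ind (· = 1)) P := by
  obtain ⟨⟨st, h1, h2, -⟩, -⟩ := hW n
  refine ⟨fun s b => ind fun x => st x = some (s, b), ind_proj _, fun g hg => ?_,
    fun _ _ => ind_proj _, fun s b s' b' h => ?_, fun s b => ?_, fun s => ?_⟩
  all_goals refine ext_sg fun x v => ?_
  all_goals simp only [mul_apply_eq_comp, lam_coe, ind_sg, ContinuousLinearMap.zero_apply,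
    ContinuousLinearMap.sub_apply, ContinuousLinearMap.one_apply, Lt_sg]
  · split_ifs with h
    · simp [h, Lt_sg, ind_sg, hg]
    · simp
  · split_ifs with h'
    · rw [ind_sg, if_neg (by rw [h']; exact fun e => h (Option.some.inj e).symm)]
    · simp
  · split_ifs with h'
    · rw [ind_sg, if_neg (by rw [← h1, h']; simp)]
    · simp
  · simp only [h2]
    split_ifs with h' <;> simp_all [Lt_sg]

/-- the common commutant -/
def CC (Γ : Type) [Group Γ] : Set (L2 Γ (L2 Γ ℂ) →L[ℂ] L2 Γ (L2 Γ ℂ)) :=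
  {T | (∀ g, Commute T (Rt _ g)) ∧ ∀ b, Commute T (dg fun _ => b)}

lemma Lt_mem (g : Γ) : Lt (L2 Γ ℂ) g ∈ CC Γ :=
  ⟨fun h => ext_sg fun x v => by simp [mul_apply_eq_comp, Lt_sg, Rt_sg, mul_assoc],
    fun b => ext_sg fun x v => by simp [mul_apply_eq_comp, Lt_sg, dc_sg]⟩

lemma scalar_entry {n : ℕ} {T : L2 (F n) (L2 (F n) ℂ) →L[ℂ] L2 (F n) (L2 (F n) ℂ)}
    (h : ∀ a b, Commute T (dg fun _ => mu (lam (F n)) (ind (· = 1)) a b)) (x y : F n)
    (v : L2 (F n) ℂ) : T (sg y v) x = (T (sg y (sg 1 1)) x 1) • v := by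
  have : ev x ∘L T ∘L sg y = (T (sg y (sg 1 1)) x 1) • (1 : L2 (F n) ℂ →L[ℂ] L2 (F n) ℂ) := by
    refine ext_sg fun a c => ?_
    have h1 := congrArg (fun S => S (sg y (sg 1 c)) x) (h a 1).eq
    simp only [mul_apply_eq_comp, dc_sg, mu_sg, if_true, dc_apply] at h1
    have h2 : mu (lam (F n)) (ind (· = 1)) a 1 = sg a ∘L ev 1 := ext_sg fun z w => by
      rw [mu_sg]; by_cases hz : z = 1
      · simp [hz]
      · simp [hz, sg_apply_ne (Ne.symm hz)]
    have h3 : (sg 1 c : L2 (F n) ℂ) = c • sg 1 1 := by rw [← map_smul]; simp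
    simp only [ContinuousLinearMap.comp_apply, ev_apply, ContinuousLinearMap.smul_apply,
      ContinuousLinearMap.one_apply, h1, h2, ← map_smul]
    rw [h3, map_smul, map_smul]
    simp [mul_comm]
  exact congrArg (fun S => S v) this

lemma center {n : ℕ} (hn : ∀ g : F n, g ≠ 1 → {x | IsConj g x}.Infinite) {T} (hT : T ∈ CC (F n))
    (hL : ∀ g, Commute T (Lt _ g)) : ∃ c : ℂ, T = c • 1 := by
  have hs := scalar_entry fun a b => hT.2 _
  set δ : L2 (F n) ℂ := sg 1 1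
  have hl : ∀ g x y v, T (sg (g * y) v) (g * x) = T (sg y v) x := fun g x y v => by
    rw [← Lt_sg, ← mul_apply_eq_comp, (hL g).eq, mul_apply_eq_comp, Lt_apply]
  have hr : ∀ g x y v, T (sg (y * g⁻¹) v) (x * g⁻¹) = T (sg y v) x := fun g x y v => by
    rw [← Rt_sg, ← mul_apply_eq_comp, (hT.1 g).eq, mul_apply_eq_comp, Rt_apply]
  have h0 : ∀ c, c ≠ 1 → T (sg 1 δ) c = 0 := fun c hc => by
    by_contra h
    have h1 := (lp.memℓp (T (sg 1 δ))).summable (by norm_num) |>.tendsto_cofinite_zero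
    have h2 := h1.eventually (gt_mem_nhds (Real.rpow_pos_of_pos (norm_pos_iff.2 h)
      (ENNReal.toReal 2)))
    refine hn c hc ((eventually_cofinite.1 h2).subset fun x hx => ?_)
    obtain ⟨g, rfl⟩ := isConj_iff.1 hx
    have := (hr g _ _ δ).trans (hl g c 1 δ)
    rw [mul_one, mul_inv_cancel] at this
    simp [this]
  refine ⟨T (sg 1 δ) 1 1, ext_ent fun x y v => ?_⟩
  have := hl y (y⁻¹ * x) 1 δ
  rw [mul_one, mul_inv_cancel_left] at this
  rw [hs, this]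
  by_cases h : x = y
  · simp [h]
  · rw [h0 _ (by rwa [Ne, inv_mul_eq_one, eq_comm])]
    simp [sg_apply_ne h]

lemma ang {n : ℕ} {A : Type} [CStarAlgebra A] (l : F n →* unitary A) (p : A) {z : ℝ}
    (hz : z ∈ Set.Icc (0 : ℝ) (19 / 20)) :
    Ang l p ((z : ℂ) • 1) (((√(1 - z ^ 2) : ℝ) : ℂ) • 1) := by
  rw [Complex.coe_smul, Complex.coe_smul]
  refine ⟨.smul (.all _) (.one _), .smul (.all _) (.one _), ?_, ?_, fun _ => ?_, fun _ => ?_,
    ?_, ?_⟩
  rotate_left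
  · rw [smul_mul_smul_comm, smul_mul_smul_comm, Real.mul_self_sqrt (by nlinarith [hz.1, hz.2]),
      one_mul, ← add_smul]
    simp [sq]
  all_goals exact (Commute.one_left _).smul_left _

lemma close {A : Type} [CStarAlgebra A] {G : Type} {a : ℕ × Fin 3 → G → A} (ha : ∀ j g, ‖a j g‖ ≤ 2)
    {σ : ℝ → G → A} (hσ : ∀ z ∈ Set.Icc (0 : ℝ) (19 / 20), ∀ g, HasSum (fun j : ℕ × Fin 3 =>
      ((z : ℂ) • (1 : A)) ^ j.1 * (((√(1 - z ^ 2) : ℝ) : ℂ) • (1 : A)) ^ (j.2 : ℕ) * a j g) (σ z g))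
    {z : ℝ} (hz : z ∈ Set.Icc (0 : ℝ) (19 / 20)) {η : ℝ} (hη : 0 < η) :
    ∀ᶠ w in 𝓝[Set.Icc (0 : ℝ) (19 / 20)] z, ∀ g, ‖σ z g - σ w g‖ ≤ η := by
  simp only [Complex.coe_smul] at hσ
  set φ : ℕ × Fin 3 → ℝ → ℝ := fun j w => w ^ j.1 * √(1 - w ^ 2) ^ (j.2 : ℕ) with hφ
  have hb : ∀ j, ∀ w ∈ Set.Icc (0 : ℝ) (19 / 20), |φ j w| ≤ (19 / 20) ^ j.1 := fun j w hw => by
    rw [abs_of_nonneg (by have := hw.1; positivity)]
    exact (mul_le_of_le_one_right (pow_nonneg hw.1 _) (pow_le_one₀ (Real.sqrt_nonneg _)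
      (Real.sqrt_le_one.2 (by nlinarith)))).trans (pow_le_pow_left₀ hw.1 hw.2 _)
  have hsum : Summable fun j : ℕ × Fin 3 => 4 * (19 / 20 : ℝ) ^ j.1 := by
    have := ((summable_geometric_of_lt_one (r := 19 / 20) (by norm_num) (by norm_num)).mul_of_nonneg
      (Summable.of_finite (f := fun _ : Fin 3 => (4 : ℝ))) (fun _ => by positivity)
      (fun _ => by norm_num))
    simpa [mul_comm] using this
  have hbd : ∀ j, ∀ w ∈ Set.Icc (0 : ℝ) (19 / 20), ‖|φ j z - φ j w| * 2‖ ≤ 4 * (19 / 20) ^ j.1 :=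
    fun j w hw => by
      rw [Real.norm_of_nonneg (by positivity)]
      linarith [abs_sub (φ j z) (φ j w), hb j z hz, hb j w hw]
  have hc := continuousOn_tsum (f := fun j w => |φ j z - φ j w| * 2) (fun j => by
    simp only [hφ]; fun_prop) hsum hbd z hz
  have := hc.eventually (ge_mem_nhds (show ∑' j, |φ j z - φ j z| * 2 < η by simpa))
  filter_upwards [this, self_mem_nhdsWithin] with w hw hwI g
  refine le_trans (((hσ z hz g).sub (hσ w hwI g)).norm_le_of_bounded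
    (hsum.of_norm_bounded fun j => hbd j w hwI).hasSum fun j => ?_) hw
  simp only [smul_pow, one_pow, smul_mul_assoc, mul_smul_comm, one_mul, smul_smul, ← sub_smul,
    norm_smul, Real.norm_eq_abs]
  rw [mul_comm (_ ^ _), mul_comm (√_ ^ _)]
  exact mul_le_mul_of_nonneg_left (ha j g) (abs_nonneg _)

/-- the invariant as a function of the representation -/
noncomputable def ff {n : ℕ} (σ : F n →* unitary (L2 (F n) ℂ →L[ℂ] L2 (F n) ℂ)) : ℝ :=
  sSup {r | ∃ u : Fin n → _, (∀ s, u s ∈ CC (F n) ∧ ‖u s‖ ≤ 1) ∧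
    r = ‖∑ s, u s * (Rt _ (.of s) * dg fun _ => (σ (.of s) : L2 (F n) ℂ →L[ℂ] L2 (F n) ℂ))‖}

lemma norm_x {n : ℕ} (σ : F n →* unitary (L2 (F n) ℂ →L[ℂ] L2 (F n) ℂ)) (g : F n)
    {u : L2 (F n) (L2 (F n) ℂ) →L[ℂ] L2 (F n) (L2 (F n) ℂ)} (hu : ‖u‖ ≤ 1) :
    ‖u * (Rt _ g * dg fun _ => (σ g : L2 (F n) ℂ →L[ℂ] L2 (F n) ℂ))‖ ≤ 1 := by
  exact (CStarRing.norm_mul_mem_unitary u (mul_mem (Rt_unitary g)
    (dc_unitary (σ g).2))).trans_le hu

lemma ff_le (hP : PP) {n : ℕ} {P} (hT : Tree (lam (F n)) (ind (· = 1)) P)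
    {σ : F n →* unitary (L2 (F n) ℂ →L[ℂ] L2 (F n) ℂ)}
    (hσ : ∀ s, σ (.of s) = lam (F n) (.of s)) : ff σ ≤ 2 * √n := by
  refine Real.sSup_le ?_ (by positivity)
  rintro _ ⟨u, hu, rfl⟩
  have hp : ∀ s b, IsStarProjection (dg fun _ : F n => P s b) := fun s b =>
    ⟨by rw [IsIdempotentElem, dc_mul, (hT.Pproj s b).isIdempotentElem.eq],
      by rw [IsSelfAdjoint, star_dc, (hT.Pproj s b).isSelfAdjoint.star_eq]⟩
  have ho : ∀ b s s', s ≠ s' → (dg fun _ : F n => P s b) * (dg fun _ => P s' b) = 0 :=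
    fun b s s' h => by
      rw [dc_mul, hT.Porth s b s' b (by simpa using h)]
      exact ext_sg fun x v => by simp [dc_sg]
  refine hP.1 _ n _ _ _ (fun s => norm_x σ _ (hu s).2) (hp · true) (hp · false) (ho true)
    (ho false) fun s => ?_
  have : (Rt _ (.of s) * dg fun _ : F n => (σ (.of s) : L2 (F n) ℂ →L[ℂ] L2 (F n) ℂ)) *
      (1 - dg fun _ => P s false) = (dg fun _ => P s true) *
        (Rt _ (.of s) * dg fun _ : F n => (σ (.of s) : L2 (F n) ℂ →L[ℂ] L2 (F n) ℂ)) :=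
    ext_sg fun x v => by
      have := congrArg (fun S => S v) (hT.pong s)
      simp only [mul_apply_eq_comp, ContinuousLinearMap.sub_apply, ContinuousLinearMap.one_apply]
        at this ⊢
      rw [dc_sg, ← map_sub, dc_sg, dc_sg, Rt_sg, Rt_sg, dc_sg, hσ, this]
  rw [mul_assoc (dg _), mul_assoc, this, ← mul_assoc, ((hu s).1.2 _).eq, mul_assoc,
    ← mul_assoc (dg _) (dg _), (hp s true).isIdempotentElem.eq]

lemma le_ff {n : ℕ} {σ : F n →* unitary (L2 (F n) ℂ →L[ℂ] L2 (F n) ℂ)} {z : ℝ} (hz : 0 ≤ z)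
    (hσ : ∀ s, ind (· = 1) * (σ (.of s) : L2 (F n) ℂ →L[ℂ] L2 (F n) ℂ) * ind (· = 1) =
      ((z : ℂ) • 1) * ind (· = 1)) : n * z ≤ ff σ := by
  refine le_trans ?_ (le_csSup ⟨n, ?_⟩ ⟨fun s => Lt _ (.of s), fun s =>
    ⟨Lt_mem _, norm_wp_le _ zero_le_one fun _ => ContinuousLinearMap.norm_id_le⟩, rfl⟩)
  · have h1 : ∀ s, (σ (.of s) : L2 (F n) ℂ →L[ℂ] L2 (F n) ℂ) (sg 1 1) 1 = z := fun s => by
      have := congrArg (fun S => S (sg 1 1) 1) (hσ s)
      simp only [mul_apply_eq_comp, ind_sg, if_true, ContinuousLinearMap.smul_apply,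
        ContinuousLinearMap.one_apply] at this
      rw [← map_smul, sg_apply_self, ind, wp_apply _ (bdd_ind _), inv_one,
        Equiv.Perm.one_apply] at this
      simpa using this
    have h2 : ∀ T : L2 (F n) (L2 (F n) ℂ) →L[ℂ] L2 (F n) (L2 (F n) ℂ),
        ‖T (sg 1 (sg 1 1)) 1 1‖ ≤ ‖T‖ := fun T =>
      ((lp.norm_apply_le_norm two_ne_zero _ 1).trans (lp.norm_apply_le_norm two_ne_zero _ 1)).trans
        ((T.le_opNorm _).trans_eq (by rw [norm_sg, norm_sg, norm_one, mul_one]))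
    refine le_trans ?_ (h2 _)
    simp only [ContinuousLinearMap.sum_apply, mul_apply_eq_comp, dc_sg, Rt_sg, Lt_sg, one_mul,
      mul_inv_cancel, ← map_sum, sg_apply_self]
    rw [← ev_apply, map_sum]
    simp [h1, abs_of_nonneg hz]
  · rintro _ ⟨u, hu, rfl⟩
    exact (norm_sum_le_of_le _ fun s _ => norm_x σ _ (hu s).2).trans_eq (by simp)

set_option maxHeartbeats 1600000 in
lemma data (hW : Words) {η : ℝ} (hη : 0 < η)
    {σ : ℝ → F 5 →* unitary (L2 (F 5) ℂ →L[ℂ] L2 (F 5) ℂ)} {z w : ℝ} (hne : ff (σ z) ≠ ff (σ w))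
    (hw : ∀ g, ‖(σ z g : L2 (F 5) ℂ →L[ℂ] L2 (F 5) ℂ) - σ w g‖ ≤ η) : Data5 η := by
  set x : ℝ → Fin 5 → L2 (F 5) (L2 (F 5) ℂ) →L[ℂ] L2 (F 5) (L2 (F 5) ℂ) := fun z s =>
    Rt _ (.of s) * dg fun _ => (σ z (.of s) : L2 (F 5) ℂ →L[ℂ] L2 (F 5) ℂ) with hx
  set S : Set (L2 (F 5) (L2 (F 5) ℂ) →L[ℂ] L2 (F 5) (L2 (F 5) ℂ)) := Set.range (Rt _) ∪
    (Set.range (fun p : F 5 × F 5 => dg fun _ => mu (lam (F 5)) (ind (· = 1)) p.1 p.2) ∪
    (Set.range (fun g => dg fun _ => (σ z g : L2 (F 5) ℂ →L[ℂ] L2 (F 5) ℂ)) ∪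
      Set.range (fun g => dg fun _ => (σ w g : L2 (F 5) ℂ →L[ℂ] L2 (F 5) ℂ)))) with hS
  set E := (StarAlgebra.adjoin ℂ S).topologicalClosure with hE
  have hSE : ∀ y ∈ S, y ∈ E := fun y hy =>
    StarSubalgebra.le_topologicalClosure _ (StarAlgebra.subset_adjoin ℂ S hy)
  have hC : (E : Set _).centralizer = CC (F 5) := by
    refine Set.Subset.antisymm (fun T hT => ⟨fun g => (hT _ (hSE _ (.inl ⟨g, rfl⟩))).symm,
      fun b => ext_ent fun x y v => ?_⟩) fun T hT => mem_centralizer_adjoin ?_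
    · have hs := scalar_entry (T := T) fun a b => (hT _ (hSE _ (.inr (.inl ⟨(a, b), rfl⟩)))).symm
      rw [mul_apply_eq_comp, mul_apply_eq_comp, dc_sg, dc_apply, hs, hs x y v, map_smul]
    · rintro _ (⟨g, rfl⟩ | ⟨g, rfl⟩ | ⟨g, rfl⟩ | ⟨g, rfl⟩)
      · exact ⟨hT.1 g, star_Rt (H := L2 (F 5) ℂ) g ▸ hT.1 _⟩
      all_goals exact ⟨hT.2 _, by rw [star_dc]; exact hT.2 _⟩
  have hb : ∀ z, Bdd fun c => (σ z c : L2 (F 5) ℂ →L[ℂ] L2 (F 5) ℂ) := fun z =>
    ⟨‖(1 : L2 (F 5) ℂ →L[ℂ] L2 (F 5) ℂ)‖, fun c => by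
      rw [← CStarRing.norm_mul_mem_unitary 1 (σ z c).2, one_mul]⟩
  have hu : ∀ c, star (σ w c : L2 (F 5) ℂ →L[ℂ] L2 (F 5) ℂ) * (σ z c : L2 (F 5) ℂ →L[ℂ] _) ∈
      unitary (L2 (F 5) ℂ →L[ℂ] L2 (F 5) ℂ) := fun c =>
    mul_mem (Unitary.star_mem (σ w c).2) (σ z c).2
  set W := dg fun c => star (σ w c : L2 (F 5) ℂ →L[ℂ] L2 (F 5) ℂ) *
    (σ z c : L2 (F 5) ℂ →L[ℂ] L2 (F 5) ℂ) with hWd
  have hWu : W ∈ unitary (L2 (F 5) (L2 (F 5) ℂ) →L[ℂ] L2 (F 5) (L2 (F 5) ℂ)) :=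
    wp_mem_unitary _ hu
  have hWx : ∀ s, W * x z s * star W = x w s := fun s => by
    have hb' : Bdd fun c => star (σ w c : L2 (F 5) ℂ →L[ℂ] L2 (F 5) ℂ) *
      (σ z c : L2 (F 5) ℂ →L[ℂ] L2 (F 5) ℂ) := ((hb w).star id).mul (hb z) id
    have : W * x z s = x w s * W := ext_sg fun c v => by
      simp only [hx, hWd, mul_apply_eq_comp, dc_sg, Rt_sg, wp_sg _ hb', Equiv.Perm.coe_one, id]
      congr 1
      simp only [← mul_apply_eq_comp, ← Unitary.coe_star, ← Submonoid.coe_mul,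
        Unitary.star_eq_inv, ← map_inv, ← map_mul, ← mul_assoc]
      congr 3 <;> simp [mul_assoc]
    rw [this, mul_assoc, hWu.2, mul_one]
  have hxE : ∀ s, x z s ∈ E ∧ x w s ∈ E := fun s =>
    ⟨mul_mem (hSE _ (.inl ⟨_, rfl⟩)) (hSE _ (.inr (.inr (.inl ⟨_, rfl⟩)))),
      mul_mem (hSE _ (.inl ⟨_, rfl⟩)) (hSE _ (.inr (.inr (.inr ⟨_, rfl⟩))))⟩
  refine ⟨L2 (F 5) (L2 (F 5) ℂ), _, _, inferInstance, inferInstance, ⟨sg 1 (sg 1 1), 0, ?_⟩, E,
    (StarAlgebra.adjoin ℂ (Set.range (x z))).topologicalClosure, W, 5, x z,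
    StarSubalgebra.isClosed_topologicalClosure _, sep_adjoin ((Set.countable_range _).union
      ((Set.countable_range _).union ((Set.countable_range _).union (Set.countable_range _)))),
    fun T h1 h2 => center ((hW 5).2 (by norm_num)) (hC ▸ h1) fun g => (h2 _ (hC ▸ Lt_mem g)).symm,
    StarSubalgebra.isClosed_topologicalClosure _, StarSubalgebra.topologicalClosure_minimal
      (StarAlgebra.adjoin_le (by rintro _ ⟨s, rfl⟩; exact (hxE s).1))
      (StarSubalgebra.isClosed_topologicalClosure _), hWu, ?_, fun d hd => ?_, fun s =>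
      StarSubalgebra.le_topologicalClosure _ (StarAlgebra.subset_adjoin ℂ _ ⟨s, rfl⟩), ?_⟩
  · rw [← norm_ne_zero_iff]; simp
  · rw [← wp_one, hWd, ← wp_sub _ (by exact ((hb w).star id).mul (hb z) id) (bdd_const _)]
    refine norm_wp_le _ hη.le fun c => le_trans (le_of_eq ?_) (hw c)
    rw [← CStarRing.norm_mem_unitary_mul (σ z c - σ w c : L2 (F 5) ℂ →L[ℂ] L2 (F 5) ℂ)
      (Unitary.star_mem (σ w c).2), mul_sub, (σ w c).2.1]
  · refine conj_mem hWu (StarSubalgebra.isClosed_topologicalClosure _) ?_ hd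
    rintro _ ⟨s, rfl⟩
    exact (hWx s).symm ▸ (hxE s).2
  · simp only [hWx, FL, hC]
    exact hne

theorem jobB5 : JobB5 := by
  intro hPS hPP hW η hη
  obtain ⟨P, hT⟩ := tree (n := 5) hW
  obtain ⟨a, ha, -, hσ⟩ := hPS _ 5 _ _ P hT
  choose! σ hσ1 hσ2 using fun z hz => hσ _ _ (ang (lam (F 5)) (ind (· = 1)) (z := z) hz)
  obtain ⟨z, hz, hf⟩ : ∃ z ∈ Set.Icc (0 : ℝ) (19 / 20),
      ∃ᶠ w in 𝓝[Set.Icc (0 : ℝ) (19 / 20)] z, ff (σ z) ≠ ff (σ w) := by
    by_contra h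
    push Not at h
    have h0 : (0 : ℝ) ∈ Set.Icc (0 : ℝ) (19 / 20) := ⟨le_rfl, by norm_num⟩
    have h1 : (19 / 20 : ℝ) ∈ Set.Icc (0 : ℝ) (19 / 20) := ⟨by norm_num, le_rfl⟩
    have h2 := isPreconnected_Icc.induction₂' (fun z w => ff (σ z) = ff (σ w))
      (fun x hx => (h x hx).mono fun y hy => ⟨hy, hy.symm⟩) (fun _ _ _ _ _ _ => Eq.trans) h0 h1
    have h3 := ff_le hPP hT (σ := σ 0) fun s => Subtype.ext (by
      rw [hσ1 0 h0 s, rot]
      norm_num)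
    have h4 := le_ff h1.1 (hPP.2 _ 5 _ _ P _ _ _ hT (ang _ _ h1) (hσ1 _ h1)).1
    have h5 : √((5 : ℕ) : ℝ) < 19 / 8 := Real.sqrt_lt' (by norm_num) |>.2 (by norm_num)
    push_cast at h3 h4 h5
    linarith
  obtain ⟨w, hne, hw⟩ := (hf.and_eventually
    (close ha (σ := fun z g => σ z g) hσ2 hz hη)).exists
  exact data hW hη hne hw

end Crest.Agent.KK.B5

namespace Crest.Agent.KK

theorem jobB5 : JobB5 := B5.jobB5

end Crest.Agent.KK
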