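import Crest.Agent.KK.L2

/-!
# Row 78 (S0104, S0105): definitions and job statements

Every job is a `Prop`; its docstring holds the paper proof.  `KK/L2.lean` has the `ℓ²` API
(`wp e d`, `dg d`, `pm K e`, `sg x`, `ev x`, `ext_sg`, `ext_ent`, `wp_mul`, `star_wp`, ...).
-/

set_option autoImplicit false
open Filter Topology TopologicalSpace
open scoped InnerProductSpace

namespace Crest.Agent.KK

/-- The free group. -/
abbrev F (n : ℕ) : Type := FreeGroup (Fin n)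

section Tree
variable {A : Type} [CStarAlgebra A] {n : ℕ}

/-- The Cayley tree of `F n` inside a C⋆-algebra: `l` = left regular representation, `p` = the
projection onto the root, `P s true` (`P s false`) = words starting with `s` (with `s⁻¹`). -/
structure Tree (l : F n →* unitary A) (p : A) (P : Fin n → Bool → A) : Prop where
  proj : IsStarProjection p
  orth : ∀ g, g ≠ 1 → p * (l g : A) * p = 0
  Pproj : ∀ s b, IsStarProjection (P s b)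
  Porth : ∀ s b s' b', (s, b) ≠ (s', b') → P s b * P s' b' = 0
  pP : ∀ s b, p * P s b = 0
  pong : ∀ s, (l (.of s) : A) * (1 - P s false) = P s true * l (.of s)

/-- Matrix units of the tree. -/
def mu (l : F n →* unitary A) (p : A) (x y : F n) : A := (l x : A) * p * star (l y : A)

/-- An operator-valued angle (`Z = sin`, `S = cos`) commuting with the tree. -/
structure Ang (l : F n →* unitary A) (p Z S : A) : Prop where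
  Zsa : IsSelfAdjoint Z
  Ssa : IsSelfAdjoint S
  ZS : Commute Z S
  sq : Z * Z + S * S = 1
  Zl : ∀ g, Commute Z (l g : A)
  Sl : ∀ g, Commute S (l g : A)
  Zp : Commute Z p
  Sp : Commute S p

/-- The rotation `δ_y ↦ Z δ_x + S δ_y`, `δ_x ↦ S δ_x - Z δ_y`. -/
def rot (l : F n →* unitary A) (p Z S : A) (x y : F n) : A :=
  1 + (S - 1) * (mu l p x x + mu l p y y) + Z * (mu l p x y - mu l p y x)

/-- `σ` is the Pytlik–Szwarc representation with angle `(Z, S)`. -/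
def IsPS (l : F n →* unitary A) (p Z S : A) (σ : F n →* unitary A) : Prop :=
  ∀ s, (σ (.of s) : A) = rot l p Z S 1 (.of s) * l (.of s)

/-- The commutators `[σ₂ d, σ₁ c]` factor as `∑ B(d) C(c)` with total size `δ`. -/
def KD {G : Type} [Group G] (σ₁ σ₂ : G →* unitary A) (δ : ℝ) : Prop :=
  ∃ (ι : Type) (B C : ι → G → A) (w : ι → ℝ), (∀ j d, ‖B j d‖ ≤ w j) ∧ (∀ j c, ‖C j c‖ ≤ 1) ∧
    Summable w ∧ ∑' j, w j ≤ δ ∧
    ∀ c d, HasSum (fun j => B j d * C j c) ((σ₂ d : A) * σ₁ c - (σ₁ c : A) * σ₂ d)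

/-- What the obstruction needs from one representation. -/
structure Good (σ : F n →* unitary A) (p Z : A) : Prop where
  proj : IsStarProjection p
  Zsa : IsSelfAdjoint Z
  Zp : Commute Z p
  Z1 : ‖Z - 1‖ ≤ 3 / 100
  diag : ∀ s, p * (σ (.of s) : A) * p = Z * p
  off : ‖(1 - p) * (∑ s, ((σ (.of s) : A) + star (σ (.of s) : A))) * p‖ ≤ √n / 2
  rest : ‖(1 - p) * (∑ s, (σ (.of s) : A)) * (1 - p)‖ ≤ 2 * √n

end Tree

/-- **Job PS.**  `mu x y * mu z w = if y = z then mu x w else 0` (from `orth`), `star (mu x y) =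
mu y x`, `l g * mu x y * star (l g) = mu (g x) (g y)`.  For `x ≠ y` `rot x y` is unitary with
`star (rot x y) = rot y x`, and `l g * rot x y = rot (g x) (g y) * l g`; `σ = FreeGroup.lift`.
So `σ(s^{±1}) = rot 1 s^{±1} * l s^{±1}` and for a reduced word `g = s₁⋯s_m`, `x_j = s₁⋯s_j`
(pairwise distinct: `norm x_j = j`): `σ g = G_m * l g`, `G_m = rot x₀ x₁ ⋯ rot x_{m-1} x_m`.
With `u_j = ∑_{k ≤ j} Z^k S^{[k<j]} mu x_{j-k} 1` induction on `m` gives `G_m mu x_m 1 = u_m`,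
`G_m mu x_j 1 = S u_j - Z mu x_{j+1} 1` (`j<m`), `G_m (1 - Π_m) = 1 - Π_m`, `Π_m = ∑_{j≤m} mu x_j x_j`.
Hence `G_m = (1-Π_m) + ∑_{k≤j≤m} Z^k S^{[k<j]+[j<m]} mu x_{j-k} x_j - Z ∑_{j<m} mu x_{j+1} x_j`.
`a (k,i) g` = (sum of the `mu x_{j-k} x_j` with `[k<j]+[j<m] = i`, a partial isometry; add `1-Π`
for `(k,i) = (0,0)` and `-∑ mu x_{j+1} x_j` for `(1,0)`) `* l g`; finitely many are nonzero. -/
def PS : Prop := ∀ (A : Type) [CStarAlgebra A] (n : ℕ) (l : F n →* unitary A) (p : A)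
  (P : Fin n → Bool → A), Tree l p P → ∃ a : ℕ × Fin 3 → F n → A, (∀ j g, ‖a j g‖ ≤ 2) ∧
    (∀ t, (∀ g, Commute t (l g : A)) → Commute t p → ∀ j g, Commute t (a j g)) ∧
    ∀ Z S, Ang l p Z S → ∃ σ : F n →* unitary A, IsPS l p Z S σ ∧
      ∀ g, HasSum (fun j : ℕ × Fin 3 => Z ^ j.1 * S ^ (j.2 : ℕ) * a j g) (σ g : A)

/-- **Job PP** (ping-pong, and its tree version).  (1) `∑ a_s = ∑ P_s a_s (1-Q_s) + ∑ a_s Q_s`;
`‖∑ P_s c_s‖² = ‖∑ c_s⋆ P_s c_s‖ ≤ n`, and the adjoint version.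
(2) `σ(s) p = Z p + S l(s) p`, `σ(s)⋆ p = Z p + S l(s)⋆ p`, `l(s) p = P s true l(s) p`,
`l(s)⋆ p = P s false l(s)⋆ p`, so the off-diagonal part has norm `≤ √(2n) ‖S‖`, and
`‖S‖² = ‖1 - Z²‖ ≤ 2·3/100`.  `a_s = (1-p)σ(s)(1-p)` has `a_s (1 - P s false) = P s true l(s) (1-p)`. -/
def PP : Prop := (∀ (A : Type) [CStarAlgebra A] (n : ℕ) (a P Q : Fin n → A), (∀ s, ‖a s‖ ≤ 1) →
    (∀ s, IsStarProjection (P s)) → (∀ s, IsStarProjection (Q s)) →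
    (∀ s s', s ≠ s' → P s * P s' = 0) → (∀ s s', s ≠ s' → Q s * Q s' = 0) →
    (∀ s, a s * (1 - Q s) = P s * a s * (1 - Q s)) → ‖∑ s, a s‖ ≤ 2 * √n) ∧
  ∀ (A : Type) [CStarAlgebra A] (n : ℕ) (l : F n →* unitary A) (p : A) (P : Fin n → Bool → A)
    (Z S : A) (σ : F n →* unitary A), Tree l p P → Ang l p Z S → IsPS l p Z S σ →
      (∀ s, p * (σ (.of s) : A) * p = Z * p) ∧ (‖Z - 1‖ ≤ 3 / 100 → Good σ p Z)

/-- **Job W** (words).  `st x` = first letter of the reduced word of `x` (`x.toWord.head?`).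
(3): if `x ≠ 1` does not start with `s⁻¹`, then `s x` is reduced of length `≥ 2` and `s x s⁻¹`
still starts with `s`.  (4) ICC: take a generator `a` different from the first and last letters of
`g`; `a^k g a^{-k}` is reduced of length `|g| + 2k`. -/
def Words : Prop := ∀ n : ℕ, (∃ st : F n → Option (Fin n × Bool), (∀ x, st x = none ↔ x = 1) ∧
    (∀ s x, st (.of s * x) = some (s, true) ↔ st x ≠ some (s, false)) ∧
    ∀ s x, x ≠ 1 → st x ≠ some (s, false) → st (.of s * x * (.of s)⁻¹) = some (s, true)) ∧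
  (3 ≤ n → ∀ g : F n, g ≠ 1 → {x | IsConj g x}.Infinite)

/-! ## S0105 -/

section S5
variable {K : Type} [NormedAddCommGroup K] [InnerProductSpace ℂ K] [CompleteSpace K]

/-- The invariant. -/
noncomputable def FL (E : Set (K →L[ℂ] K)) {n : ℕ} (x : Fin n → K →L[ℂ] K) : ℝ :=
  sSup {r | ∃ u : Fin n → K →L[ℂ] K, (∀ s, u s ∈ E.centralizer ∧ ‖u s‖ ≤ 1) ∧ r = ‖∑ s, u s * x s‖}

end S5

/-- The data from which the example is built. -/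
def Data5 (η : ℝ) : Prop := ∃ (K : Type) (_ : NormedAddCommGroup K) (_ : InnerProductSpace ℂ K)
  (_ : CompleteSpace K) (_ : SeparableSpace K) (_ : Nontrivial K)
  (E D : StarSubalgebra ℂ (K →L[ℂ] K)) (W : K →L[ℂ] K) (n : ℕ) (x : Fin n → K →L[ℂ] K),
    IsClosed (E : Set (K →L[ℂ] K)) ∧ IsSeparable (E : Set (K →L[ℂ] K)) ∧
    (∀ z ∈ (E : Set (K →L[ℂ] K)).centralizer, z ∈ (E : Set (K →L[ℂ] K)).centralizer.centralizer →
      ∃ c : ℂ, z = c • 1) ∧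
    IsClosed (D : Set (K →L[ℂ] K)) ∧ D ≤ E ∧ W ∈ unitary (K →L[ℂ] K) ∧ ‖W - 1‖ ≤ η ∧
    (∀ d ∈ D, W * d * star W ∈ E) ∧ (∀ s, x s ∈ D) ∧
    FL (E : Set (K →L[ℂ] K)) x ≠ FL (E : Set (K →L[ℂ] K)) fun s => W * x s * star W

/-- The statement S0105. -/
def S5 : Prop := ∀ ε : ℝ, 0 < ε →
    ∃ (H : Type) (_ : NormedAddCommGroup H) (_ : InnerProductSpace ℂ H) (_ : CompleteSpace H)
      (_ : TopologicalSpace.SeparableSpace H) (A B : StarSubalgebra ℂ (H →L[ℂ] H)),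
      IsClosed (A : Set (H →L[ℂ] H)) ∧ IsClosed (B : Set (H →L[ℂ] H)) ∧
      TopologicalSpace.IsSeparable (A : Set (H →L[ℂ] H)) ∧
      TopologicalSpace.IsSeparable (B : Set (H →L[ℂ] H)) ∧
      (∀ a ∈ A, ‖a‖ ≤ 1 → ∃ b ∈ B, ‖b‖ ≤ 1 ∧ ‖a - b‖ < ε) ∧
      (∀ b ∈ B, ‖b‖ ≤ 1 → ∃ a ∈ A, ‖a‖ ≤ 1 ∧ ‖b - a‖ < ε) ∧
      Set.centralizer (Set.centralizer (A : Set (H →L[ℂ] H))) =
        Set.centralizer (Set.centralizer (B : Set (H →L[ℂ] H))) ∧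
      ¬ ∃ u : H →L[ℂ] H, u ∈ unitary (H →L[ℂ] H) ∧
          ∀ y : H →L[ℂ] H, y ∈ B ↔ ∃ x ∈ A, y = u * x * star u

/-- **Job A5** (may be split: A5a = the algebras, A5b = no unitary).  `H = L2 ℕ K`.  For
`θ : ℕ → B(K)` (`θ = 1`, resp. `θ k = if Even k then W else 1`) let `𝒜 θ` = all `dg a`, `a` bounded,
`a k ∈ E`, with `‖a k - θ k d (θ k)⋆‖ → 0` for some `d ∈ D` (closed: `‖d‖ ≤ sup ‖a k‖`, `D` complete;
separable: closure of the eventually exact ones).  Closeness: `b k = a k + θ' d θ'⋆ - θ d θ⋆`,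
rescale by `(1+2η)⁻¹`.  Both commutants equal the commutant `𝒞` of the one-block operators
`sg k ∘ e ∘ ev k` (`e ∈ E`), `𝒞 = {dg c | c k ∈ E'}`, centre of `𝒞` = scalar `dg`'s.  If `u A u⋆ = B`,
`Ad u` preserves `𝒞` and its centre, so permutes the minimal central projections `p_k`:
`u⋆ p_j u = p_{π j}`, `π` injective.  `G_k(y) = sup {‖∑ v_s y_s p_k‖ : v_s ∈ 𝒞, ‖v_s‖ ≤ 1}` equals
`FL E (y k)` for block diagonal `y`, is `n`-Lipschitz, and `G_{π j}(u⋆ b u) = G_j(b)`.  For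
`b_s = dg (θ x_s θ⋆) ∈ B`, `a_s = u⋆ b_s u ∈ A` converges blockwise in norm to some `d_s`; along
even and along odd `j` (`π j → ∞`) both values of `FL` equal `FL E d`. -/
def JobA5 : Prop := (∀ η : ℝ, 0 < η → Data5 η) → S5

/-- **Job B5** is `PS → PP → Words → ∀ η > 0, Data5 η`.  `Γ = F 5`, `H₀ = L2 Γ ℂ` with its tree
(`l g = pm (mulLeft g)`, `p`, `P` = `dg` of indicators, from `Words`), `σ_z` (`Z = z•1`,
`S = √(1-z²)•1`, `z ∈ [0, 19/20]`); `sup_g ‖σ_z g - σ_w g‖ ≤ 2∑_j |z^k s^i - w^k s'^i|` is uniformly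
small.  `K = L2 Γ H₀`, `R g = pm (mulRight g⁻¹)`, `L g = pm (mulLeft g)`, `U_z = dg (σ_z c)⁻¹`,
`U_z R g U_z⋆ = R g * dg (σ_z g)`, `x_s = R s * dg (σ_z s)`, `W = U_w U_z⋆`, `D` = closed star algebra
generated by the `x_s`, `E` generated by the `R g`, `dg (mu a b)`, `dg (σ_z s)`, `dg (σ_w s)`.
`T ∈ E'` iff `T` commutes with all `R g` and all constant `dg b` (its entries `ev c ∘ T ∘ sg c'`
commute with all `mu a b`, so are scalars); thus `E'` does not depend on `z, w` and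
`f(z) = FL E (x^z)` is a function of `z`: `f 0 ≤ 2√5` (`PP.1` with `dg P`), `f z ≥ 5 z` (`u_s = L s`,
vector `sg 1 (sg 1 1)`), so `f` is not locally constant.  Centre: scalar entries `t(c,c')` invariant
under both translations, `c ↦ t(c,1)` is a square summable class function, vanishes off `1` (ICC). -/
def JobB5 : Prop := PS → PP → Words → ∀ η : ℝ, 0 < η → Data5 η

/-! ## S0104 -/

/-- **Job Obs.**  Let `j = E ∘ J`; `j` is injective and `j†` is injective on the range of `E`.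
For `|λ| < κ/2`, `B = j† (X-λ) j` has `‖B - κ(S₀+T)‖ < κ`, so `B† S₀ = κ(1 + small) + compact`.
If `X - λ` is injective on `ran E` so is `(X-λ)⋆` (normal), then `B†` and `B† S₀` are injective,
`B† S₀` is bijective (`IsCompactOperator.hasEigenvalue_or_mem_resolventSet`), so `S₀` is onto.
Hence every `|λ| < κ/2` is an eigenvalue of the normal `X`: uncountably many orthonormal vectors. -/
def Obs : Prop := ∀ (H K : Type) [NormedAddCommGroup H] [InnerProductSpace ℂ H] [CompleteSpace H]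
  [SeparableSpace H] [NormedAddCommGroup K] [InnerProductSpace ℂ K] [CompleteSpace K]
  (J : K →L[ℂ] H) (E X : H →L[ℂ] H) (S₀ T : K →L[ℂ] K) (κ : ℝ), 0 < κ →
    J.adjoint ∘L J = 1 → IsStarProjection E → Commute E X → IsStarNormal X →
    ‖(1 - E) ∘L J‖ < 1 → ‖(1 - J ∘L J.adjoint) * E‖ < 1 →
    star S₀ * S₀ = 1 → ¬ Function.Surjective S₀ → IsCompactOperator T →
    ‖J.adjoint ∘L (E * X * E) ∘L J - (κ : ℂ) • (S₀ + T)‖ ≤ κ / 2 → False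

/-- **Job Pert.**  `E` = spectral projection of `h` at level `7/10` (`HH.specP` in the bicommutant of
`h`, or `cfc`), `h₀ = QhQ + (1-Q)h(1-Q)`, `‖h - h₀‖ ≤ 2b`.  `Y = Q(1-E)` satisfies
`Q(h₀+1)Q Y = Y (1-E)(h+1)(1-E) - Q(h-h₀)(1-E)`, so `1.9‖Y‖ ≤ 1.7‖Y‖ + 2b`; `Y' = E(1-Q)` satisfies
`E(h+1)E Y' = Y' (1-Q)(h₀+1)(1-Q) + E(h-h₀)(1-Q)`, so `1.7‖Y'‖ ≤ 1.5‖Y'‖ + 2b`. -/
def Pert : Prop := ∀ (H : Type) [NormedAddCommGroup H] [InnerProductSpace ℂ H] [CompleteSpace H]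
  (h Q : H →L[ℂ] H) (b : ℝ), IsSelfAdjoint h → ‖h‖ ≤ 1 → IsStarProjection Q →
    ‖Q * (h - 1) * Q‖ ≤ 1 / 10 → ‖(1 - Q) * h * Q‖ ≤ b → ‖(1 - Q) * h * (1 - Q)‖ ≤ 1 / 2 →
    ∃ E : H →L[ℂ] H, IsStarProjection E ∧ (∀ t, Commute t h → Commute t E) ∧
      ‖(1 - E) * Q‖ ≤ 10 * b ∧ ‖(1 - Q) * E‖ ≤ 10 * b

/-- **Job Sh.**  (1) `K = L2 ℕ ℂ`, `S₀` the unilateral shift, `S₀ + T` the weighted shift with
weights `√(min 1 ((k+1) δ))` (finite rank perturbation).  (2) Weierstrass approximation of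
`√(1-t²)` on `[-1,1]`, `‖[a^k, b]‖ ≤ k ‖[a,b]‖`. -/
def Sh : Prop := (∀ δ : ℝ, 0 < δ → ∃ (K : Type) (_ : NormedAddCommGroup K)
    (_ : InnerProductSpace ℂ K) (_ : CompleteSpace K) (_ : SeparableSpace K) (S₀ T : K →L[ℂ] K),
      star S₀ * S₀ = 1 ∧ ¬ Function.Surjective S₀ ∧ IsCompactOperator T ∧ ‖S₀ + T‖ ≤ 1 ∧
      ‖star (S₀ + T) * (S₀ + T) - (S₀ + T) * star (S₀ + T)‖ ≤ δ) ∧
  ∀ δ : ℝ, 0 < δ → ∃ δ' : ℝ, 0 < δ' ∧ ∀ (A : Type) [CStarAlgebra A] (a b : A), IsSelfAdjoint a →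
    ‖a‖ ≤ 1 → ‖b‖ ≤ 1 → ‖a * b - b * a‖ ≤ δ' →
      ‖cfc (fun t : ℝ => √(1 - t ^ 2)) a * b - b * cfc (fun t : ℝ => √(1 - t ^ 2)) a‖ ≤ δ

/-- **Job KDJ** is `PS → KDJ`.  With `F_j = Z₁^k S₁^i`, `G_j = Z₂^k S₂^i`:
`[σ₂ d, σ₁ c] = ∑_{j,j'} a₂ j' d [G_j', F_j] a₁ j c`, and
`‖[G_j', F_j]‖ ≤ (k+2)(k'+2) r^{k+k'-2} δ'` (`r = 99/100`); put the factor `1/2` into `C`. -/
def KDJ : Prop := ∀ δ : ℝ, 0 < δ → ∃ δ' : ℝ, 0 < δ' ∧ ∀ (A : Type) [CStarAlgebra A] (n : ℕ)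
  (l₁ l₂ : F n →* unitary A) (p₁ p₂ : A) (P₁ P₂ : Fin n → Bool → A) (Z₁ S₁ Z₂ S₂ : A),
    Tree l₁ p₁ P₁ → Tree l₂ p₂ P₂ → Ang l₁ p₁ Z₁ S₁ → Ang l₂ p₂ Z₁ S₁ → Ang l₁ p₁ Z₂ S₂ →
    Ang l₂ p₂ Z₂ S₂ → (∀ g h, Commute (l₁ g : A) (l₂ h)) → (∀ g, Commute (l₁ g : A) p₂) →
    (∀ g, Commute (l₂ g : A) p₁) → Commute p₁ p₂ → ‖Z₁‖ ≤ 99 / 100 → ‖Z₂‖ ≤ 99 / 100 →
    ‖Z₁ * Z₂ - Z₂ * Z₁‖ ≤ δ' → ‖Z₁ * S₂ - S₂ * Z₁‖ ≤ δ' → ‖S₁ * Z₂ - Z₂ * S₁‖ ≤ δ' →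
    ‖S₁ * S₂ - S₂ * S₁‖ ≤ δ' →
    ∃ σ₁ σ₂ : F n →* unitary A, IsPS l₁ p₁ Z₁ S₁ σ₁ ∧ IsPS l₂ p₂ Z₂ S₂ σ₂ ∧ KD σ₁ σ₂ δ

/-- The model. -/
def Model (n : ℕ) (δ : ℝ) : Prop := ∃ (H K : Type) (_ : NormedAddCommGroup H)
  (_ : InnerProductSpace ℂ H) (_ : CompleteSpace H) (_ : SeparableSpace H)
  (_ : NormedAddCommGroup K) (_ : InnerProductSpace ℂ K) (_ : CompleteSpace K)
  (σ₁ σ₂ : F n →* unitary (H →L[ℂ] H)) (p₁ p₂ Z₁ Z₂ : H →L[ℂ] H) (J : K →L[ℂ] H)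
  (S₀ T : K →L[ℂ] K), Good σ₁ p₁ Z₁ ∧ Good σ₂ p₂ Z₂ ∧ KD σ₁ σ₂ δ ∧ Commute p₁ p₂ ∧
    J.adjoint ∘L J = 1 ∧ J ∘L J.adjoint = p₁ * p₂ ∧ star S₀ * S₀ = 1 ∧ ¬ Function.Surjective S₀ ∧
    IsCompactOperator T ∧
    J.adjoint ∘L ((Z₁ - (98 / 100 : ℂ) • 1) + Complex.I • (Z₂ - (98 / 100 : ℂ) • 1)) ∘L J =
      (1 / 100 : ℂ) • (S₀ + T)

/-- **Job Mod** is `PP → Words → Sh → KDJ → ∀ n δ > 0, Model n δ`.  `H = L2 (F n × F n) K`,
`l₁ g = pm (mulLeft (g,1))`, `l₂ h = pm (mulLeft (1,h))`, `p₁ = dg (if x.1 = 1 then 1 else 0)`, `P₁`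
from `st x.1`, `J = sg 1`; `z₁ = 98/100 + Re(S₀+T)/100`, `z₂ = 98/100 + Im(S₀+T)/100`,
`s_i = cfc √(1-t²) z_i`, `Z_i, S_i` the constant `dg`'s. -/
def JobMod : Prop := PP → Words → Sh → KDJ → ∀ (n : ℕ) (δ : ℝ), 0 < δ → Model n δ

section S4
variable {G : Type} [Group G] {H : Type} [NormedAddCommGroup H] [InnerProductSpace ℂ H]
  [CompleteSpace H]

/-- Left translation. -/
noncomputable def Lt (H : Type) [NormedAddCommGroup H] [InnerProductSpace ℂ H] (γ : G) :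
    L2 G H →L[ℂ] L2 G H := pm H (Equiv.mulLeft γ)

/-- Right translation. -/
noncomputable def Rt (H : Type) [NormedAddCommGroup H] [InnerProductSpace ℂ H] (γ : G) :
    L2 G H →L[ℂ] L2 G H := pm H (Equiv.mulRight γ⁻¹)

/-- The twisting unitary. -/
noncomputable def Vt (σ₁ σ₂ : G →* unitary (H →L[ℂ] H)) : L2 (G × G) H →L[ℂ] L2 (G × G) H :=
  dg fun γ => star (σ₂ γ.2 : H →L[ℂ] H) * star (σ₁ γ.1 : H →L[ℂ] H)

end S4

/-- **Job Near.**  The entries `y(γ,γ') = ev γ ∘ y ∘ sg γ'` commute with every operator on `H` and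
are left invariant.  `V y V⋆` has entries `y σ₂(d⁻¹) σ₁(c⁻¹c') σ₂(d')`; subtract
`dg([σ₂ d⁻¹, σ₁ c⁻¹]) y dg(σ₁ c' σ₂ d') + ∑_j dg(σ₁(c⁻¹) B_j(d⁻¹)) y dg(C_j(c') σ₂ d')` (norm
convergent); the result `X` has entries `y σ₁(c⁻¹c') σ₂(d⁻¹d')`, left invariant. -/
def Near : Prop := ∀ (G : Type) [Group G] (H : Type) [NormedAddCommGroup H] [InnerProductSpace ℂ H]
  [CompleteSpace H] (σ₁ σ₂ : G →* unitary (H →L[ℂ] H)) (δ : ℝ), KD σ₁ σ₂ δ →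
    ∀ y : L2 (G × G) H →L[ℂ] L2 (G × G) H, (∀ γ, Commute y (Lt H γ)) →
      (∀ b : H →L[ℂ] H, Commute y (dg fun _ => b)) →
      ∃ X, (∀ γ, Commute X (Lt H γ)) ∧ ‖Vt σ₁ σ₂ * y * star (Vt σ₁ σ₂) - X‖ ≤ 2 * δ * ‖y‖

/-- **Job Far** is `PP → Words → Obs → Pert → Far`.  `π γ = Lt γ * y γ` is a unitary representation
of `F n × F n`; `h₁ = (2n)⁻¹ ∑_s (π(s,1) + π(s,1)⋆)`, `h₂` likewise, commute.
`V Rt(g,1) V⋆ = wp _ (σ₂(d)⁻¹ σ₁ g σ₂ d)` is `δ`-close to `Rt (g,1) dg(σ₁ g)` (`KD` bounds the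
commutators by `δ`), `V Rt(1,h) V⋆ = Rt(1,h) dg(σ₂ h)`; so `‖h_i - h_i⁰‖ ≤ e = 10⁻⁴` with
`h₁⁰` built from `a_s = Lt(s,1) Rt(s,1) dg(σ₁ s)`.  `Q₁ = dg (if c = 1 then p₁ else 0)`,
`C₁ = dg (if c = 1 then 1 else 0)` commutes with `a_s`; on `C₁`, `a_s = dg (σ₁ s)` (use `Good`), on
`1 - C₁` use `PP.1` with the labels `st c` (`Words`).  `Pert` with `b = 1/(4√n) + e` gives commuting
`E₁, E₂`; `E = E₁E₂`, `J' = sg 1 ∘ J`, `J'J'† = Q₁Q₂`, `‖(1-E)J'‖, ‖(1-Q₁Q₂)E‖ ≤ 20b`,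
`X = (h₁ - .98) + i(h₂ - .98)`, `‖J'†(EXE - X)J'‖ ≤ 4 (20b)²`; `Obs` with `κ = 1/100`. -/
def Far : Prop := ∀ (n : ℕ), 100000 ≤ n → ∀ (H K : Type) [NormedAddCommGroup H]
  [InnerProductSpace ℂ H] [CompleteSpace H] [SeparableSpace H]
  [NormedAddCommGroup K] [InnerProductSpace ℂ K] [CompleteSpace K]
  (σ₁ σ₂ : F n →* unitary (H →L[ℂ] H)) (p₁ p₂ Z₁ Z₂ : H →L[ℂ] H) (J : K →L[ℂ] H)
  (S₀ T : K →L[ℂ] K), Good σ₁ p₁ Z₁ → Good σ₂ p₂ Z₂ → KD σ₁ σ₂ (1 / 100000) → Commute p₁ p₂ →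
    J.adjoint ∘L J = 1 → J ∘L J.adjoint = p₁ * p₂ → star S₀ * S₀ = 1 → ¬ Function.Surjective S₀ →
    IsCompactOperator T →
    J.adjoint ∘L ((Z₁ - (98 / 100 : ℂ) • 1) + Complex.I • (Z₂ - (98 / 100 : ℂ) • 1)) ∘L J =
      (1 / 100 : ℂ) • (S₀ + T) →
    ∀ y : F n × F n →* unitary (L2 (F n × F n) H →L[ℂ] L2 (F n × F n) H),
      (∀ γ γ', Commute (y γ : L2 (F n × F n) H →L[ℂ] L2 (F n × F n) H) (Lt H γ')) →
      (∀ γ, ‖(y γ : L2 (F n × F n) H →L[ℂ] L2 (F n × F n) H) -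
        Vt σ₁ σ₂ * Rt H γ * star (Vt σ₁ σ₂)‖ ≤ 2 / 100000) → False

/-- The statement S0104. -/
def S4 : Prop :=
    ∃ ε₀ : ℝ, 0 < ε₀ ∧ ∀ δ : ℝ, 0 < δ →
      ∃ (H : Type) (_ : NormedAddCommGroup H) (_ : InnerProductSpace ℂ H) (_ : CompleteSpace H)
        (_ : TopologicalSpace.SeparableSpace H) (M N : VonNeumannAlgebra H),
        (∀ x ∈ M, ‖x‖ ≤ 1 → ∃ y ∈ N, ‖x - y‖ < δ) ∧
        ∀ u : H →L[ℂ] H, u ∈ unitary (H →L[ℂ] H) →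
          (∀ x ∈ M, u * x * star u ∈ N) → ε₀ ≤ ‖u - 1‖

/-- **Job A4.**  `ε₀ = 10⁻⁵`, `n = 10⁵`, model with `min (δ/3) 10⁻⁵` (`KD` is monotone in `δ`).
`N` = commutant of the `Lt γ`, `M` = commutant of `V (Lt γ) V⋆`, `V (dg b) V⋆` (`GEN.vnComm` or
`StarSubalgebra.centralizer`); `y γ = u V (Rt γ) V⋆ u⋆`.  Then write `Crest/Agent/S0104.lean`. -/
def JobA4 : Prop := (∀ (n : ℕ) (δ : ℝ), 0 < δ → Model n δ) → Near → Far → S4

end Crest.Agent.KK
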