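import Crest.Agent.KK.Defs

/-! Job Far. -/

set_option autoImplicit false
set_option linter.unusedSectionVars false
open Filter Topology TopologicalSpace
open scoped InnerProductSpace

namespace Crest.Agent.KK.Fr

section av
variable {A : Type} [CStarAlgebra A] {n : ℕ}

/-- the symmetric average -/
noncomputable def av (u : Fin n → A) : A := (2 * n : ℂ)⁻¹ • ∑ s, (u s + star (u s))

lemma av_sa (u : Fin n → A) : IsSelfAdjoint (av u) := by
  simp [IsSelfAdjoint, av, star_sum, add_comm]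

lemma norm_c (x : A) : ‖(2 * n : ℂ)⁻¹ • x‖ = ‖x‖ / (2 * n) := by
  simp [norm_smul, div_eq_inv_mul]

lemma norm_av (hn : 0 < n) {u : Fin n → A} {e : ℝ} (h : ∀ s, ‖u s‖ ≤ e) : ‖av u‖ ≤ e := by
  have : (0 : ℝ) < n := by exact_mod_cast hn
  rw [av, norm_c, div_le_iff₀ (by positivity)]
  refine (norm_sum_le_of_le _ fun s _ => (norm_add_le _ _).trans
    (add_le_add (h s) ((norm_star _).trans_le (h s)))).trans_eq ?_
  simp; ring

lemma av_sub (u a : Fin n → A) : av u - av a = av fun s => u s - a s := by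
  simp only [av, ← smul_sub, ← Finset.sum_sub_distrib, star_sub]
  congr 2; funext s; abel

lemma sand {P Q x : A} (hP : IsStarProjection P) (hQ : IsStarProjection Q) : ‖P * x * Q‖ ≤ ‖x‖ := by
  calc _ ≤ 1 * ‖x‖ * 1 := by
        refine (norm_mul₃_le).trans ?_
        gcongr
        exacts [hP.norm_le, hQ.norm_le]
    _ = _ := by ring

lemma av_comm {u v : Fin n → A} (h : ∀ s t, Commute (u s) (v t))
    (h' : ∀ s t, Commute (u s) (star (v t))) : Commute (av u) (av v) :=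
  ((Commute.sum_left _ _ _ fun s _ => Commute.sum_right _ _ _ fun t _ =>
    ((h s t).add_right (h' s t)).add_left (((by simpa using (h' s t).star_star : Commute _ (v t)
      )).add_right (h s t).star_star)).smul_left _).smul_right _

end av

variable {H : Type} [NormedAddCommGroup H] [InnerProductSpace ℂ H] [CompleteSpace H]

lemma side (hP : Pert) {n : ℕ} (hn : 100000 ≤ n) {u a : Fin n → H →L[ℂ] H} {Q Y : H →L[ℂ] H}
    (hu : ∀ s, ‖u s‖ ≤ 1) (hua : ∀ s, ‖u s - a s‖ ≤ 1 / 10000) (hQ : IsStarProjection Q)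
    (hY : IsSelfAdjoint Y) (hY1 : ‖Y - Q‖ ≤ 3 / 100) (h1 : ∀ s, Q * a s * Q = Y)
    (h2 : ‖(1 - Q) * (∑ s, (a s + star (a s))) * Q‖ ≤ √n / 2)
    (h3 : ‖(1 - Q) * (∑ s, a s) * (1 - Q)‖ ≤ 4 * √n) :
    ‖Q * av u * Q - Y‖ ≤ 1 / 10000 ∧ ∃ E : H →L[ℂ] H, IsStarProjection E ∧
      (∀ t, Commute t (av u) → Commute t E) ∧ ‖(1 - E) * Q‖ ≤ 1 / 100 ∧ ‖(1 - Q) * E‖ ≤ 1 / 100 := by
  have hn0 : 0 < n := by omega
  have hn' : (100000 : ℝ) ≤ n := by exact_mod_cast hn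
  have hs : 316 ≤ √(n : ℝ) := Real.le_sqrt_of_sq_le (by linarith)
  have hs2 : √(n : ℝ) * √n = n := Real.mul_self_sqrt (by positivity)
  have hd : ∀ {P R : H →L[ℂ] H}, IsStarProjection P → IsStarProjection R →
      ‖P * av u * R - P * av a * R‖ ≤ 1 / 10000 := fun hP hR => by
    rw [← sub_mul, ← mul_sub, av_sub]
    exact (sand hP hR).trans (norm_av hn0 hua)
  have hQY : Q * av a * Q = Y := by
    have h1' : ∀ s, Q * star (a s) * Q = Y := fun s => by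
      rw [← hY.star_eq, ← h1 s, star_mul, star_mul, hQ.isSelfAdjoint.star_eq, mul_assoc]
    have : (n : ℂ) ≠ 0 := by exact_mod_cast hn0.ne'
    simp only [av, mul_smul_comm, smul_mul_assoc, Finset.mul_sum, Finset.sum_mul, mul_add, add_mul,
      h1, h1', Finset.sum_const, Finset.card_univ, Fintype.card_fin, ← Nat.cast_smul_eq_nsmul ℂ,
      ← two_smul ℂ Y, smul_smul]
    rw [show (2 * n : ℂ)⁻¹ * (n * 2) = 1 by field_simp, one_smul]
  have h0 := hd hQ hQ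
  rw [hQY] at h0
  obtain ⟨E, hE, hc, h4, h5⟩ := hP H (av u) Q (1 / 1000) (av_sa u) (norm_av hn0 hu) hQ (by
      rw [mul_sub, sub_mul, mul_one, hQ.isIdempotentElem.eq]
      linarith [norm_sub_le_norm_sub_add_norm_sub (Q * av u * Q) Y Q]) (by
      have : ‖(1 - Q) * av a * Q‖ ≤ 9 / 10000 := by
        rw [av, mul_smul_comm, smul_mul_assoc, norm_c, div_le_iff₀ (by positivity)]
        nlinarith
      linarith [norm_le_norm_sub_add ((1 - Q) * av u * Q) ((1 - Q) * av a * Q), hd hQ.one_sub hQ])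
    (by
      have : ‖(1 - Q) * av a * (1 - Q)‖ ≤ 1 / 4 := by
        have h3' : ‖(1 - Q) * (∑ s, star (a s)) * (1 - Q)‖ ≤ 4 * √n := by
          rwa [← norm_star, star_mul, star_mul, hQ.one_sub.isSelfAdjoint.star_eq, ← star_sum,
            star_star, ← mul_assoc]
        rw [av, mul_smul_comm, smul_mul_assoc, norm_c, div_le_iff₀ (by positivity),
          Finset.sum_add_distrib, mul_add, add_mul]
        nlinarith [norm_add_le ((1 - Q) * (∑ s, a s) * (1 - Q))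
          ((1 - Q) * (∑ s, star (a s)) * (1 - Q))]
      linarith [norm_le_norm_sub_add ((1 - Q) * av u * (1 - Q)) ((1 - Q) * av a * (1 - Q)),
        hd hQ.one_sub hQ.one_sub])
  exact ⟨h0, E, hE, hc, by linarith, by linarith⟩

lemma two {A : Type} [CStarAlgebra A] {E₁ E₂ Q₁ Q₂ : A} (hE : IsStarProjection E₁)
    (h₁ : IsStarProjection Q₁) (h₂ : IsStarProjection Q₂) (hc : Commute Q₁ Q₂) {r : ℝ}
    (a₁ : ‖(1 - E₁) * Q₁‖ ≤ r) (a₂ : ‖(1 - E₂) * Q₂‖ ≤ r) :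
    ‖(1 - E₁ * E₂) * (Q₁ * Q₂)‖ ≤ 2 * r := by
  have : (1 - E₁ * E₂) * (Q₁ * Q₂) = 1 * ((1 - E₁) * Q₁) * Q₂ + E₁ * ((1 - E₂) * Q₂) * Q₁ := by
    simp only [mul_assoc, ← hc.eq]; noncomm_ring
  rw [this]
  linarith [norm_add_le (1 * ((1 - E₁) * Q₁) * Q₂) (E₁ * ((1 - E₂) * Q₂) * Q₁),
    sand (x := (1 - E₁) * Q₁) (.one _) h₂, sand (x := (1 - E₂) * Q₂) hE h₁]

lemma fin (hO : Obs) [SeparableSpace H] {K : Type} [NormedAddCommGroup K] [InnerProductSpace ℂ K]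
    [CompleteSpace K] {J : K →L[ℂ] H} {S₀ T : K →L[ℂ] K} {h₁ h₂ Q₁ Q₂ Y₁ Y₂ E₁ E₂ : H →L[ℂ] H}
    (s₁ : IsSelfAdjoint h₁) (s₂ : IsSelfAdjoint h₂) (n₁ : ‖h₁‖ ≤ 1) (n₂ : ‖h₂‖ ≤ 1)
    (hc : Commute h₁ h₂) (q₁ : IsStarProjection Q₁) (q₂ : IsStarProjection Q₂)
    (qc : Commute Q₁ Q₂) (y₁ : ‖Q₁ * h₁ * Q₁ - Y₁‖ ≤ 1 / 10000) (y₂ : ‖Q₂ * h₂ * Q₂ - Y₂‖ ≤ 1 / 10000)
    (e₁ : IsStarProjection E₁) (e₂ : IsStarProjection E₂)
    (c₁ : ∀ t, Commute t h₁ → Commute t E₁) (c₂ : ∀ t, Commute t h₂ → Commute t E₂)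
    (a₁ : ‖(1 - E₁) * Q₁‖ ≤ 1 / 100) (b₁ : ‖(1 - Q₁) * E₁‖ ≤ 1 / 100)
    (a₂ : ‖(1 - E₂) * Q₂‖ ≤ 1 / 100) (b₂ : ‖(1 - Q₂) * E₂‖ ≤ 1 / 100)
    (hJ : J.adjoint ∘L J = 1) (hJ' : J ∘L J.adjoint = Q₁ * Q₂) (hS : star S₀ * S₀ = 1)
    (hS' : ¬ Function.Surjective S₀) (hT : IsCompactOperator T)
    (hY : J.adjoint ∘L ((Y₁ - (98 / 100 : ℂ) • 1) + Complex.I • (Y₂ - (98 / 100 : ℂ) • 1)) ∘L J =
      (1 / 100 : ℂ) • (S₀ + T)) : False := by
  have ec : Commute E₁ E₂ := c₂ _ (c₁ _ hc.symm).symm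
  have hE : IsStarProjection (E₁ * E₂) := e₁.mul e₂ ec
  have hX : ∀ h : H →L[ℂ] H, Commute h h₁ → Commute h h₂ →
      Commute h ((h₁ - (98 / 100 : ℂ) • 1) + Complex.I • (h₂ - (98 / 100 : ℂ) • 1)) :=
    fun h a b => (a.sub_right ((Commute.one_right _).smul_right _)).add_right
      ((b.sub_right ((Commute.one_right _).smul_right _)).smul_right _)
  set X := (h₁ - (98 / 100 : ℂ) • 1) + Complex.I • (h₂ - (98 / 100 : ℂ) • 1) with hXd
  have hEX : Commute (E₁ * E₂) X := hX _ ((c₁ _ (.refl _)).mul_right (c₂ _ hc)).symm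
    ((c₁ _ hc.symm).mul_right (c₂ _ (.refl _))).symm
  have nJ : ‖J‖ ≤ 1 := by
    have := J.norm_adjoint_comp_self
    rw [hJ] at this
    have h1 : ‖(1 : K →L[ℂ] K)‖ ≤ 1 := ContinuousLinearMap.norm_id_le
    nlinarith [norm_nonneg J]
  have hQJ : (Q₁ * Q₂) ∘L J = J := by
    rw [← hJ', ContinuousLinearMap.comp_assoc, hJ]; rfl
  have hQ₁ : Q₁ ∘L J = J := by
    conv_lhs => rw [← hQJ, ← ContinuousLinearMap.comp_assoc, ← ContinuousLinearMap.mul_def,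
      ← mul_assoc, q₁.isIdempotentElem.eq, hQJ]
  have hQ₂ : Q₂ ∘L J = J := by
    conv_lhs => rw [← hQJ, ← ContinuousLinearMap.comp_assoc, ← ContinuousLinearMap.mul_def, qc.eq,
      ← mul_assoc, q₂.isIdempotentElem.eq, ← qc.eq, hQJ]
  have hsand : ∀ {Q : H →L[ℂ] H}, IsStarProjection Q → Q ∘L J = J → ∀ h : H →L[ℂ] H,
      J.adjoint ∘L (Q * h * Q) ∘L J = J.adjoint ∘L h ∘L J := fun {Q} hQ hQJ h => by
    have : J.adjoint ∘L Q = J.adjoint := by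
      rw [← hQ.isSelfAdjoint.adjoint_eq, ← ContinuousLinearMap.adjoint_comp, hQJ]
    rw [ContinuousLinearMap.mul_def, ContinuousLinearMap.mul_def, ContinuousLinearMap.comp_assoc,
      hQJ, ContinuousLinearMap.comp_assoc, ← ContinuousLinearMap.comp_assoc _ Q, this]
  have hle : ∀ (R : K →L[ℂ] H) (h : H →L[ℂ] H), ‖R.adjoint ∘L h ∘L R‖ ≤ ‖R‖ * (‖h‖ * ‖R‖) :=
    fun R h => (ContinuousLinearMap.opNorm_comp_le _ _).trans (by
      rw [LinearIsometryEquiv.norm_map]; gcongr; exact ContinuousLinearMap.opNorm_comp_le _ _)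
  have hR : ‖(1 - E₁ * E₂) ∘L J‖ ≤ 1 / 50 := by
    rw [← hQJ, ← ContinuousLinearMap.comp_assoc, ← ContinuousLinearMap.mul_def]
    refine (ContinuousLinearMap.opNorm_comp_le _ _).trans ?_
    nlinarith [two e₁ q₁ q₂ qc a₁ a₂, norm_nonneg J, norm_nonneg ((1 - E₁ * E₂) * (Q₁ * Q₂))]
  have nX : ‖X‖ ≤ 4 := by
    have : ∀ h : H →L[ℂ] H, ‖h‖ ≤ 1 → ‖h - (98 / 100 : ℂ) • 1‖ ≤ 2 := fun h hh => by
      have h1 : ‖(98 / 100 : ℂ) • (1 : H →L[ℂ] H)‖ ≤ 1 := by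
        rw [norm_smul]
        exact mul_le_one₀ (by norm_num) (norm_nonneg _) ContinuousLinearMap.norm_id_le
      linarith [norm_sub_le h ((98 / 100 : ℂ) • 1)]
    refine (norm_add_le _ _).trans ?_
    rw [norm_smul, Complex.norm_I]
    linarith [this _ n₁, this _ n₂]
  refine hO H K J (E₁ * E₂) X S₀ T (1 / 100) (by norm_num) hJ hE hEX ⟨?_⟩ (by linarith) ?_ hS hS'
    hT ?_
  · refine hX _ ?_ ?_
    · simpa [s₁.star_eq] using (hX _ (.refl _) hc).symm.star_star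
    · simpa [s₂.star_eq] using (hX _ hc.symm (.refl _)).symm.star_star
  · rw [hJ']
    linarith [two q₁ e₁ e₂ ec b₁ b₂]
  · have e1 : J.adjoint ∘L (E₁ * E₂ * X * (E₁ * E₂)) ∘L J - ((1 / 100 : ℝ) : ℂ) • (S₀ + T) =
        J.adjoint ∘L (Q₁ * h₁ * Q₁ - Y₁) ∘L J + Complex.I • J.adjoint ∘L (Q₂ * h₂ * Q₂ - Y₂) ∘L J -
        ((1 - E₁ * E₂) ∘L J).adjoint ∘L X ∘L (1 - E₁ * E₂) ∘L J := by
      have e2 : E₁ * E₂ * X * (E₁ * E₂) = X - (1 - E₁ * E₂) * X * (1 - E₁ * E₂) := by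
        have e3 : E₁ * E₂ * X * (E₁ * E₂) = X * (E₁ * E₂) := by
          rw [hEX.eq, mul_assoc, hE.isIdempotentElem.eq]
        simp only [mul_sub, sub_mul, mul_one, one_mul, e3, hEX.eq, mul_assoc X,
          hE.isIdempotentElem.eq]
        abel
      rw [e2, ContinuousLinearMap.adjoint_comp, hE.one_sub.isSelfAdjoint.adjoint_eq]
      push_cast
      rw [← hY]
      simp only [ContinuousLinearMap.sub_comp, ContinuousLinearMap.comp_sub, hsand q₁ hQ₁,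
        hsand q₂ hQ₂]
      simp only [ContinuousLinearMap.sub_comp, ContinuousLinearMap.comp_sub,
        hXd, ContinuousLinearMap.add_comp, ContinuousLinearMap.comp_add,
        ContinuousLinearMap.smul_comp, ContinuousLinearMap.comp_smul, ContinuousLinearMap.mul_def,
        ContinuousLinearMap.comp_assoc, smul_sub]
      abel
    rw [e1]
    refine (norm_sub_le _ _).trans ((add_le_add (norm_add_le _ _) le_rfl).trans ?_)
    rw [norm_smul, Complex.norm_I, one_mul]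
    have k : ∀ h : H →L[ℂ] H, ‖J.adjoint ∘L h ∘L J‖ ≤ ‖h‖ := fun h => (hle J h).trans (by
      calc _ ≤ 1 * (‖h‖ * 1) := by gcongr
        _ = _ := by ring)
    have k' : ‖((1 - E₁ * E₂) ∘L J).adjoint ∘L X ∘L (1 - E₁ * E₂) ∘L J‖ ≤ 1 / 50 * (4 * (1 / 50)) :=
      (hle _ X).trans (by gcongr)
    linarith [k (Q₁ * h₁ * Q₁ - Y₁), k (Q₂ * h₂ * Q₂ - Y₂)]

variable {α : Type}

open Classical in
/-- `b` on the blocks in `S` -/
noncomputable def idc (S : α → Prop) (b : H →L[ℂ] H) : L2 α H →L[ℂ] L2 α H :=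
  dg fun x => if S x then b else 0

open Classical in
lemma le_idc (S : α → Prop) (b : H →L[ℂ] H) (x : α) : ‖if S x then b else 0‖ ≤ ‖b‖ := by
  split_ifs <;> simp

open Classical in
lemma idc_sg (S : α → Prop) (b : H →L[ℂ] H) (x : α) (v : H) :
    idc S b (sg x v) = if S x then sg x (b v) else 0 := by
  rw [idc, wp_sg _ ⟨_, le_idc S b⟩]
  split_ifs <;> simp

lemma norm_idc (S : α → Prop) (b : H →L[ℂ] H) : ‖idc S b‖ ≤ ‖b‖ :=
  norm_wp_le _ (norm_nonneg _) (le_idc S b)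

lemma idc_sa (S : α → Prop) {b : H →L[ℂ] H} (hb : IsSelfAdjoint b) : IsSelfAdjoint (idc S b) := by
  rw [IsSelfAdjoint, idc, star_wp _ ⟨_, le_idc S b⟩]
  congr 1
  funext a
  by_cases h : S a <;> simp [h, hb.star_eq]

lemma idc_proj (S : α → Prop) {b : H →L[ℂ] H} (hb : IsStarProjection b) :
    IsStarProjection (idc S b) := by
  refine ⟨ext_sg fun x v => ?_, idc_sa S hb.isSelfAdjoint⟩
  rw [mul_apply_eq_comp, idc_sg]
  split_ifs with h
  · rw [idc_sg, if_pos h, ← mul_apply_eq_comp, hb.isIdempotentElem.eq]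
  · simp

set_option maxHeartbeats 2000000 in
lemma conc (hPP : PP) (hW : Words) {n : ℕ} {σ : F n →* unitary (H →L[ℂ] H)} {p Z : H →L[ℂ] H}
    (hG : Good σ p Z) (e : Fin n → Equiv.Perm α) (c : α → F n)
    (hc : ∀ s x, c (e s x) = .of s * c x * (.of s)⁻¹) (he : ∀ s x, c x = 1 → e s x = x)
    {a : Fin n → L2 α H →L[ℂ] L2 α H} (ha : ∀ s, a s = wp (e s) fun _ => (σ (.of s) : H →L[ℂ] H))
    {Q : L2 α H →L[ℂ] L2 α H} (hQ : Q = idc (c · = 1) p) :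
    (IsSelfAdjoint (idc (c · = 1) (Z * p)) ∧ ‖idc (c · = 1) (Z * p) - Q‖ ≤ 3 / 100 ∧
      ∀ s, Q * a s * Q = idc (c · = 1) (Z * p)) ∧
      ‖(1 - Q) * (∑ s, (a s + star (a s))) * Q‖ ≤ √n / 2 ∧
      ‖(1 - Q) * (∑ s, a s) * (1 - Q)‖ ≤ 4 * √n := by
  obtain ⟨⟨st, h1, -, h3⟩, -⟩ := hW n
  have hs : ∀ s x v, a s (sg x v) = sg (e s x) ((σ (.of s) : H →L[ℂ] H) v) := fun s x v => by
    rw [ha, wp_sg _ (bdd_const _)]
  have hs' : ∀ s x v, c x = 1 → star (a s) (sg x v) = sg x (star (σ (.of s) : H →L[ℂ] H) v) :=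
    fun s x v hx => by
      rw [ha, star_wp _ (bdd_const _), wp_sg _ (bdd_const _), Equiv.Perm.inv_eq_iff_eq.2
        (he s x hx).symm]
  have hne : ∀ s x, c x ≠ 1 → c (e s x) ≠ 1 := fun s x hx => by simpa [hc] using hx
  subst hQ
  refine ⟨⟨idc_sa _ (by rw [IsSelfAdjoint, star_mul, hG.Zsa.star_eq, hG.proj.isSelfAdjoint.star_eq,
    hG.Zp.eq]), ?_, fun s => ext_sg fun x v => ?_⟩, ?_, ?_⟩
  · have : idc (c · = 1) (Z * p) - idc (c · = 1) p = idc (c · = 1) (1 * (Z - 1) * p) :=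
      ext_sg fun x v => by by_cases h : c x = 1 <;> simp [idc_sg, h]
    rw [this]
    exact (norm_idc _ _).trans ((sand (.one _) hG.proj).trans hG.Z1)
  · by_cases h : c x = 1 <;> simp [idc_sg, h, hs, he, ← hG.diag s]
  · refine le_trans (le_of_eq (congrArg _ (ext_sg fun x v => ?_))) ((norm_idc (c · = 1) _).trans
      hG.off)
    by_cases h : c x = 1 <;> simp [idc_sg, h, hs, hs', he]
  · have : (1 - idc (c · = 1) p) * (∑ s, a s) * (1 - idc (c · = 1) p) =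
        idc (c · = 1) ((1 - p) * (∑ s, (σ (.of s) : H →L[ℂ] H)) * (1 - p)) +
          ∑ s, a s * (1 - idc (c · = 1) 1) := ext_sg fun x v => by
      by_cases h : c x = 1 <;> simp [idc_sg, h, hs, he, hne]
    rw [this]
    have h4 : ‖∑ s, a s * (1 - idc (c · = 1) 1)‖ ≤ 2 * √n := by
      refine hPP.1 (L2 α H →L[ℂ] L2 α H) n _ (fun s => idc (fun x => st (c x) = some (s, true)) 1)
        (fun s => idc (fun x => st (c x) = some (s, false)) 1) (fun s => ?_)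
        (fun _ => idc_proj _ (.one _)) (fun _ => idc_proj _ (.one _)) (fun s s' h => ?_)
        (fun s s' h => ?_) fun s => ?_
      · rw [ha, CStarRing.norm_mem_unitary_mul _ (wp_mem_unitary _ fun _ => (σ _).2)]
        exact (idc_proj _ (.one _)).one_sub.norm_le
      all_goals refine ext_sg fun x v => ?_
      · by_cases h' : st (c x) = some (s', true) <;> simp [idc_sg, h', h.symm]
      · by_cases h' : st (c x) = some (s', false) <;> simp [idc_sg, h', h.symm]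
      · by_cases h' : st (c x) = some (s, false)
        · simp [idc_sg, h']
        · by_cases h : c x = 1
          · simp [idc_sg, (h1 _).2, h]
          · simp [idc_sg, h', h, hs, hc, h3 s _ h h']
    exact ((norm_add_le _ _).trans (add_le_add ((norm_idc _ _).trans hG.rest) h4)).trans_eq
      (by ring)

lemma kd_le {A G : Type} [CStarAlgebra A] [Group G] {σ₁ σ₂ : G →* unitary A} {δ : ℝ}
    (h : KD σ₁ σ₂ δ) (c d : G) : ‖star (σ₂ d : A) * σ₁ c * σ₂ d - σ₁ c‖ ≤ δ := by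
  obtain ⟨ι, B, C, w, h1, h2, h3, h4, h5⟩ := h
  rw [← CStarRing.norm_mem_unitary_mul _ (σ₂ d).2, mul_sub, ← mul_assoc, ← mul_assoc, (σ₂ d).2.2,
    one_mul, norm_sub_rev]
  refine ((h5 c d).norm_le_of_bounded h3.hasSum fun j => (norm_mul_le _ _).trans ?_).trans h4
  exact (mul_le_of_le_one_right (norm_nonneg _) (h2 j c)).trans (h1 j d)

lemma Lt_unitary {G : Type} [Group G] (g : G) : Lt H g ∈ unitary (L2 G H →L[ℂ] L2 G H) :=
  wp_mem_unitary _ fun _ => one_mem _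

lemma Lt_sg {G : Type} [Group G] (g x : G) (v : H) : Lt H g (sg x v) = sg (g * x) v :=
  wp_sg _ (bdd_const 1) x v

lemma bdd_u {d : α → H →L[ℂ] H} (h : ∀ a, d a ∈ unitary (H →L[ℂ] H)) : Bdd d :=
  ⟨‖(1 : H →L[ℂ] H)‖, fun c => by rw [← CStarRing.norm_mul_mem_unitary 1 (h c), one_mul]⟩

set_option maxHeartbeats 2000000 in
lemma close {G : Type} [Group G] (σ₁ σ₂ : G →* unitary (H →L[ℂ] H)) (γ : G × G) (u : H →L[ℂ] H)
    {y : L2 (G × G) H →L[ℂ] L2 (G × G) H}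
    (hy : ‖y - Vt σ₁ σ₂ * Rt H γ * star (Vt σ₁ σ₂)‖ ≤ 2 / 100000)
    (h : ∀ x : G × G, ‖star (σ₂ (x.2 * γ.2⁻¹) : H →L[ℂ] H) * star (σ₁ (x.1 * γ.1⁻¹) : H →L[ℂ] H) *
      ((σ₁ x.1 : H →L[ℂ] H) * (σ₂ x.2 : H →L[ℂ] H)) - u‖ ≤ 1 / 100000) :
    ‖Lt H γ * y - wp (Equiv.mulLeft γ * Equiv.mulRight γ⁻¹) fun _ => u‖ ≤ 1 / 10000 := by
  have hb : Bdd fun γ : G × G => star (σ₂ γ.2 : H →L[ℂ] H) * star (σ₁ γ.1 : H →L[ℂ] H) :=
    bdd_u fun _ => mul_mem (Unitary.star_mem (σ₂ _).2) (Unitary.star_mem (σ₁ _).2)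
  have hb' : Bdd fun x : G × G => star (σ₂ (x.2 * γ.2⁻¹) : H →L[ℂ] H) *
      star (σ₁ (x.1 * γ.1⁻¹) : H →L[ℂ] H) * ((σ₁ x.1 : H →L[ℂ] H) * (σ₂ x.2 : H →L[ℂ] H)) :=
    bdd_u fun _ => mul_mem (mul_mem (Unitary.star_mem (σ₂ _).2) (Unitary.star_mem (σ₁ _).2))
      (mul_mem (σ₁ _).2 (σ₂ _).2)
  have h1 : Vt σ₁ σ₂ * Rt H γ * star (Vt σ₁ σ₂) = wp (Equiv.mulRight γ⁻¹) fun x =>
      star (σ₂ (x.2 * γ.2⁻¹) : H →L[ℂ] H) * star (σ₁ (x.1 * γ.1⁻¹) : H →L[ℂ] H) *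
        ((σ₁ x.1 : H →L[ℂ] H) * (σ₂ x.2 : H →L[ℂ] H)) := by
    rw [Vt, star_wp _ hb, Rt, wp_mul _ _ hb (bdd_const _), wp_mul _ _ (hb.mul (bdd_const _) _)
      (hb.star _)]
    simp
  have h2 : (wp (Equiv.mulLeft γ * Equiv.mulRight γ⁻¹) fun _ => u) =
      Lt H γ * wp (Equiv.mulRight γ⁻¹) fun _ => u := by
    rw [Lt, wp_mul _ _ (bdd_const _) (bdd_const _)]; simp
  rw [h2, ← mul_sub, CStarRing.norm_mem_unitary_mul _ (Lt_unitary γ)]
  refine (norm_sub_le_norm_sub_add_norm_sub _ _ _).trans ((add_le_add hy ?_).trans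
    (show 2 / 100000 + 1 / 100000 ≤ _ by norm_num))
  rw [h1, ← wp_sub _ hb' (bdd_const _)]
  exact norm_wp_le _ (by norm_num) h

end Crest.Agent.KK.Fr

namespace Crest.Agent.KK
open Fr

theorem far : PP → Words → Obs → Pert → Far := by
  intro hPP hW hO hP n hn H K _ _ _ _ _ _ _ σ₁ σ₂ p₁ p₂ Z₁ Z₂ J S₀ T g₁ g₂ hKD hp hJ hJ' hS hS' hT
    hZ y hy hy'
  have hn0 : 0 < n := by omega
  set π : F n × F n → L2 (F n × F n) H →L[ℂ] L2 (F n × F n) H := fun γ => Lt H γ * y γ with hπ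
  have hu : ∀ γ, π γ ∈ unitary _ := fun γ => mul_mem (Lt_unitary γ) (y γ).2
  have hn1 : ∀ γ, ‖π γ‖ ≤ 1 := fun γ => by
    rw [← one_mul (π γ), CStarRing.norm_mul_mem_unitary _ (hu γ)]
    exact ContinuousLinearMap.norm_id_le
  have hm : ∀ γ γ', π γ * π γ' = π (γ * γ') := fun γ γ' => by
    have : Lt H γ * Lt H γ' = Lt H (γ * γ') := ext_sg fun x v => by simp [Lt_sg, mul_assoc]
    simp only [hπ, map_mul, Submonoid.coe_mul]
    rw [mul_assoc, ← mul_assoc _ (Lt H γ'), (hy γ γ').eq, ← this]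
    simp only [mul_assoc]
  have hc : ∀ g h, Commute (π (g, 1)) (π (1, h)) := fun g h => by
    simp [Commute, SemiconjBy, hm]
  obtain ⟨⟨k₁, k₂, k₃⟩, k₄, k₅⟩ := conc hPP hW g₁
    (fun s => Equiv.mulLeft (FreeGroup.of s, 1) * Equiv.mulRight (FreeGroup.of s, (1 : F n))⁻¹)
    Prod.fst (by simp [mul_assoc]) (fun s x hx => by ext <;> simp [hx]) (fun _ => rfl) rfl
  obtain ⟨y₁, E₁, e₁, c₁, a₁, b₁⟩ := side hP hn (u := fun s => π (.of s, 1)) (fun _ => hn1 _)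
    (fun s => close σ₁ σ₂ _ _ (hy' _) fun x => by
      refine le_trans (le_of_eq ?_) (kd_le hKD (.of s) x.2)
      simp [mul_assoc, ← mul_assoc (star (σ₁ x.1 : H →L[ℂ] H)), ← Unitary.star_eq_inv]) (idc_proj _ g₁.proj) k₁ k₂ k₃ k₄ k₅
  obtain ⟨⟨l₁, l₂, l₃⟩, l₄, l₅⟩ := conc hPP hW g₂
    (fun s => Equiv.mulLeft (1, FreeGroup.of s) * Equiv.mulRight ((1 : F n), FreeGroup.of s)⁻¹)
    Prod.snd (by simp [mul_assoc]) (fun s x hx => by ext <;> simp [hx]) (fun _ => rfl) rfl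
  obtain ⟨y₂, E₂, e₂, c₂, a₂, b₂⟩ := side hP hn (u := fun s => π (1, .of s)) (fun _ => hn1 _)
    (fun s => close σ₁ σ₂ _ _ (hy' _) fun x => by
      simp [mul_assoc, ← mul_assoc (star (σ₁ x.1 : H →L[ℂ] H)),
        ← mul_assoc (star (σ₂ x.2 : H →L[ℂ] H)), ← Unitary.star_eq_inv]) (idc_proj _ g₂.proj) l₁ l₂ l₃ l₄ l₅
  have hJJ : ∀ v, J.adjoint (J v) = v := fun v => congrArg (fun S => S v) hJ
  have hpJ : ∀ v, p₁ (p₂ (J v)) = J v := fun v => by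
    simpa [hJJ] using (congrArg (fun S => S (J v)) hJ').symm
  have hp₁ : ∀ v, p₁ (J v) = J v := fun v => by
    conv_lhs => rw [← hpJ, ← mul_apply_eq_comp, g₁.proj.isIdempotentElem.eq, hpJ]
  have hp₂ : ∀ v, p₂ (J v) = J v := fun v => by
    conv_lhs => rw [← hp₁, ← mul_apply_eq_comp, ← hp.eq, mul_apply_eq_comp, hpJ]
  refine fin hO (J := sg 1 ∘L J) (av_sa _) (av_sa _) (norm_av hn0 fun _ => hn1 _)
    (norm_av hn0 fun _ => hn1 _) (av_comm (fun _ _ => hc _ _) fun s t => ?_) (idc_proj _ g₁.proj)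
    (idc_proj _ g₂.proj) (ext_sg fun x v => ?_) y₁ y₂ e₁ e₂ c₁ c₂ a₁ b₁ a₂ b₂ ?_
    (ext_sg fun x v => ?_) hS hS' hT ?_
  · have := hu (1, .of t)
    calc _ = star (π (1, .of t)) * (π (1, .of t) * π (.of s, 1)) * star (π (1, .of t)) := by
          rw [← mul_assoc, this.1, one_mul]
      _ = _ := by rw [← (hc _ _).eq, mul_assoc, mul_assoc, this.2, mul_one]
  · by_cases h₁ : x.1 = 1 <;> by_cases h₂ : x.2 = 1 <;> simp [idc_sg, h₁, h₂]
    rw [← mul_apply_eq_comp p₁, hp.eq, mul_apply_eq_comp]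
  · ext v
    simp [adjoint_sg, hJJ]
  · by_cases h : x = 1
    · simpa [adjoint_sg, h, idc_sg] using congrArg (fun S => (sg 1 (S v) : L2 (F n × F n) H)) hJ'
    · have : ¬ (x.1 = 1 ∧ x.2 = 1) := fun h' => h (Prod.ext h'.1 h'.2)
      by_cases h₁ : x.1 = 1 <;> by_cases h₂ : x.2 = 1 <;>
        simp_all [adjoint_sg, idc_sg, sg_apply_ne (Ne.symm h)]
  · rw [← hZ]
    ext v
    simp [adjoint_sg, idc_sg, hp₁, hp₂, -ev_apply, show ∀ w : H, ev 1 (sg (1 : F n × F n) w) = w from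
      sg_apply_self 1]

end Crest.Agent.KK
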