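import Crest.Agent.KK.Defs

/-! Row 78, job KDJ: factorisation of the commutators. -/

set_option autoImplicit false

namespace Crest.Agent.KK.Kd

variable {A : Type} [CStarAlgebra A]

lemma comm_pow {x y : A} {r e : ℝ} (hr : 0 ≤ r) (hx : ‖x‖ ≤ r) (h : ‖x * y - y * x‖ ≤ e) :
    ∀ k : ℕ, r * ‖x ^ k * y - y * x ^ k‖ ≤ k * r ^ k * e ∧ ‖x ^ (k + 1)‖ ≤ r ^ (k + 1)
  | 0 => by simpa using hx
  | 1 => ⟨by simpa using mul_le_mul_of_nonneg_left h hr,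
      (norm_pow_le' _ two_pos).trans (pow_le_pow_left₀ (norm_nonneg _) hx 2)⟩
  | k + 2 => by
    obtain ⟨h1, -⟩ := comm_pow hr hx h (k + 1)
    obtain ⟨-, h2⟩ := comm_pow hr hx h k
    refine ⟨?_, (norm_pow_le' _ (by omega)).trans (by gcongr)⟩
    have e1 : x ^ (k + 2) * y - y * x ^ (k + 2) =
        x ^ (k + 1) * (x * y - y * x) + (x ^ (k + 1) * y - y * x ^ (k + 1)) * x := by
      rw [pow_succ x (k + 1)]; noncomm_ring
    have a1 : ‖x ^ (k + 1) * (x * y - y * x)‖ ≤ r ^ (k + 1) * e :=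
      (norm_mul_le _ _).trans (by gcongr)
    have a2 : ‖(x ^ (k + 1) * y - y * x ^ (k + 1)) * x‖ ≤ r * ‖x ^ (k + 1) * y - y * x ^ (k + 1)‖ :=
      (norm_mul_le _ _).trans (by rw [mul_comm]; gcongr)
    rw [e1]
    calc _ ≤ r * (r ^ (k + 1) * e + ((k + 1 : ℕ) * r ^ (k + 1) * e)) :=
          mul_le_mul_of_nonneg_left ((norm_add_le _ _).trans (by linarith)) hr
      _ = _ := by push_cast; ring

lemma norm_one_le : ‖(1 : A)‖ ≤ 1 := (IsStarProjection.one A).norm_le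

lemma npow {x : A} {r : ℝ} (_hr : 0 ≤ r) (hx : ‖x‖ ≤ r) : ∀ k : ℕ, ‖x ^ k‖ ≤ r ^ k
  | 0 => by simpa using norm_one_le
  | k + 1 => (norm_pow_le' _ k.succ_pos).trans (by gcongr)

/-- The weights. -/
noncomputable def u (j : ℕ × Fin 3) : ℝ := (j.1 + 2) * (99 / 100) ^ j.1 * 2

lemma u_nonneg (j : ℕ × Fin 3) : 0 ≤ u j := by unfold u; positivity

lemma summable_u : Summable u := by
  have h1 : Summable fun k : ℕ => ((k : ℝ) + 2) * (99 / 100) ^ k := by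
    simp only [add_mul]
    have hr : ‖(99 / 100 : ℝ)‖ < 1 := by norm_num
    exact (by simpa using summable_pow_mul_geometric_of_norm_lt_one 1 hr :
      Summable fun k : ℕ => (k : ℝ) * (99 / 100) ^ k).add
      ((summable_geometric_of_norm_lt_one hr).mul_left 2)
  exact h1.mul_of_nonneg (g := fun _ : Fin 3 => (2 : ℝ)) .of_finite (fun k => by positivity)
    fun _ => zero_le_two

lemma comm_F {Z S y : A} {e : ℝ} (hZ : ‖Z‖ ≤ 99 / 100) (hS : ‖S‖ ≤ 1) (h1 : ‖Z * y - y * Z‖ ≤ e)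
    (h2 : ‖S * y - y * S‖ ≤ e) (j : ℕ × Fin 3) :
    ‖Z ^ j.1 * S ^ (j.2 : ℕ) * y - y * (Z ^ j.1 * S ^ (j.2 : ℕ))‖ ≤ u j * e := by
  have he : 0 ≤ e := (norm_nonneg _).trans h1
  have a := (comm_pow (by norm_num) hZ h1 j.1).1
  have b := (comm_pow zero_le_one hS h2 j.2).1
  have hi : ((j.2 : ℕ) : ℝ) ≤ 2 := by exact_mod_cast Nat.le_of_lt_succ j.2.2
  rw [one_mul, one_pow, mul_one] at b
  have e1 : Z ^ j.1 * S ^ (j.2 : ℕ) * y - y * (Z ^ j.1 * S ^ (j.2 : ℕ)) =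
      Z ^ j.1 * (S ^ (j.2 : ℕ) * y - y * S ^ (j.2 : ℕ)) + (Z ^ j.1 * y - y * Z ^ j.1) * S ^ (j.2 : ℕ) := by
    noncomm_ring
  have a1 : ‖Z ^ j.1 * (S ^ (j.2 : ℕ) * y - y * S ^ (j.2 : ℕ))‖ ≤ (99 / 100) ^ j.1 * (2 * e) :=
    (norm_mul_le _ _).trans (mul_le_mul (npow (by norm_num) hZ _) (b.trans (by gcongr))
      (norm_nonneg _) (by positivity))
  have a2 : ‖(Z ^ j.1 * y - y * Z ^ j.1) * S ^ (j.2 : ℕ)‖ ≤ ‖Z ^ j.1 * y - y * Z ^ j.1‖ :=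
    (norm_mul_le _ _).trans (mul_le_of_le_one_right (norm_nonneg _)
      ((npow zero_le_one hS _).trans_eq (one_pow _)))
  have p1 : 0 ≤ (99 / 100 : ℝ) ^ j.1 * e := by positivity
  have p2 : 0 ≤ (j.1 : ℝ) * (99 / 100 : ℝ) ^ j.1 * e := by positivity
  rw [e1, u]
  refine (norm_add_le _ _).trans ?_
  nlinarith

lemma norm_S {n : ℕ} {l : F n →* unitary A} {p Z S : A} (h : Ang l p Z S) : ‖S‖ ≤ 1 := by
  let _ := CStarAlgebra.spectralOrder A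
  have := CStarAlgebra.spectralOrderedRing A
  have h1 : star S * S ≤ 1 := by
    rw [← sub_nonneg, h.Ssa.star_eq, ← h.sq, add_sub_cancel_right]
    simpa [h.Zsa.star_eq] using star_mul_self_nonneg Z
  have h2 := (CStarAlgebra.norm_le_one_iff_of_nonneg _ (star_mul_self_nonneg S)).2 h1
  rw [CStarRing.norm_star_mul_self] at h2
  nlinarith [norm_nonneg S]

lemma summable_norm {Z S : A} (hZ : ‖Z‖ ≤ 99 / 100) (hS : ‖S‖ ≤ 1) {a : ℕ × Fin 3 → A}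
    (ha : ∀ j, ‖a j‖ ≤ 2) : Summable fun j : ℕ × Fin 3 => ‖Z ^ j.1 * S ^ (j.2 : ℕ) * a j‖ := by
  refine Summable.of_nonneg_of_le (fun _ => norm_nonneg _) (fun j => ?_) summable_u
  have : ‖Z ^ j.1 * S ^ (j.2 : ℕ)‖ ≤ (99 / 100) ^ j.1 := (norm_mul_le _ _).trans
    ((mul_le_of_le_one_right (norm_nonneg _) ((npow zero_le_one hS _).trans_eq (one_pow _))).trans
      (npow (by norm_num) hZ _))
  refine (norm_mul_le _ _).trans ((mul_le_mul this (ha j) (norm_nonneg _) (by positivity)).trans ?_)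
  have p1 : 0 ≤ (99 / 100 : ℝ) ^ j.1 := by positivity
  have p2 : 0 ≤ (j.1 : ℝ) * (99 / 100 : ℝ) ^ j.1 := by positivity
  unfold u; nlinarith

end Kd

open Kd in
theorem kdj : PS → KDJ := by
  intro hPS δ hδ
  have hU : 0 ≤ ∑' j, u j := tsum_nonneg u_nonneg
  set U := ∑' j, u j with hUd
  refine ⟨δ / (4 * U ^ 2 + 1), by positivity, ?_⟩
  intro A _ n l₁ l₂ p₁ p₂ P₁ P₂ Z₁ S₁ Z₂ S₂ T₁ T₂ a11 a21 a12 a22 cll clp cpl cpp z₁ z₂ c1 c2 c3 c4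
  set e := δ / (4 * U ^ 2 + 1) with he
  have he0 : 0 ≤ e := by positivity
  obtain ⟨a₁, n₁, k₁, h₁⟩ := hPS A n l₁ p₁ P₁ T₁
  obtain ⟨a₂, n₂, k₂, h₂⟩ := hPS A n l₂ p₂ P₂ T₂
  obtain ⟨σ₁, i₁, s₁⟩ := h₁ Z₁ S₁ a11
  obtain ⟨σ₂, i₂, s₂⟩ := h₂ Z₂ S₂ a22
  let F₁ : ℕ × Fin 3 → A := fun j => Z₁ ^ j.1 * S₁ ^ (j.2 : ℕ)
  let F₂ : ℕ × Fin 3 → A := fun j => Z₂ ^ j.1 * S₂ ^ (j.2 : ℕ)
  have hF : ∀ j j', ‖F₂ j' * F₁ j - F₁ j * F₂ j'‖ ≤ u j' * (u j * e) := fun j j' =>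
    comm_F z₂ (norm_S a22) (by rw [norm_sub_rev]; exact comm_F z₁ (norm_S a11) c1 c3 j)
      (by rw [norm_sub_rev]; exact comm_F z₁ (norm_S a11) c2 c4 j) j'
  have hs := summable_u.mul_of_nonneg summable_u u_nonneg u_nonneg
  refine ⟨σ₁, σ₂, i₁, i₂, (ℕ × Fin 3) × (ℕ × Fin 3),
    fun q d => (2 : ℂ) • (a₂ q.1 d * (F₂ q.1 * F₁ q.2 - F₁ q.2 * F₂ q.1)),
    fun q c => (1 / 2 : ℂ) • a₁ q.2 c, fun q => 4 * e * (u q.1 * u q.2), fun q d => ?_,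
    fun q c => ?_, hs.mul_left _, ?_, fun c d => ?_⟩
  · rw [norm_smul, Complex.norm_two]
    have := (norm_mul_le _ _).trans (mul_le_mul (n₂ q.1 d) (hF q.2 q.1) (norm_nonneg _) zero_le_two)
    linarith
  · rw [norm_smul]
    have := n₁ q.2 c
    norm_num; linarith
  · rw [tsum_mul_left, ← summable_u.tsum_mul_tsum summable_u hs, ← hUd, he]
    rw [mul_div_assoc', div_mul_eq_mul_div, div_le_iff₀ (by positivity)]
    nlinarith
  · have m₁ := summable_norm z₁ (norm_S a11) fun j => n₁ j c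
    have m₂ := summable_norm z₂ (norm_S a22) fun j => n₂ j d
    have t₁ := HasSum.mul (f := fun j => F₂ j * a₂ j d) (g := fun j => F₁ j * a₁ j c) (s₂ d) (s₁ c)
      (summable_mul_of_summable_norm (f := fun j => F₂ j * a₂ j d) (g := fun j => F₁ j * a₁ j c)
        m₂ m₁)
    have t₂ := (Equiv.prodComm _ _).hasSum_iff.2
      (HasSum.mul (f := fun j => F₁ j * a₁ j c) (g := fun j => F₂ j * a₂ j d) (s₁ c) (s₂ d)
        (summable_mul_of_summable_norm (f := fun j => F₁ j * a₁ j c) (g := fun j => F₂ j * a₂ j d)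
          m₁ m₂))
    refine (t₁.sub t₂).congr_fun fun q => ?_
    have f21 : Commute (F₁ q.2) (a₂ q.1 d) :=
      ((k₂ _ a21.Zl a21.Zp _ _).pow_left _).mul_left ((k₂ _ a21.Sl a21.Sp _ _).pow_left _)
    have f22 : Commute (F₂ q.1) (a₂ q.1 d) :=
      ((k₂ _ a22.Zl a22.Zp _ _).pow_left _).mul_left ((k₂ _ a22.Sl a22.Sp _ _).pow_left _)
    have f12 : Commute (F₂ q.1) (a₁ q.2 c) :=
      ((k₁ _ a12.Zl a12.Zp _ _).pow_left _).mul_left ((k₁ _ a12.Sl a12.Sp _ _).pow_left _)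
    have faa : Commute (a₁ q.2 c) (a₂ q.1 d) :=
      k₂ _ (fun g => (k₁ _ (fun h => (cll h g).symm) (cpl g) _ _).symm)
        (k₁ _ (fun h => (clp h).symm) cpp.symm _ _).symm _ _
    change _ = F₂ q.1 * a₂ q.1 d * (F₁ q.2 * a₁ q.2 c) - F₁ q.2 * a₁ q.2 c * (F₂ q.1 * a₂ q.1 d)
    rw [smul_mul_smul_comm, show (2 : ℂ) * (1 / 2) = 1 by norm_num, one_smul, f22.eq,
      mul_assoc (F₁ q.2), faa.left_comm, f21.left_comm, ← f12.eq]
    noncomm_ring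

end Crest.Agent.KK
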