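import Crest.Agent.KK.Far

/-! Job Mod. -/

set_option autoImplicit false
set_option linter.unusedSectionVars false
open Filter Topology TopologicalSpace
open scoped InnerProductSpace

namespace Crest.Agent.KK.Md
open Fr

section A
variable {A : Type} [CStarAlgebra A] {n : ℕ}

/-- the cosine -/
noncomputable def ss (Z : A) : A := cfc (fun t : ℝ => √(1 - t ^ 2)) Z

lemma norm_f {Z : A} : ‖ss Z‖ ≤ 1 :=
  norm_cfc_le zero_le_one fun t _ => by
    rw [Real.norm_of_nonneg (Real.sqrt_nonneg _)]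
    exact Real.sqrt_le_one.2 (by nlinarith)

lemma ang {l : F n →* unitary A} {p Z : A} (hZ : IsSelfAdjoint Z) (h1 : ‖Z‖ ≤ 1)
    (hl : ∀ g, Commute Z (l g : A)) (hp : Commute Z p) :
    Ang l p Z (ss Z) := by
  unfold ss
  refine ⟨hZ, cfc_predicate _ _, ((Commute.refl Z).cfc_real _).symm, ?_,
    hl, fun g => (hl g).cfc_real _, hp, hp.cfc_real _⟩
  rw [← cfc_mul .., cfc_congr (g := fun t : ℝ => 1 - t ^ 2) fun t ht => Real.mul_self_sqrt ?_,
    cfc_sub .., cfc_const_one .., cfc_pow_id .., sq, add_sub_cancel]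
  rcases subsingleton_or_nontrivial A with h | h
  · simp [spectrum.of_subsingleton] at ht
  · have := (spectrum.norm_le_norm_of_mem ht).trans h1
    rw [Real.norm_eq_abs] at this
    nlinarith [sq_abs t, abs_nonneg t]

/-- shifted real part -/
noncomputable def zz (c : ℂ) (X : A) : A :=
  (98 / 100 : ℂ) • 1 + (1 / 200 : ℂ) • (c • X + star c • star X)

lemma zz_sa (c : ℂ) (X : A) : IsSelfAdjoint (zz c X) := by
  simp [IsSelfAdjoint, zz, add_comm]

lemma zz_comm (c : ℂ) {X t : A} (h : Commute X t) (h' : Commute (star X) t) : Commute (zz c X) t :=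
  ((Commute.one_left _).smul_left _).add_left (((h.smul_left _).add_left (h'.smul_left _)).smul_left _)

lemma zz_le {c : ℂ} (hc : ‖c‖ = 1) {X : A} (h : ‖X‖ ≤ 1) :
    ‖zz c X‖ ≤ 99 / 100 ∧ ‖zz c X - 1‖ ≤ 3 / 100 := by
  have h1 : ‖(1 / 200 : ℂ) • (c • X + star c • star X)‖ ≤ 1 / 100 := by
    have := norm_add_le (c • X) (star c • star X)
    rw [norm_smul, norm_smul, norm_star, norm_star, hc] at this
    rw [norm_smul]
    norm_num
    norm_num at this
    linarith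
  have h2 : ∀ r : ℂ, ‖r • (1 : A)‖ ≤ ‖r‖ := fun r => by
    rw [norm_smul]; exact mul_le_of_le_one_right (norm_nonneg _) (IsStarProjection.one A).norm_le
  constructor
  · refine (norm_add_le _ _).trans ((add_le_add (h2 _) h1).trans ?_)
    norm_num
  · rw [show zz c X - 1 = (-2 / 100 : ℂ) • 1 + (1 / 200 : ℂ) • (c • X + star c • star X) by
      rw [zz]; module]
    refine (norm_add_le _ _).trans ((add_le_add (h2 _) h1).trans ?_)
    norm_num

lemma zz_sum (X : A) : (zz 1 X - (98 / 100 : ℂ) • 1) + Complex.I • (zz (-Complex.I) X -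
    (98 / 100 : ℂ) • 1) = (1 / 100 : ℂ) • X := by
  simp only [zz, add_sub_cancel_left, star_one, star_neg, Complex.star_def, Complex.conj_I, smul_add,
    smul_smul]
  match_scalars
  · linear_combination (-1 / 200) * Complex.I_mul_I
  · linear_combination (1 / 200) * Complex.I_mul_I

lemma zz_cc (X : A) : ‖zz 1 X * zz (-Complex.I) X - zz (-Complex.I) X * zz 1 X‖ ≤
    ‖star X * X - X * star X‖ := by
  have : zz 1 X * zz (-Complex.I) X - zz (-Complex.I) X * zz 1 X =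
      (-Complex.I / 20000) • (star X * X - X * star X) := by
    simp only [zz, star_one, star_neg, Complex.star_def, Complex.conj_I, smul_add, mul_add, add_mul,
      smul_mul_assoc, mul_smul_comm, one_mul, mul_one]
    module
  rw [this, norm_smul]
  exact mul_le_of_le_one_left (norm_nonneg _) (by norm_num)

end A

variable {H : Type} [NormedAddCommGroup H] [InnerProductSpace ℂ H] [CompleteSpace H]
  {Γ : Type} [Group Γ] {n : ℕ}

/-- left translation through a homomorphism -/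
noncomputable def lam (H : Type) [NormedAddCommGroup H] [InnerProductSpace ℂ H] [CompleteSpace H]
    (ι : F n →* Γ) : F n →* unitary (L2 Γ H →L[ℂ] L2 Γ H) where
  toFun g := ⟨Lt H (ι g), Lt_unitary _⟩
  map_one' := Subtype.ext (ext_sg fun x v => by simp [Lt_sg])
  map_mul' g h := Subtype.ext (ext_sg fun x v => by simp [Lt_sg, mul_assoc])

lemma lam_sg (ι : F n →* Γ) (g : F n) (x : Γ) (v : H) :
    (lam H ι g : L2 Γ H →L[ℂ] L2 Γ H) (sg x v) = sg (ι g * x) v := Lt_sg _ x v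

lemma tree (hW : Words) (ι : F n →* Γ) (c : Γ → F n) (hc : ∀ g x, c (ι g * x) = g * c x) :
    ∃ P, Tree (lam H ι) (idc (c · = 1) 1) P := by
  obtain ⟨⟨st, h1, h2, -⟩, -⟩ := hW n
  refine ⟨fun s b => idc (fun x => st (c x) = some (s, b)) 1, idc_proj _ (.one _), fun g hg => ?_,
    fun _ _ => idc_proj _ (.one _), fun s b s' b' h => ?_, fun s b => ?_, fun s => ?_⟩
  all_goals refine ext_sg fun x v => ?_
  all_goals simp only [mul_apply_eq_comp, lam_sg, idc_sg, zero_apply, sub_apply, one_apply_eq_self]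
  · split_ifs with h
    · simp [h, lam_sg, idc_sg, hg, hc]
    · simp
  · split_ifs with h'
    · rw [idc_sg, if_neg (by rw [h']; exact fun e => h (Option.some.inj e).symm)]
    · simp
  · split_ifs with h'
    · rw [idc_sg, if_neg (by rw [← h1, h']; simp)]
    · simp
  · simp only [hc, h2]
    split_ifs with h' <;> simp_all [lam_sg]

end Crest.Agent.KK.Md

namespace Crest.Agent.KK
open Fr Md

set_option maxHeartbeats 2000000 in
theorem jobMod : JobMod := by
  intro hPP hW hSh hK n δ hδ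
  obtain ⟨δ₁, p₁, k₁⟩ := hK δ hδ
  obtain ⟨δ₂, p₂, k₂⟩ := hSh.2 δ₁ p₁
  obtain ⟨δ₃, p₃, k₃⟩ := hSh.2 _ (lt_min p₁ p₂)
  obtain ⟨K, _, _, _, _, S₀, T, s₁, s₂, s₃, s₄, s₅⟩ := hSh.1 _ (lt_min (lt_min p₁ p₂) p₃)
  set X : L2 (F n × F n) K →L[ℂ] L2 (F n × F n) K := dg fun _ => S₀ + T with hX
  have hs : ∀ x v, X (sg x v) = sg x ((S₀ + T) v) := wp_sg _ (bdd_const _)
  have hs' : ∀ x v, star X (sg x v) = sg x (star (S₀ + T) v) := fun x v => by
    rw [hX, star_wp _ (bdd_const _), wp_sg _ (bdd_const _)]; rfl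
  have x₁ : ‖X‖ ≤ 1 := norm_wp_le _ zero_le_one fun _ => s₄
  have x₂ : ‖star X * X - X * star X‖ ≤ min (min δ₁ δ₂) δ₃ := by
    have : star X * X - X * star X =
        dg fun _ => star (S₀ + T) * (S₀ + T) - (S₀ + T) * star (S₀ + T) := ext_sg fun x v => by
      rw [wp_sg _ (bdd_const _)]
      simp only [sub_apply, mul_apply_eq_comp, hs, hs', map_sub, Equiv.Perm.one_apply]
    rw [this]
    exact norm_wp_le _ (lt_min (lt_min p₁ p₂) p₃).le fun _ => s₅
  have c₁ := (zz_cc X).trans x₂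
  have hz : ∀ c : ℂ, ‖c‖ = 1 → ∀ (ι : F n →* F n × F n) (S : F n × F n → Prop),
      Ang (lam K ι) (idc S 1) (zz c X) (ss (zz c X)) :=
    fun c hc ι S => ang (zz_sa c X) ((zz_le hc x₁).1.trans (by norm_num))
      (fun g => zz_comm c (ext_sg fun x v => by simp only [mul_apply_eq_comp, hs, lam_sg])
        (ext_sg fun x v => by simp only [mul_apply_eq_comp, hs', lam_sg]))
      (zz_comm c (ext_sg fun x v => by by_cases h : S x <;> simp [hs, idc_sg, h])
        (ext_sg fun x v => by by_cases h : S x <;> simp [hs', idc_sg, h]))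
  have n₁ : ‖(1 : ℂ)‖ = 1 := norm_one
  have n₂ : ‖-Complex.I‖ = 1 := by simp
  have z₁ : ‖zz 1 X‖ ≤ 1 := (zz_le n₁ x₁).1.trans (by norm_num)
  have z₂ : ‖zz (-Complex.I) X‖ ≤ 1 := (zz_le n₂ x₁).1.trans (by norm_num)
  have c₂ := k₃ _ _ _ (zz_sa _ X) z₂ z₁ ((norm_sub_rev _ _).trans_le (c₁.trans (min_le_right _ _)))
  rw [norm_sub_rev] at c₂
  obtain ⟨P₁, t₁⟩ := tree (H := K) hW (MonoidHom.inl (F n) (F n)) Prod.fst (by simp)
  obtain ⟨P₂, t₂⟩ := tree (H := K) hW (MonoidHom.inr (F n) (F n)) Prod.snd (by simp)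
  have hp : Commute (idc (fun x : F n × F n => x.1 = 1) (1 : K →L[ℂ] K))
      (idc (fun x => x.2 = 1) 1) := ext_sg fun x v => by
    by_cases h₁ : x.1 = 1 <;> by_cases h₂ : x.2 = 1 <;> simp [idc_sg, h₁, h₂]
  obtain ⟨σ₁, σ₂, i₁, i₂, hKD⟩ := k₁ _ n _ _ _ _ P₁ P₂ _ _ _ _ t₁ t₂ (hz _ n₁ _ _) (hz _ n₁ _ _)
    (hz _ n₂ _ _) (hz _ n₂ _ _)
    (fun g h => ext_sg fun x v => by simp [lam_sg, ← mul_assoc])
    (fun g => ext_sg fun x v => by by_cases h : x.2 = 1 <;> simp [lam_sg, idc_sg, h])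
    (fun g => ext_sg fun x v => by by_cases h : x.1 = 1 <;> simp [lam_sg, idc_sg, h]) hp
    (zz_le n₁ x₁).1 (zz_le n₂ x₁).1 (c₁.trans ((min_le_left _ _).trans (min_le_left _ _)))
    (c₂.trans (min_le_left _ _))
    (k₂ _ _ _ (zz_sa _ X) z₁ z₂ (c₁.trans ((min_le_left _ _).trans (min_le_right _ _))))
    (k₂ _ _ _ (zz_sa _ X) z₁ norm_f (c₂.trans (min_le_right _ _)))
  refine ⟨L2 (F n × F n) K, K, _, _, inferInstance, inferInstance, _, _, inferInstance, σ₁, σ₂, _, _,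
    _, _, sg 1, S₀, T, (hPP.2 _ n _ _ P₁ _ _ _ t₁ (hz _ n₁ _ _) i₁).2 (zz_le n₁ x₁).2,
    (hPP.2 _ n _ _ P₂ _ _ _ t₂ (hz _ n₂ _ _) i₂).2 (zz_le n₂ x₁).2, hKD, hp, ?_,
    ext_sg fun x v => ?_, s₁, s₂, s₃, ?_⟩
  · ext v
    simp [adjoint_sg]
  · by_cases h : x = 1
    · simp [adjoint_sg, h, idc_sg]
    · have : ¬ (x.1 = 1 ∧ x.2 = 1) := fun h' => h (Prod.ext h'.1 h'.2)
      by_cases h₂ : x.2 = 1
      · simp [adjoint_sg, idc_sg, sg_apply_ne (Ne.symm h), h₂, show ¬ x.1 = 1 from fun h₁ => this ⟨h₁, h₂⟩]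
      · simp [adjoint_sg, idc_sg, sg_apply_ne (Ne.symm h), h₂]
  · rw [zz_sum]
    ext v
    simp [adjoint_sg, hs, -ev_apply, show ∀ w : K, ev 1 (sg (1 : F n × F n) w) = w from
      sg_apply_self 1]

end Crest.Agent.KK
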