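import Crest.Agent.KK.Defs

/-! Job Near. -/

set_option autoImplicit false
set_option linter.unusedSectionVars false
open Filter Topology TopologicalSpace
open scoped InnerProductSpace

namespace Crest.Agent.KK.Nr

variable {H : Type} [NormedAddCommGroup H] [InnerProductSpace ℂ H] [CompleteSpace H] {α : Type}

lemma ent {y : L2 α H →L[ℂ] L2 α H} (hy : ∀ b : H →L[ℂ] H, Commute y (dg fun _ => b))
    {a b : α → H →L[ℂ] H} (ha : Bdd a) (hb : Bdd b) (x x' : α) (v : H) :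
    (dg a * y * dg b) (sg x' v) x = y (sg x' ((a x * b x') v)) x := by
  have h := congrArg (fun S => S (sg x' (b x' v)) x) (hy (a x)).eq
  simp only [mul_apply_eq_comp, wp_sg _ (bdd_const _), wp_apply _ (bdd_const _)] at h
  rw [mul_apply_eq_comp, mul_apply_eq_comp, wp_sg _ hb, wp_apply _ ha]
  exact h.symm

lemma norm_le {y : L2 α H →L[ℂ] L2 α H} {a b : α → H →L[ℂ] H} {r : ℝ} (hr : 0 ≤ r)
    (ha : ∀ x, ‖a x‖ ≤ r) (hb : ∀ x, ‖b x‖ ≤ 1) : ‖dg a * y * dg b‖ ≤ r * ‖y‖ := by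
  calc _ ≤ r * ‖y‖ * 1 := by
        refine norm_mul₃_le.trans ?_
        gcongr
        exacts [norm_wp_le _ hr ha, norm_wp_le _ zero_le_one hb]
    _ = _ := mul_one _

lemma norm_u {u : H →L[ℂ] H} (h : u ∈ unitary (H →L[ℂ] H)) : ‖u‖ ≤ 1 := by
  rw [← one_mul u, CStarRing.norm_mul_mem_unitary _ h]
  exact ContinuousLinearMap.norm_id_le

end Crest.Agent.KK.Nr

namespace Crest.Agent.KK
open Nr

theorem near : Near := by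
  intro G _ H _ _ _ σ₁ σ₂ δ ⟨ι, B, C, w, h1, h2, h3, h4, h5⟩ y hL hy
  have hw : ∀ j, 0 ≤ w j := fun j => (norm_nonneg _).trans (h1 j 1)
  have hδ : 0 ≤ δ := (tsum_nonneg hw).trans h4
  have hc : ∀ x : G × G, ‖(σ₂ x.2⁻¹ : H →L[ℂ] H) * σ₁ x.1⁻¹ - (σ₁ x.1⁻¹ : H →L[ℂ] H) * σ₂ x.2⁻¹‖ ≤ δ :=
    fun x => ((h5 _ _).norm_le_of_bounded h3.hasSum fun j => (norm_mul_le _ _).trans
      ((mul_le_of_le_one_right (norm_nonneg _) (h2 j _)).trans (h1 j _))).trans h4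
  have hu : ∀ x : G × G, ‖(σ₁ x.1 : H →L[ℂ] H) * σ₂ x.2‖ ≤ 1 := fun x =>
    norm_u (mul_mem (σ₁ _).2 (σ₂ _).2)
  have hB : ∀ j (x : G × G), ‖(σ₁ x.1⁻¹ : H →L[ℂ] H) * B j x.2⁻¹‖ ≤ w j := fun j x => by
    rw [CStarRing.norm_mem_unitary_mul _ (σ₁ _).2]; exact h1 _ _
  have hC : ∀ j (x : G × G), ‖C j x.1 * (σ₂ x.2 : H →L[ℂ] H)‖ ≤ 1 := fun j x => by
    rw [CStarRing.norm_mul_mem_unitary _ (σ₂ _).2]; exact h2 _ _
  have hT := fun j => norm_le (y := y) (hw j) (hB j) (hC j)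
  obtain ⟨S, hS⟩ := Summable.of_norm_bounded (h3.mul_right ‖y‖) hT
  have hD := norm_le (y := y) hδ hc hu
  have hS' := hS.norm_le_of_bounded (h3.hasSum.mul_right ‖y‖) hT
  have hb : Bdd fun γ : G × G => star (σ₂ γ.2 : H →L[ℂ] H) * star (σ₁ γ.1 : H →L[ℂ] H) :=
    ⟨1, fun _ => norm_u (mul_mem (Unitary.star_mem (σ₂ _).2) (Unitary.star_mem (σ₁ _).2))⟩
  refine ⟨Vt σ₁ σ₂ * y * star (Vt σ₁ σ₂) - ((dg fun x : G × G => (σ₂ x.2⁻¹ : H →L[ℂ] H) *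
      (σ₁ x.1⁻¹ : H →L[ℂ] H) - (σ₁ x.1⁻¹ : H →L[ℂ] H) * (σ₂ x.2⁻¹ : H →L[ℂ] H)) * y *
      (dg fun x : G × G => (σ₁ x.1 : H →L[ℂ] H) * (σ₂ x.2 : H →L[ℂ] H)) + S), fun γ => ?_, by
    rw [sub_sub_cancel]
    exact (norm_add_le _ _).trans ((add_le_add hD hS').trans (by nlinarith [norm_nonneg y]))⟩
  have key : ∀ (x x' : G × G) (v : H), (Vt σ₁ σ₂ * y * star (Vt σ₁ σ₂) - ((dg fun x : G × G => (σ₂ x.2⁻¹ : H →L[ℂ] H) *
      (σ₁ x.1⁻¹ : H →L[ℂ] H) - (σ₁ x.1⁻¹ : H →L[ℂ] H) * (σ₂ x.2⁻¹ : H →L[ℂ] H)) * y *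
      (dg fun x : G × G => (σ₁ x.1 : H →L[ℂ] H) * (σ₂ x.2 : H →L[ℂ] H)) + S)) (sg x' v) x =
      y (sg x' (((σ₁ (x.1⁻¹ * x'.1) : H →L[ℂ] H) * σ₂ (x.2⁻¹ * x'.2)) v)) x := fun x x' v => by
    set φ : (H →L[ℂ] H) →L[ℂ] H := ev x ∘L y ∘L sg x' ∘L ContinuousLinearMap.apply ℂ H v with hφ
    have hφ' : ∀ b : H →L[ℂ] H, y (sg x' (b v)) x = φ b := fun _ => rfl
    have e1 := hS.mapL (ev x ∘L ContinuousLinearMap.apply ℂ _ (sg x' v))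
    have e2 := (((h5 x'.1 x.2⁻¹).mul_left (σ₁ x.1⁻¹ : H →L[ℂ] H)).mul_right
      (σ₂ x'.2 : H →L[ℂ] H)).mapL φ
    simp only [ContinuousLinearMap.comp_apply, ContinuousLinearMap.apply_apply, ev_apply,
      ent hy ⟨_, hB _⟩ ⟨_, hC _⟩, hφ'] at e1
    simp only [mul_assoc] at e1 e2
    rw [Vt, star_wp _ hb, inv_one, sub_apply, add_apply, lp.coeFn_sub, lp.coeFn_add, Pi.sub_apply,
      Pi.add_apply, ent hy hb (hb.star _), ent hy ⟨_, hc⟩ ⟨_, hu⟩, e1.unique e2, hφ', hφ', hφ',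
      ← map_add, ← map_sub]
    congr 1
    simp [← Unitary.star_eq_inv, mul_sub, sub_mul, mul_assoc]
  refine ext_ent fun x x' v => ?_
  have h := congrArg (fun S => S (sg x' (((σ₁ (x.1⁻¹ * (γ * x').1) : H →L[ℂ] H) *
    σ₂ (x.2⁻¹ * (γ * x').2)) v)) x) (hL γ).eq
  simp only [mul_apply_eq_comp _ (Lt H γ), mul_apply_eq_comp (Lt H γ)] at h ⊢
  rw [Lt, wp_sg _ (bdd_const _), wp_apply _ (bdd_const _)] at h ⊢
  simp only [one_apply_eq_self] at h ⊢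
  rw [key, key]
  simpa [mul_assoc] using h

end Crest.Agent.KK
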