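import Crest.Agent.KK.Defs

/-! Row 78, job Obs: the index obstruction. -/

set_option autoImplicit false
open ContinuousLinearMap TopologicalSpace Metric
open scoped InnerProductSpace

namespace Crest.Agent.KK.Ob

variable {K : Type} [NormedAddCommGroup K] [InnerProductSpace ℂ K] [CompleteSpace K]

lemma compact_star {T : K →L[ℂ] K} (hT : IsCompactOperator T) :
    IsCompactOperator (star T : K →L[ℂ] K) := by
  have h1 := ((hT.comp_clm (star T)).isCompact_closure_image_closedBall
    (f := (T ∘L star T : K →L[ℂ] K).toLinearMap) 1).totallyBounded.subset subset_closure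
  refine (isCompactOperator_iff_isCompact_closure_image_closedBall (star T : K →L[ℂ] K).toLinearMap
    one_pos).2 (TotallyBounded.isCompact_of_isClosed (TotallyBounded.closure ?_) isClosed_closure)
  refine Metric.totallyBounded_iff.2 fun ε hε => ?_
  obtain ⟨t, ht, hf, hc⟩ := Metric.finite_approx_of_totallyBounded h1 (ε ^ 2 / 2) (by positivity)
  choose! g hg hg' using fun y (hy : y ∈ t) => ht hy
  refine ⟨(fun y => star T (g y)) '' t, hf.image _, ?_⟩
  rintro _ ⟨x, hx, rfl⟩
  obtain ⟨y, hy, hxy⟩ := Set.mem_iUnion₂.1 (hc ⟨x, hx, rfl⟩)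
  refine Set.mem_iUnion₂.2 ⟨_, ⟨y, hy, rfl⟩, ?_⟩
  rw [← hg' y hy, mem_ball, dist_eq_norm, ← map_sub] at hxy
  rw [mem_ball, dist_eq_norm]
  change ‖star T x - star T (g y)‖ < ε
  rw [← map_sub]
  have h2 : ‖x - g y‖ ≤ 2 := (norm_sub_le _ _).trans (by
    linarith [mem_closedBall_zero_iff.1 hx, mem_closedBall_zero_iff.1 (hg y hy)])
  have h3 : ‖star T (x - g y)‖ ^ 2 ≤ ‖x - g y‖ * ‖T (star T (x - g y))‖ := by
    rw [← inner_self_eq_norm_sq (𝕜 := ℂ), star_eq_adjoint, adjoint_inner_left]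
    exact re_inner_le_norm _ _
  have h4 : ‖T (star T (x - g y))‖ < ε ^ 2 / 2 := hxy
  refine lt_of_pow_lt_pow_left₀ 2 hε.le (h3.trans_lt ?_)
  nlinarith [norm_nonneg (x - g y), norm_nonneg (T (star T (x - g y)))]

lemma surj {S₀ T B : K →L[ℂ] K} {κ : ℝ} (hκ : 0 < κ) (hS : star S₀ * S₀ = 1)
    (hT : IsCompactOperator T) (hB : ‖B - (κ : ℂ) • (S₀ + T)‖ < κ)
    (hi : ∀ v, star B v = 0 → v = 0) : Function.Surjective S₀ := by
  set D := B - (κ : ℂ) • (S₀ + T) with hD
  have hκ' : (κ : ℂ) ≠ 0 := by exact_mod_cast hκ.ne'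
  have hS1 : ‖S₀‖ ≤ 1 := by
    have := CStarRing.norm_star_mul_self (x := S₀)
    rw [hS] at this
    have h1 : ‖(1 : K →L[ℂ] K)‖ ≤ 1 := norm_id_le
    nlinarith [norm_nonneg S₀]
  have hn : ‖-((κ : ℂ)⁻¹ • (star D * S₀))‖ < 1 := by
    rw [norm_neg, norm_smul, norm_inv, Complex.norm_real, Real.norm_of_nonneg hκ.le,
      inv_mul_lt_iff₀ hκ, mul_one]
    exact ((norm_mul_le _ _).trans (mul_le_of_le_one_right (norm_nonneg _) hS1)).trans_lt
      ((norm_star _).trans_lt hB)
  let U := Units.oneSub _ hn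
  let C : K →L[ℂ] K := (U⁻¹ : (K →L[ℂ] K)ˣ) * (star T * S₀)
  have hC : IsCompactOperator C := ((compact_star hT).comp_clm S₀).clm_comp _
  have e : star B * S₀ = (κ : ℂ) • ((U : K →L[ℂ] K) * (1 + C)) := by
    have : B = D + (κ : ℂ) • (S₀ + T) := by rw [hD, sub_add_cancel]
    rw [mul_add, mul_one, Units.mul_inv_cancel_left, this]
    simp only [U, Units.val_oneSub, star_add, star_smul, add_mul, smul_mul_assoc, hS, smul_add,
      sub_neg_eq_add, smul_smul, mul_inv_cancel₀ hκ', one_smul, Complex.star_def,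
      Complex.conj_ofReal]
    abel
  have hu : IsUnit (1 + C) := by
    rcases hC.hasEigenvalue_or_mem_resolventSet (μ := -1) (by norm_num) with h | h
    · obtain ⟨v, hv⟩ := h.exists_hasEigenvector
      have h1 : C v = -v := by simpa using hv.apply_eq_smul
      have h2 : star B (S₀ v) = 0 := by
        rw [← mul_apply_eq_comp, e]; simp [h1]
      have h3 : v = star S₀ (S₀ v) := by rw [← mul_apply_eq_comp, hS]; rfl
      exact absurd (by rw [h3, hi _ h2, map_zero]) hv.2
    · have := (spectrum.mem_resolventSet_iff.1 h).neg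
      simpa [add_comm] using this
  intro w
  obtain ⟨v, hv⟩ := ((isUnit_iff_bijective.1 (U.isUnit.mul hu)).2 ((κ : ℂ)⁻¹ • star B w))
  refine ⟨v, sub_eq_zero.1 (hi _ ?_)⟩
  rw [map_sub, ← mul_apply_eq_comp, e, smul_apply, hv, smul_smul, mul_inv_cancel₀ hκ', one_smul,
    sub_self]

end Ob

open Ob in
theorem obs : Obs := by
  intro H K _ _ _ _ _ _ _ J E X S₀ T κ hκ hJ hE hEX hX h1 h2 hS hns hT hB
  have hJn : ∀ v, ‖J v‖ = ‖v‖ := fun v => by
    have : ⟪J v, J v⟫_ℂ = ⟪v, v⟫_ℂ := by
      rw [← adjoint_inner_right, ← comp_apply, hJ]; rfl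
    rw [inner_self_eq_norm_sq_to_K, inner_self_eq_norm_sq_to_K] at this
    exact (sq_eq_sq₀ (norm_nonneg _) (norm_nonneg _)).1 (by exact_mod_cast this)
  have hJ1 : ‖J‖ ≤ 1 := opNorm_le_bound _ zero_le_one fun v => by rw [hJn, one_mul]
  have hEE : ∀ w, E (E w) = E w := fun w => by rw [← mul_apply_eq_comp, hE.isIdempotentElem.eq]
  have hN : ∀ l : ℂ, IsStarNormal (X - l • 1) := fun l => ⟨by
    have := hX.star_comm_self
    simp only [star_sub, star_smul, star_one]
    exact (this.sub_left ((Commute.one_left X).smul_left _)).sub_right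
      ((Commute.one_right _).smul_right _)⟩
  have eig : ∀ l : ℂ, ‖l‖ < κ / 2 → ∃ v : H, ‖v‖ = 1 ∧ (X - l • 1) v = 0 := fun l hl => by
    by_contra hc
    push Not at hc
    have hc' : ∀ v, (X - l • 1) v = 0 → v = 0 := fun v hv => by_contra fun h0 =>
      hc ((‖v‖⁻¹ : ℂ) • v) (by simp [norm_smul, h0]) (by rw [map_smul, hv, smul_zero])
    refine hns (surj (B := J.adjoint ∘L (E * (X - l • 1) * E) ∘L J) hκ hS hT ?_ fun v hv => ?_)
    · have e : J.adjoint ∘L (E * (X - l • 1) * E) ∘L J - (κ : ℂ) • (S₀ + T) =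
          (J.adjoint ∘L (E * X * E) ∘L J - (κ : ℂ) • (S₀ + T)) - l • (J.adjoint ∘L E ∘L J) := by
        ext v; simp [hEE]; abel
      have n : ‖J.adjoint ∘L E ∘L J‖ ≤ 1 :=
        (opNorm_comp_le _ _).trans (mul_le_one₀ (by rwa [LinearIsometryEquiv.norm_map])
          (norm_nonneg _) ((opNorm_comp_le _ _).trans (mul_le_one₀ hE.norm_le (norm_nonneg _) hJ1)))
      rw [e]
      refine (norm_sub_le _ _).trans_lt ?_
      rw [norm_smul]
      nlinarith [norm_nonneg l]
    · have hc : Commute E (star (X - l • 1)) := by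
        have := (hEX.sub_right ((Commute.one_right E).smul_right l)).star_star
        rwa [hE.isSelfAdjoint.star_eq] at this
      set w := star (X - l • 1) (E (J v)) with hw
      have hEw : E w = w := by rw [hw, ← mul_apply_eq_comp, hc.eq, mul_apply_eq_comp, hEE]
      have hJw : J.adjoint w = 0 := by
        rw [star_eq_adjoint, adjoint_comp, adjoint_comp, adjoint_adjoint, ← star_eq_adjoint,
          star_mul, star_mul, hE.isSelfAdjoint.star_eq] at hv
        rw [← hEw]; exact hv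
      have hw0 : w = 0 := by
        have e : ((1 - J ∘L J.adjoint) * E) w = w := by simp [hEw, hJw]
        have := ((1 - J ∘L J.adjoint) * E).le_opNorm w
        rw [e] at this
        exact norm_eq_zero.1 (by nlinarith [norm_nonneg w])
      have hE0 : E (J v) = 0 := hc' _ (((hN l).adjoint_apply_eq_zero_iff _).1 hw0)
      have e : ((1 - E) ∘L J) v = J v := by simp [hE0]
      have := ((1 - E) ∘L J).le_opNorm v
      rw [e, hJn] at this
      exact norm_eq_zero.1 (by nlinarith [norm_nonneg v])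
  choose! v hv1 hv2 using eig
  have orth : ∀ l l' : ℂ, ‖l‖ < κ / 2 → ‖l'‖ < κ / 2 → l ≠ l' → ⟪v l, v l'⟫_ℂ = 0 := by
    intro l l' hl hl' hne
    have a := ((hN l).adjoint_apply_eq_zero_iff _).2 (hv2 l hl)
    have b : (X - l • 1) (v l') = (l' - l) • v l' := by
      have := hv2 l' hl'
      simp only [sub_apply, smul_apply, sub_eq_zero] at this
      simp [this, sub_smul]
    have := adjoint_inner_left (X - l • 1) (v l') (v l)
    rw [a, b, inner_zero_left, inner_smul_right] at this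
    exact (mul_eq_zero.1 this.symm).resolve_left (sub_ne_zero.2 hne.symm)
  have hc : (Set.Ioo (0 : ℝ) (κ / 2)).Countable := by
    have hn : ∀ t ∈ Set.Ioo (0 : ℝ) (κ / 2), ‖(t : ℂ)‖ < κ / 2 := fun t ht => by
      rw [Complex.norm_real, Real.norm_of_nonneg ht.1.le]; exact ht.2
    refine Set.PairwiseDisjoint.countable_of_isOpen (s := fun t : ℝ => ball (v t) (1 / 2))
      (fun t ht t' ht' hne => ball_disjoint_ball ?_) (fun _ _ => isOpen_ball)
      fun _ _ => nonempty_ball.2 (by norm_num)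
    have := norm_sub_sq (𝕜 := ℂ) (v t) (v t')
    rw [orth _ _ (hn t ht) (hn t' ht') (by exact_mod_cast hne), hv1 _ (hn t ht),
      hv1 _ (hn t' ht')] at this
    rw [dist_eq_norm]
    simp only [map_zero] at this
    nlinarith [norm_nonneg (v t - v t')]
  have := hc.le_aleph0
  rw [Cardinal.mk_Ioo_real (by positivity)] at this
  exact Cardinal.aleph0_lt_continuum.not_ge this

end Crest.Agent.KK
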