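import Crest.Agent.KK.PS

/-! Row 78, job PP: ping-pong estimates. -/

set_option autoImplicit false
set_option linter.unusedSectionVars false
open Finset

namespace Crest.Agent.KK.PPx
open PSx

variable {A : Type} [CStarAlgebra A]

lemma norm_orth {ι : Type} [Fintype ι] (P c : ι → A) (hP : ∀ s, IsStarProjection (P s))
    (ho : ∀ s s', s ≠ s' → P s * P s' = 0) (hc : ∀ s, ‖c s‖ ≤ 1) :
    ‖∑ s, P s * c s‖ ≤ √(Fintype.card ι) := by
  classical
  have e : star (∑ s, P s * c s) * ∑ s, P s * c s = ∑ s, star (c s) * (P s * c s) := by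
    rw [star_sum, sum_mul]
    refine sum_congr rfl fun s _ => ?_
    rw [mul_sum, sum_eq_single s, star_mul, (hP s).isSelfAdjoint.star_eq, mul_assoc,
      ← mul_assoc (P s), (hP s).isIdempotentElem.eq]
    · intro s' _ h
      rw [star_mul, (hP s).isSelfAdjoint.star_eq, mul_assoc, ← mul_assoc (P s), ho _ _ h.symm,
        zero_mul, mul_zero]
    · exact fun h => absurd (mem_univ s) h
  refine Real.le_sqrt_of_sq_le ?_
  rw [sq, ← CStarRing.norm_star_mul_self, e]
  refine (norm_sum_le _ _).trans ((sum_le_sum (g := fun _ => (1 : ℝ)) fun s _ => ?_).trans (by simp))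
  refine (norm_mul_le _ _).trans (mul_le_one₀ ((norm_star _).trans_le (hc s)) (norm_nonneg _) ?_)
  exact (norm_mul_le _ _).trans (mul_le_one₀ (hP s).norm_le (norm_nonneg _) (hc s))

lemma pingpong (n : ℕ) (a P Q : Fin n → A) (ha : ∀ s, ‖a s‖ ≤ 1) (hP : ∀ s, IsStarProjection (P s))
    (hQ : ∀ s, IsStarProjection (Q s)) (oP : ∀ s s', s ≠ s' → P s * P s' = 0)
    (oQ : ∀ s s', s ≠ s' → Q s * Q s' = 0) (h : ∀ s, a s * (1 - Q s) = P s * a s * (1 - Q s)) :
    ‖∑ s, a s‖ ≤ 2 * √n := by
  have e : ∑ s, a s = ∑ s, P s * (a s * (1 - Q s)) + star (∑ s, Q s * star (a s)) := by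
    rw [star_sum, ← sum_add_distrib]
    refine sum_congr rfl fun s _ => ?_
    rw [← mul_assoc, ← h, star_mul, star_star, (hQ s).isSelfAdjoint.star_eq]
    noncomm_ring
  have h1 := norm_orth P (fun s => a s * (1 - Q s)) hP oP fun s =>
    (norm_mul_le _ _).trans (mul_le_one₀ (ha s) (norm_nonneg _) (hQ s).one_sub.norm_le)
  have h2 := norm_orth Q (fun s => star (a s)) hQ oQ fun s => (norm_star _).trans_le (ha s)
  rw [Fintype.card_fin] at h1 h2
  rw [e]
  exact (norm_add_le _ _).trans (by rw [norm_star]; linarith)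

variable {n : ℕ} {l : F n →* unitary A} {p : A} {P : Fin n → Bool → A} {Z S : A}
  {σ : F n →* unitary A}

lemma mu_one (x : F n) : mu l p x 1 = l x * p := by simp [mu]

lemma sig_p (hT : Tree l p P) (hσ : IsPS l p Z S σ) (s : Fin n) :
    (σ (.of s) : A) * p = Z * p + S * (l (.of s) * p) := by
  rw [hσ s, mul_assoc, ← mu_one, rot_mu hT.proj hT.orth (FreeGroup.of_ne_one s).symm, mu_one]
  simp

lemma star_sig_p (hT : Tree l p P) (h : Ang l p Z S) (hσ : IsPS l p Z S σ) (s : Fin n) :
    star (σ (.of s) : A) * p = Z * p + S * (l (.of s)⁻¹ * p) := by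
  have := rot_mu (Z := Z) (S := S) hT.proj hT.orth
    (x := 1) (y := (.of s)⁻¹) (inv_ne_one.2 (FreeGroup.of_ne_one s)).symm 1
  rw [hσ s, star_mul, star_rot hT.proj h, star_l, l_rot h, inv_mul_cancel, mul_one, mul_assoc,
    ← mu_one, this, mu_one]
  simp

lemma lp_true (hT : Tree l p P) (s : Fin n) :
    (l (.of s) : A) * p = P s true * (l (.of s) * p) := by
  have : P s false * p = 0 := by
    have := congrArg star (hT.pP s false)
    rwa [star_mul, hT.proj.isSelfAdjoint.star_eq, (hT.Pproj _ _).isSelfAdjoint.star_eq,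
      star_zero] at this
  rw [← mul_assoc, ← hT.pong, mul_assoc, sub_mul, this, sub_zero, one_mul]

lemma lp_false (hT : Tree l p P) (s : Fin n) :
    (l (.of s)⁻¹ : A) * p = P s false * (l (.of s)⁻¹ * p) := by
  have h0 : P s true * p = 0 := by
    have := congrArg star (hT.pP s true)
    rwa [star_mul, hT.proj.isSelfAdjoint.star_eq, (hT.Pproj _ _).isSelfAdjoint.star_eq,
      star_zero] at this
  have := congrArg star (hT.pong s)
  rw [star_mul, star_mul, (hT.Pproj _ _).isSelfAdjoint.star_eq,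
    (hT.Pproj _ _).one_sub.isSelfAdjoint.star_eq, star_l] at this
  have h1 : (1 - P s false) * ((l (.of s)⁻¹ : A) * p) = 0 := by
    rw [← mul_assoc, this, mul_assoc, h0, mul_zero]
  rwa [sub_mul, one_mul, sub_eq_zero] at h1

lemma diag (hT : Tree l p P) (h : Ang l p Z S) (hσ : IsPS l p Z S σ) (s : Fin n) :
    p * (σ (.of s) : A) * p = Z * p := by
  rw [mul_assoc, sig_p hT hσ, mul_add, h.Zp.symm.left_comm, hT.proj.isIdempotentElem.eq,
    h.Sp.symm.left_comm, ← mul_assoc p, hT.orth _ (FreeGroup.of_ne_one s), mul_zero, add_zero]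

lemma norm_u (u : unitary A) : ‖(u : A)‖ ≤ 1 := by
  rcases subsingleton_or_nontrivial A with h' | h'
  · rw [Subsingleton.elim (u : A) 0, norm_zero]; exact zero_le_one
  · exact (CStarRing.norm_coe_unitary u).le

lemma good (hT : Tree l p P) (h : Ang l p Z S) (hσ : IsPS l p Z S σ) (hZ : ‖Z - 1‖ ≤ 3 / 100) :
    Good σ p Z := by
  have hq := hT.proj.one_sub
  have hqp : (1 - p) * p = 0 := by rw [sub_mul, one_mul, hT.proj.isIdempotentElem.eq, sub_self]
  have cZ : Commute (1 - p) Z := ((Commute.one_right Z).sub_right h.Zp).symm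
  have cS : Commute (1 - p) S := ((Commute.one_right S).sub_right h.Sp).symm
  refine ⟨hT.proj, h.Zsa, h.Zp, hZ, diag hT h hσ, ?_, ?_⟩
  · have hS : ‖S‖ ^ 2 ≤ 1 / 16 := by
      have e : star S * S = -((Z - 1) * (Z - 1)) - 2 • (Z - 1) := by
        rw [h.Ssa.star_eq, eq_sub_of_add_eq' h.sq]; noncomm_ring
      rw [sq, ← CStarRing.norm_star_mul_self, e]
      have := norm_mul_le (Z - 1) (Z - 1)
      have h2 : ‖2 • (Z - 1)‖ ≤ 2 * ‖Z - 1‖ := by simpa using norm_nsmul_le (a := Z - 1) (n := 2)
      refine (norm_sub_le _ _).trans ?_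
      rw [norm_neg]
      nlinarith [norm_nonneg (Z - 1)]
    let c : Fin n × Bool → A := fun a => (if a.2 then l (.of a.1) else l (.of a.1)⁻¹ : unitary A) * p
    have e : (1 - p) * (∑ s, ((σ (.of s) : A) + star (σ (.of s) : A))) * p =
        (1 - p) * (S * ∑ a : Fin n × Bool, P a.1 a.2 * c a) := by
      rw [mul_assoc, sum_mul, Fintype.sum_prod_type, mul_sum, mul_sum, mul_sum]
      refine sum_congr rfl fun s _ => ?_
      simp only [Fintype.sum_bool, c, if_true, Bool.false_eq_true, if_false]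
      rw [← lp_true hT, ← lp_false hT, add_mul, sig_p hT hσ, star_sig_p hT h hσ]
      simp only [mul_add, cZ.left_comm, hqp, mul_zero, zero_add]
    have h1 := norm_orth (fun a : Fin n × Bool => P a.1 a.2) c (fun a => hT.Pproj _ _)
      (fun a a' ha => hT.Porth _ _ _ _ ha) fun a =>
        (norm_mul_le _ _).trans (mul_le_one₀ (norm_u _) (norm_nonneg _) hT.proj.norm_le)
    rw [Fintype.card_prod, Fintype.card_fin, Fintype.card_bool, Nat.cast_mul,
      Real.sqrt_mul (Nat.cast_nonneg n)] at h1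
    have h2 : √((2 : ℕ) : ℝ) ≤ 2 := Real.sqrt_le_iff.2 (by norm_num)
    have h3 : ‖S‖ ≤ 1 / 4 := by nlinarith [norm_nonneg S]
    rw [e]
    refine (norm_mul_le _ _).trans ((mul_le_of_le_one_left (norm_nonneg _) hq.norm_le).trans ?_)
    calc _ ≤ ‖S‖ * _ := norm_mul_le _ _
      _ ≤ 1 / 4 * (√n * 2) := by gcongr; exact h1.trans (by gcongr)
      _ = _ := by ring
  · rw [mul_sum, sum_mul]
    refine pingpong n _ (fun s => P s true) (fun s => P s false) (fun s => ?_)
      (fun s => hT.Pproj _ _) (fun s => hT.Pproj _ _)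
      (fun s s' hs => hT.Porth _ _ _ _ (by simpa using hs))
      (fun s s' hs => hT.Porth _ _ _ _ (by simpa using hs)) fun s => ?_
    · exact (norm_mul_le _ _).trans (mul_le_one₀ ((norm_mul_le _ _).trans
        (mul_le_one₀ hq.norm_le (norm_nonneg _) (norm_u _))) (norm_nonneg _) hq.norm_le)
    · have hPp : ∀ b, P s b * p = 0 := fun b => by
        have := congrArg star (hT.pP s b)
        rwa [star_mul, hT.proj.isSelfAdjoint.star_eq, (hT.Pproj _ _).isSelfAdjoint.star_eq,
          star_zero] at this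
      have cP : ∀ b, Commute (1 - p) (P s b) := fun b =>
        (Commute.one_left _).sub_left ((hT.pP s b).trans (hPp b).symm)
      have cQ : Commute (1 - p) (1 - P s false) := (Commute.one_right _).sub_right (cP _)
      -- the rotation acts trivially after compression
      have k2 : ∀ x, mu l p x (.of s) * (l (.of s) * (1 - p)) = 0 := fun x => by
        simp only [mu, mul_assoc]
        rw [← mul_assoc (star _), (l _).2.1, one_mul, mul_sub, mul_one, hT.proj.isIdempotentElem.eq,
          sub_self, mul_zero]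
      have k3 : ∀ x, mu l p x 1 * (l (.of s) * ((1 - p) * (1 - P s false))) = 0 := fun x => by
        rw [cQ.eq, ← mul_assoc (l _ : A), hT.pong, mu_one]
        simp only [mul_assoc]
        rw [← mul_assoc p, hT.pP, zero_mul, mul_zero]
      have e : (1 - p) * (σ (.of s) : A) * (1 - p) * (1 - P s false) =
          (1 - p) * (l (.of s) * ((1 - p) * (1 - P s false))) := by
        have k2' : ∀ x, mu l p x (.of s) * (l (.of s) * ((1 - p) * (1 - P s false))) = 0 :=
          fun x => by rw [← mul_assoc (l _ : A), ← mul_assoc, k2, zero_mul]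
        rw [hσ s, mul_assoc, mul_assoc, mul_assoc]
        congr 1
        simp only [rot, add_mul, one_mul, mul_assoc, sub_mul (mu l p 1 (.of s)), k2', k3, add_zero,
          mul_zero, sub_zero]
      have e' : (l (.of s) : A) * ((1 - p) * (1 - P s false)) = P s true * (l (.of s) * (1 - p)) := by
        rw [cQ.eq, ← mul_assoc, hT.pong, mul_assoc]
      rw [mul_assoc (P s true), e, e', (cP true).left_comm, ← mul_assoc (P s true) (P s true),
        (hT.Pproj _ _).isIdempotentElem.eq]

end PPx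

theorem pp : PP := ⟨fun _ _ => PPx.pingpong, fun _ _ _ _ _ _ _ _ _ hT h hσ =>
  ⟨PPx.diag hT h hσ, PPx.good hT h hσ⟩⟩

end Crest.Agent.KK
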