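import Crest.Agent.KK.Defs

/-! Row 78, job PS: the Pytlik–Szwarc representations as power series in the angle. -/

set_option autoImplicit false
set_option linter.unusedSectionVars false
open Filter Topology TopologicalSpace Finset

namespace Crest.Agent.KK.PSx

variable {A : Type} [CStarAlgebra A] {n : ℕ} {l : F n →* unitary A} {p : A}

lemma star_l (l : F n →* unitary A) (g : F n) : star (l g : A) = l g⁻¹ := by
  rw [map_inv]; rfl

lemma l_mul (l : F n →* unitary A) (g h : F n) : (l g : A) * l h = l (g * h) := by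
  rw [map_mul]; rfl

lemma star_mu (hp : IsStarProjection p) (x y : F n) : star (mu l p x y) = mu l p y x := by
  simp only [mu, star_mul, star_star, hp.isSelfAdjoint.star_eq, mul_assoc]

lemma mu_mul (hp : IsStarProjection p) (x y w : F n) : mu l p x y * mu l p y w = mu l p x w := by
  simp only [mu, mul_assoc]
  rw [← mul_assoc (star (l y : A)), (l y).2.1, one_mul, ← mul_assoc p p, hp.isIdempotentElem.eq]

lemma mu_mul_ne (ho : ∀ g, g ≠ 1 → p * (l g : A) * p = 0) (x : F n) {y z : F n} (h : y ≠ z)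
    (w : F n) : mu l p x y * mu l p z w = 0 := by
  have := ho (y⁻¹ * z) fun e => h (inv_mul_eq_one.1 e)
  calc _ = (l x : A) * (p * (l (y⁻¹ * z) : A) * p) * star (l w : A) := by
        rw [← l_mul, ← star_l]; simp only [mu, mul_assoc]
    _ = 0 := by rw [this, mul_zero, zero_mul]

lemma l_mu (g x y : F n) : (l g : A) * mu l p x y = mu l p (g * x) (g * y) * l g := by
  simp only [mu, ← l_mul, star_mul, mul_assoc]
  rw [(l g).2.1, mul_one]

lemma comm_mu {t : A} (hl : ∀ g, Commute t (l g : A)) (hp : Commute t p) (x y : F n) :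
    Commute t (mu l p x y) := by
  rw [mu, star_l]; exact ((hl x).mul_right hp).mul_right (hl _)

lemma sum_mu_mul (hp : IsStarProjection p) (ho : ∀ g, g ≠ 1 → p * (l g : A) * p = 0)
    (J : Finset ℕ) (φ χ : ℕ → F n) {ψ : ℕ → F n} (hψ : Set.InjOn ψ J) :
    (∑ j ∈ J, mu l p (φ j) (ψ j)) * ∑ j ∈ J, mu l p (ψ j) (χ j) = ∑ j ∈ J, mu l p (φ j) (χ j) := by
  rw [sum_mul]
  refine sum_congr rfl fun j hj => ?_
  rw [mul_sum, sum_eq_single j, mu_mul hp]
  · intro i hi hne
    exact mu_mul_ne ho _ (fun e => hne (hψ hi hj e.symm)) _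
  · exact fun h => absurd hj h

lemma proj_sum (hp : IsStarProjection p) (ho : ∀ g, g ≠ 1 → p * (l g : A) * p = 0)
    (J : Finset ℕ) {ψ : ℕ → F n} (hψ : Set.InjOn ψ J) :
    IsStarProjection (∑ j ∈ J, mu l p (ψ j) (ψ j)) :=
  ⟨sum_mu_mul hp ho J ψ ψ hψ, by simp only [IsSelfAdjoint, star_sum, star_mu hp]⟩

lemma norm_sum_mu (hp : IsStarProjection p) (ho : ∀ g, g ≠ 1 → p * (l g : A) * p = 0)
    (J : Finset ℕ) {φ ψ : ℕ → F n} (hφ : Set.InjOn φ J) (hψ : Set.InjOn ψ J) :
    ‖∑ j ∈ J, mu l p (φ j) (ψ j)‖ ≤ 1 := by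
  have h1 := CStarRing.norm_star_mul_self (x := ∑ j ∈ J, mu l p (φ j) (ψ j))
  simp only [star_sum, star_mu hp] at h1
  rw [sum_mu_mul hp ho J ψ ψ hφ] at h1
  have h2 := (proj_sum hp ho J hψ).norm_le
  nlinarith [norm_nonneg (∑ j ∈ J, mu l p (φ j) (ψ j))]

section rot
variable {Z S : A}

lemma comm_rot {t : A} (hl : ∀ g, Commute t (l g : A)) (hp : Commute t p) (hZ : Commute t Z)
    (hS : Commute t S) (x y : F n) : Commute t (rot l p Z S x y) :=
  ((Commute.one_right t).add_right ((hS.sub_right (Commute.one_right t)).mul_right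
    ((comm_mu hl hp _ _).add_right (comm_mu hl hp _ _)))).add_right
    (hZ.mul_right ((comm_mu hl hp _ _).sub_right (comm_mu hl hp _ _)))

lemma star_rot (hp : IsStarProjection p) (h : Ang l p Z S) (x y : F n) :
    star (rot l p Z S x y) = rot l p Z S y x := by
  have h1 := ((comm_mu h.Sl h.Sp y y).add_right (comm_mu h.Sl h.Sp x x)).sub_left
    (Commute.one_left _)
  have h2 := (comm_mu h.Zl h.Zp y x).sub_right (comm_mu h.Zl h.Zp x y)
  simp only [rot, star_add, star_mul, star_sub, star_one, star_mu hp, h.Zsa.star_eq, h.Ssa.star_eq]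
  rw [h1.eq, h2.eq, add_comm (mu l p x x)]

lemma rot_mul (hp : IsStarProjection p) (ho : ∀ g, g ≠ 1 → p * (l g : A) * p = 0)
    (h : Ang l p Z S) {x y : F n} (hxy : x ≠ y) : rot l p Z S x y * rot l p Z S y x = 1 := by
  set P := mu l p x x + mu l p y y with hP
  set J := mu l p x y - mu l p y x with hJ
  have e1 : rot l p Z S y x = 1 + (S - 1) * P - Z * J := by
    rw [rot, add_comm (mu l p y y), ← neg_sub (mu l p x y), mul_neg, sub_eq_add_neg _ (Z * J)]
  have hPP : P * P = P := by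
    simp only [hP, mul_add, add_mul, mu_mul hp, mu_mul_ne ho _ hxy, mu_mul_ne ho _ hxy.symm]; abel
  have hPJ : P * J = J := by
    simp only [hP, hJ, mul_sub, add_mul, mu_mul hp, mu_mul_ne ho _ hxy, mu_mul_ne ho _ hxy.symm]
    abel
  have hJP : J * P = J := by
    simp only [hP, hJ, mul_add, sub_mul, mu_mul hp, mu_mul_ne ho _ hxy, mu_mul_ne ho _ hxy.symm]
    abel
  have hJJ : J * J = -P := by
    simp only [hP, hJ, mul_sub, sub_mul, mu_mul hp, mu_mul_ne ho _ hxy, mu_mul_ne ho _ hxy.symm]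
    abel
  have cSP : Commute P (S - 1) := (((comm_mu h.Sl h.Sp x x).add_right
    (comm_mu h.Sl h.Sp y y)).sub_left (Commute.one_left _)).symm
  have cSJ : Commute J (S - 1) := (((comm_mu h.Sl h.Sp x y).sub_right
    (comm_mu h.Sl h.Sp y x)).sub_left (Commute.one_left _)).symm
  have cZP : Commute P Z := ((comm_mu h.Zl h.Zp x x).add_right (comm_mu h.Zl h.Zp y y)).symm
  have cZJ : Commute J Z := ((comm_mu h.Zl h.Zp x y).sub_right (comm_mu h.Zl h.Zp y x)).symm
  have m1 := cSP.mul_mul_mul_comm (S - 1) P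
  have m2 := cZP.mul_mul_mul_comm (S - 1) J
  have m3 := cSJ.mul_mul_mul_comm Z P
  have m4 := cZJ.mul_mul_mul_comm Z J
  rw [hPP] at m1; rw [hPJ] at m2; rw [hJP] at m3; rw [hJJ] at m4
  have c : (S - 1) * Z = Z * (S - 1) := (h.ZS.sub_right (Commute.one_right Z)).eq.symm
  have q : Z * Z = 1 - S * S := eq_sub_of_add_eq h.sq
  rw [e1]
  calc (1 + (S - 1) * P + Z * J) * (1 + (S - 1) * P - Z * J) = 1 + 2 • ((S - 1) * P) +
        (S - 1) * P * ((S - 1) * P) - (S - 1) * P * (Z * J) + Z * J * ((S - 1) * P) -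
        Z * J * (Z * J) := by noncomm_ring
    _ = 1 := by rw [m1, m2, m3, m4, c, q]; noncomm_ring

lemma rot_mem (hp : IsStarProjection p) (ho : ∀ g, g ≠ 1 → p * (l g : A) * p = 0)
    (h : Ang l p Z S) {x y : F n} (hxy : x ≠ y) : rot l p Z S x y ∈ unitary A :=
  ⟨by rw [star_rot hp h, rot_mul hp ho h hxy.symm], by rw [star_rot hp h, rot_mul hp ho h hxy]⟩

lemma l_rot (h : Ang l p Z S) (g x y : F n) :
    (l g : A) * rot l p Z S x y = rot l p Z S (g * x) (g * y) * l g := by
  simp only [rot, mul_add, add_mul, mul_one, one_mul, (h.Zl g).symm.left_comm,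
    mul_assoc, mul_sub, sub_mul, l_mu, (h.Sl g).symm.left_comm]

lemma rot_mu_ne (ho : ∀ g, g ≠ 1 → p * (l g : A) * p = 0) {x y w : F n} (hx : x ≠ w) (hy : y ≠ w)
    (z : F n) : rot l p Z S x y * mu l p w z = mu l p w z := by
  simp only [rot, add_mul, one_mul, mul_assoc, sub_mul (mu l p x y), mu_mul_ne ho _ hx,
    mu_mul_ne ho _ hy, add_zero, mul_zero, sub_zero]

lemma rot_mu (hp : IsStarProjection p) (ho : ∀ g, g ≠ 1 → p * (l g : A) * p = 0) {x y : F n}
    (hx : x ≠ y) (z : F n) : rot l p Z S x y * mu l p y z = Z * mu l p x z + S * mu l p y z := by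
  simp only [rot, add_mul, one_mul, mul_assoc, sub_mul (mu l p x y), mu_mul_ne ho _ hx,
    mu_mul hp, zero_add, sub_zero]
  noncomm_ring

variable (l p Z S) in
/-- The product of the rotations along a path. -/
def G (x : ℕ → F n) : ℕ → A
  | 0 => 1
  | m + 1 => G x m * rot l p Z S (x m) (x (m + 1))

variable (l p Z S) in
/-- The image of the endpoint. -/
def uu (x : ℕ → F n) (m : ℕ) (z : F n) : A :=
  ∑ k ∈ range (m + 1), Z ^ k * S ^ (if k < m then 1 else 0) * mu l p (x (m - k)) z

lemma uu_succ (x : ℕ → F n) (m : ℕ) (z : F n) :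
    uu l p Z S x (m + 1) z = Z * uu l p Z S x m z + S * mu l p (x (m + 1)) z := by
  rw [uu, sum_range_succ', uu, mul_sum]
  simp only [Nat.add_lt_add_iff_right, Nat.add_sub_add_right, pow_succ', mul_assoc, Nat.succ_pos,
    if_true, pow_zero, one_mul, mul_one, Nat.sub_zero]

lemma comm_G {t : A} (hl : ∀ g, Commute t (l g : A)) (hp : Commute t p) (hZ : Commute t Z)
    (hS : Commute t S) (x : ℕ → F n) : ∀ m, Commute t (G l p Z S x m)
  | 0 => Commute.one_right t
  | m + 1 => (comm_G hl hp hZ hS x m).mul_right (comm_rot hl hp hZ hS _ _)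

lemma G_mu_ne (ho : ∀ g, g ≠ 1 → p * (l g : A) * p = 0) (x : ℕ → F n) {w : F n} (z : F n) :
    ∀ m, (∀ j ≤ m, x j ≠ w) → G l p Z S x m * mu l p w z = mu l p w z
  | 0, _ => one_mul _
  | m + 1, h => by
    rw [G, mul_assoc, rot_mu_ne ho (h m m.le_succ) (h _ le_rfl),
      G_mu_ne ho x z m fun j hj => h j (hj.trans m.le_succ)]

lemma G_mu (hp : IsStarProjection p) (ho : ∀ g, g ≠ 1 → p * (l g : A) * p = 0) (h : Ang l p Z S)
    (x : ℕ → F n) (z : F n) : ∀ m, Set.InjOn x (Set.Iic m) →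
      G l p Z S x m * mu l p (x m) z = uu l p Z S x m z
  | 0, _ => by simp [G, uu]
  | m + 1, hx => by
    have hne : ∀ j ≤ m, x j ≠ x (m + 1) := fun j hj e => by
      have := hx (show j ≤ m + 1 by omega) (show m + 1 ≤ m + 1 by omega) e
      omega
    rw [G, mul_assoc, rot_mu hp ho (hne m le_rfl), mul_add,
      (comm_G h.Zl h.Zp (Commute.refl Z) h.ZS x m).symm.left_comm,
      (comm_G h.Sl h.Sp h.ZS.symm (Commute.refl S) x m).symm.left_comm,
      G_mu hp ho h x z m (hx.mono (Set.Iic_subset_Iic.2 m.le_succ)), G_mu_ne ho x z m hne, uu_succ]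

lemma G_eq (hp : IsStarProjection p) (ho : ∀ g, g ≠ 1 → p * (l g : A) * p = 0) (h : Ang l p Z S)
    (x : ℕ → F n) : ∀ m, Set.InjOn x (Set.Iic m) →
      G l p Z S x m = 1 - ∑ j ∈ range (m + 1), mu l p (x j) (x j) + (uu l p Z S x m (x m) +
        ∑ j ∈ range m, S * uu l p Z S x j (x j)) - Z * ∑ j ∈ range m, mu l p (x (j + 1)) (x j)
  | 0, _ => by simp [G, uu]
  | m + 1, hx => by
    have hx' := hx.mono (Set.Iic_subset_Iic.2 m.le_succ)
    have hne : ∀ j ≤ m, x j ≠ x (m + 1) := fun j hj e => by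
      have := hx (show j ≤ m + 1 by omega) (show m + 1 ≤ m + 1 by omega) e
      omega
    have c := ((comm_G h.Sl h.Sp h.ZS.symm (Commute.refl S) x m).sub_left
      (Commute.one_left _)).symm
    rw [G, rot, mul_add, mul_add, mul_one, c.left_comm,
      (comm_G h.Zl h.Zp (Commute.refl Z) h.ZS x m).symm.left_comm, mul_add, mul_sub,
      G_mu hp ho h x _ m hx', G_mu hp ho h x _ m hx', G_mu_ne ho x _ m hne, G_mu_ne ho x _ m hne,
      G_eq hp ho h x m hx', uu_succ, sum_range_succ _ (m + 1), sum_range_succ (fun j =>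
        S * uu l p Z S x j (x j)) m, sum_range_succ (fun j => mu l p (x (j + 1)) (x j)) m]
    noncomm_ring

end rot

/-- The power of the cosine. -/
def ind (m k j : ℕ) : Fin 3 := (if k < j then 1 else 0) + (if j < m then 1 else 0)

lemma ind_val (m k j : ℕ) : (ind m k j : ℕ) = (if k < j then 1 else 0) + (if j < m then 1 else 0) := by
  unfold ind; split_ifs <;> rfl

variable (l p) in
/-- The coefficients. -/
def co (x : ℕ → F n) (m : ℕ) (q : ℕ × Fin 3) : A :=
  (if q = (0, 0) then 1 - ∑ j ∈ range (m + 1), mu l p (x j) (x j) else 0) +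
    (∑ j ∈ range (m + 1) with q.1 ≤ j ∧ ind m q.1 j = q.2, mu l p (x (j - q.1)) (x j)) -
    (if q = (1, 0) then ∑ j ∈ range m, mu l p (x (j + 1)) (x j) else 0)

lemma norm_co (hp : IsStarProjection p) (ho : ∀ g, g ≠ 1 → p * (l g : A) * p = 0) {x : ℕ → F n}
    {m : ℕ} (hx : Set.InjOn x (Set.Iic m)) (q : ℕ × Fin 3) : ‖co l p x m q‖ ≤ 2 := by
  have h1 : ‖1 - ∑ j ∈ range (m + 1), mu l p (x j) (x j)‖ ≤ 1 :=
    (proj_sum hp ho _ (hx.mono fun j hj => by simpa [Nat.lt_succ_iff] using hj)).one_sub.norm_le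
  have h2 : ‖∑ j ∈ range (m + 1) with q.1 ≤ j ∧ ind m q.1 j = q.2, mu l p (x (j - q.1)) (x j)‖ ≤ 1 := by
    refine norm_sum_mu hp ho _ (fun i hi j hj e => ?_) (hx.mono fun j hj => ?_)
    · simp only [coe_filter, mem_range, Set.mem_ofPred_eq] at hi hj
      have := hx (show i - q.1 ≤ m by omega) (show j - q.1 ≤ m by omega) e
      omega
    · simp only [coe_filter, mem_range, Set.mem_ofPred_eq] at hj
      exact show j ≤ m by omega
  have h3 : ‖∑ j ∈ range m, mu l p (x (j + 1)) (x j)‖ ≤ 1 := by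
    refine norm_sum_mu hp ho _ (fun i hi j hj e => ?_) (hx.mono fun j hj => ?_)
    · simp only [coe_range, Set.mem_Iio] at hi hj
      have := hx (show i + 1 ≤ m by omega) (show j + 1 ≤ m by omega) e
      omega
    · simp only [coe_range, Set.mem_Iio] at hj
      exact hj.le
  unfold co
  split_ifs with h h' h'
  · simp [h] at h'
  · rw [sub_zero]; exact (norm_add_le _ _).trans (by linarith)
  · rw [zero_add]; exact (norm_sub_le _ _).trans (by linarith)
  · rw [zero_add, sub_zero]; linarith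

lemma comm_co {t : A} (hl : ∀ g, Commute t (l g : A)) (hp : Commute t p) (x : ℕ → F n) (m : ℕ)
    (q : ℕ × Fin 3) : Commute t (co l p x m q) := by
  refine Commute.sub_right (Commute.add_right ?_ (Commute.sum_right _ _ _ fun j _ =>
    comm_mu hl hp _ _)) ?_
  · split_ifs
    · exact (Commute.one_right t).sub_right (Commute.sum_right _ _ _ fun j _ => comm_mu hl hp _ _)
    · exact Commute.zero_right t
  · split_ifs
    · exact Commute.sum_right _ _ _ fun j _ => comm_mu hl hp _ _
    · exact Commute.zero_right t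

lemma hasSum_co {Z S : A} (hp : IsStarProjection p) (ho : ∀ g, g ≠ 1 → p * (l g : A) * p = 0)
    (h : Ang l p Z S) {x : ℕ → F n} {m : ℕ} (hx : Set.InjOn x (Set.Iic m)) :
    HasSum (fun q : ℕ × Fin 3 => Z ^ q.1 * S ^ (q.2 : ℕ) * co l p x m q) (G l p Z S x m) := by
  have one : ∀ (q₀ : ℕ × Fin 3) (X : A), HasSum (fun q : ℕ × Fin 3 => Z ^ q.1 * S ^ (q.2 : ℕ) *
      (if q = q₀ then X else 0)) (Z ^ q₀.1 * S ^ (q₀.2 : ℕ) * X) := fun q₀ X => by
    convert hasSum_ite_eq q₀ (Z ^ q₀.1 * S ^ (q₀.2 : ℕ) * X) using 2 with q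
    split_ifs with hq
    · rw [hq]
    · rw [mul_zero]
  have two : ∀ j, HasSum (fun q : ℕ × Fin 3 => Z ^ q.1 * S ^ (q.2 : ℕ) *
      (if q.1 ≤ j ∧ ind m q.1 j = q.2 then mu l p (x (j - q.1)) (x j) else 0))
      (S ^ (if j < m then 1 else 0) * uu l p Z S x j (x j)) := fun j => by
    have := hasSum_sum (s := range (j + 1)) fun k _ => one (k, ind m k j) (mu l p (x (j - k)) (x j))
    convert this using 1
    · funext q
      rw [← mul_sum]
      congr 1
      split_ifs with hq
      · rw [sum_eq_single q.1, if_pos (show q = (q.1, ind m q.1 j) from Prod.ext rfl hq.2.symm)]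
        · intro k _ hk
          exact if_neg fun e => hk (by rw [e])
        · intro hk
          exact absurd (mem_range.2 (Nat.lt_succ_of_le hq.1)) hk
      · refine (sum_eq_zero fun k hk => if_neg fun e => hq ?_).symm
        rw [e]
        exact ⟨Nat.le_of_lt_succ (mem_range.1 hk), rfl⟩
    · rw [uu, mul_sum]
      refine sum_congr rfl fun k _ => ?_
      simp only [ind_val, pow_add, ← mul_assoc]
      rw [((h.ZS.symm.pow_pow _ _).eq), mul_assoc (Z ^ k), mul_assoc (Z ^ k),
        ((Commute.refl S).pow_pow _ _).eq]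
      simp only [mul_assoc]
  have := ((one (0, 0) (1 - ∑ j ∈ range (m + 1), mu l p (x j) (x j))).add
    (hasSum_sum (s := range (m + 1)) fun j _ => two j)).sub
    (one (1, 0) (∑ j ∈ range m, mu l p (x (j + 1)) (x j)))
  have e2 : ∑ j ∈ range (m + 1), S ^ (if j < m then 1 else 0) * uu l p Z S x j (x j) =
      uu l p Z S x m (x m) + ∑ j ∈ range m, S * uu l p Z S x j (x j) := by
    rw [sum_range_succ, if_neg (lt_irrefl m), pow_zero, one_mul, add_comm]
    congr 1
    exact sum_congr rfl fun j hj => by rw [if_pos (mem_range.1 hj), pow_one]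
  rw [e2] at this
  simp only [Fin.val_zero, pow_zero, pow_one, one_mul, mul_one] at this
  rw [G_eq hp ho h x m hx]
  exact this.congr_fun fun q => by rw [co, mul_sub, mul_add, sum_filter, mul_sum]

/-- The prefixes of the reduced word. -/
def pre (g : F n) (j : ℕ) : F n := FreeGroup.mk (g.toWord.take j)

lemma pre_inj (g : F n) : Set.InjOn (pre g) (Set.Iic g.toWord.length) := by
  have : ∀ j ≤ g.toWord.length, (pre g j).toWord.length = j := fun j hj => by
    rw [pre, FreeGroup.toWord_mk,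
      (FreeGroup.isReduced_toWord.infix (List.take_prefix j _).isInfix).reduce_eq,
      List.length_take_of_le hj]
  intro i hi j hj e
  rw [← this i hi, ← this j hj, e]

lemma sigma_eq {Z S : A} (hp : IsStarProjection p) (h : Ang l p Z S) {σ : F n →* unitary A}
    (hσ : IsPS l p Z S σ) (g : F n) : ∀ m ≤ g.toWord.length,
      (σ (pre g m) : A) = G l p Z S (pre g) m * l (pre g m)
  | 0, _ => by
    have : pre g 0 = 1 := rfl
    rw [this, map_one, map_one, G, one_mul]
  | m + 1, hm => by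
    obtain ⟨s, hs, hs'⟩ : ∃ s, pre g (m + 1) = pre g m * s ∧
        (σ s : A) = rot l p Z S 1 s * l s := by
      refine ⟨FreeGroup.mk [g.toWord[m]], by
        rw [pre, pre, FreeGroup.mul_mk, List.take_succ_eq_append_getElem hm], ?_⟩
      rcases g.toWord[m] with ⟨a, _ | _⟩
      · have e : FreeGroup.mk [(a, false)] = (FreeGroup.of a)⁻¹ := rfl
        rw [e, ← star_l, hσ a, star_mul, star_rot hp h, star_l, l_rot h, inv_mul_cancel, mul_one]
      · exact hσ a
    rw [hs, ← l_mul, sigma_eq hp h hσ g m (by omega), hs', G, hs, mul_assoc, ← mul_assoc (l _ : A),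
      l_rot h, mul_one, ← l_mul]
    simp only [mul_assoc]

end PSx

open PSx in
theorem ps : PS := by
  intro A _ n l p P hT
  refine ⟨fun q g => co l p (pre g) g.toWord.length q * l g, fun q g => ?_, fun t hl hp q g =>
    (comm_co hl hp _ _ _).mul_right (hl g), fun Z S h => ?_⟩
  · rw [CStarRing.norm_mul_coe_unitary]
    exact norm_co hT.proj hT.orth (pre_inj g) q
  · let σ : F n →* unitary A := FreeGroup.lift fun s =>
      ⟨rot l p Z S 1 (.of s), rot_mem hT.proj hT.orth h (FreeGroup.of_ne_one s).symm⟩ * l (.of s)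
    have hσ : IsPS l p Z S σ := fun s => by simp [σ]
    refine ⟨σ, hσ, fun g => ?_⟩
    have e := sigma_eq hT.proj h hσ g _ le_rfl
    have e' : pre g g.toWord.length = g := by rw [pre, List.take_length, FreeGroup.mk_toWord]
    rw [e'] at e
    rw [e]
    simpa only [mul_assoc] using (hasSum_co hT.proj hT.orth h (pre_inj g)).mul_right (l g : A)

end Crest.Agent.KK
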