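import Crest.Agent.KK.Defs

/-! Job Pert. -/

set_option autoImplicit false

namespace Crest.Agent.KK.Pt

variable {A : Type} [CStarAlgebra A]

lemma cut {h : A} (hh : IsSelfAdjoint h) (h1 : ‖h‖ ≤ 1) : ∃ g₁ g₂ : A, ‖g₁‖ ≤ 17 / 10 ∧
    ‖g₂‖ ≤ 3 / 10 ∧ (1 - h - g₂) * (h + 1 - g₁) = 0 ∧ ∀ t, Commute h t → Commute g₂ t := by
  have hs : ∀ t ∈ spectrum ℝ h, |t| ≤ 1 := fun t ht => by
    rcases subsingleton_or_nontrivial A with h | h
    · simp [spectrum.of_subsingleton] at ht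
    · exact (spectrum.norm_le_norm_of_mem ht).trans h1
  refine ⟨cfc (fun t : ℝ => min (t + 1) (17 / 10)) h, cfc (fun t : ℝ => min (1 - t) (3 / 10)) h,
    norm_cfc_le (by norm_num) fun t ht => ?_, norm_cfc_le (by norm_num) fun t ht => ?_, ?_,
    fun t ht => ht.cfc_real _⟩
  · have := abs_le.1 (hs t ht)
    exact abs_le.2 ⟨le_min (by linarith) (by linarith), min_le_right _ _⟩
  · have := abs_le.1 (hs t ht)
    exact abs_le.2 ⟨le_min (by linarith) (by linarith), min_le_right _ _⟩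
  · have e1 : 1 - h - cfc (fun t : ℝ => min (1 - t) (3 / 10)) h =
        cfc (fun t : ℝ => 1 - t - min (1 - t) (3 / 10)) h := by
      rw [cfc_sub .., cfc_sub .., cfc_const_one .., cfc_id' ..]
    have e2 : h + 1 - cfc (fun t : ℝ => min (t + 1) (17 / 10)) h =
        cfc (fun t : ℝ => t + 1 - min (t + 1) (17 / 10)) h := by
      rw [cfc_sub .., cfc_add .., cfc_const_one .., cfc_id' ..]
    rw [e1, e2, ← cfc_mul .., cfc_congr (g := 0) fun t _ => ?_, cfc_zero]
    rcases le_total t (7 / 10) with h | h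
    · simp [min_eq_left (show t + 1 ≤ 17 / 10 by linarith)]
    · simp [min_eq_left (show 1 - t ≤ 3 / 10 by linarith)]

lemma est {h Q E g₁ g₂ : A} {b : ℝ} (hh : IsSelfAdjoint h) (hQ : IsStarProjection Q)
    (hE : IsStarProjection E) (a₁ : ‖Q * (h - 1) * Q‖ ≤ 1 / 10) (a₂ : ‖(1 - Q) * h * Q‖ ≤ b)
    (a₃ : ‖(1 - Q) * h * (1 - Q)‖ ≤ 1 / 2) (n₁ : ‖g₁‖ ≤ 17 / 10) (n₂ : ‖g₂‖ ≤ 3 / 10)
    (e₁ : (1 - E) * g₁ = (h + 1) * (1 - E)) (e₂ : g₂ * E = E * (1 - h)) :
    ‖(1 - E) * Q‖ ≤ 10 * b ∧ ‖(1 - Q) * E‖ ≤ 10 * b := by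
  have hq : Q * Q = Q := hQ.isIdempotentElem.eq
  have hq' : ∀ x, Q * (Q * x) = Q * x := fun x => by rw [← mul_assoc, hq]
  have a₂' : ‖Q * h * (1 - Q)‖ ≤ b := by
    rwa [← norm_star, star_mul, star_mul, hQ.one_sub.isSelfAdjoint.star_eq, hh.star_eq,
      hQ.isSelfAdjoint.star_eq, ← mul_assoc]
  have hb : 0 ≤ b := (norm_nonneg _).trans a₂
  have h2 : ∀ y : A, ‖y + y‖ = 2 * ‖y‖ := fun y => by rw [← two_smul ℂ, norm_smul]; simp
  constructor
  · rw [← norm_star, star_mul, hE.one_sub.isSelfAdjoint.star_eq, hQ.isSelfAdjoint.star_eq]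
    have : Q * (1 - E) + Q * (1 - E) = Q * (1 - E) * g₁ - Q * h * (1 - Q) * (1 - E) -
        Q * (h - 1) * Q * (Q * (1 - E)) := by
      rw [mul_assoc Q _ g₁, e₁]
      simp only [mul_sub, sub_mul, mul_add, add_mul, mul_one, one_mul, mul_assoc, hq, hq']
      abel
    have h3 := (congrArg norm this).le.trans ((norm_sub_le _ _).trans (add_le_add
      ((norm_sub_le _ _).trans (add_le_add (norm_mul_le _ _) (norm_mul_le _ _))) (norm_mul_le _ _)))
    rw [h2] at h3
    nlinarith [norm_nonneg (Q * (1 - E)), hE.one_sub.norm_le, norm_nonneg (Q * h * (1 - Q)),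
      norm_nonneg (1 - E)]
  · rw [← norm_star, star_mul, hQ.one_sub.isSelfAdjoint.star_eq, hE.isSelfAdjoint.star_eq]
    have : E * (1 - Q) + E * (1 - Q) = E * (1 - Q) * ((1 - Q) * h * (1 - Q)) + E * (1 - Q) +
        E * (Q * h * (1 - Q)) + g₂ * (E * (1 - Q)) := by
      rw [← mul_assoc g₂, e₂]
      simp only [mul_sub, sub_mul, mul_one, one_mul, mul_assoc, hq, hq']
      abel
    have h3 := (congrArg norm this).le.trans ((norm_add_le _ _).trans (add_le_add
      ((norm_add_le _ _).trans (add_le_add ((norm_add_le _ _).trans (add_le_add (norm_mul_le _ _)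
        le_rfl)) (norm_mul_le _ _))) (norm_mul_le _ _)))
    rw [h2] at h3
    nlinarith [norm_nonneg (E * (1 - Q)), hE.norm_le, norm_nonneg (Q * h * (1 - Q)), norm_nonneg E]

end Crest.Agent.KK.Pt

namespace Crest.Agent.KK
open Pt

theorem pert : Pert := by
  intro H _ _ _ h Q b hh h1 hQ a₁ a₂ a₃
  obtain ⟨g₁, g₂, n₁, n₂, h0, hc⟩ := cut hh h1
  set k := 1 - h - g₂ with hk
  have hE : IsStarProjection k.ker.starProjection := isStarProjection_starProjection
  set E := k.ker.starProjection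
  have kE : k * E = 0 := ContinuousLinearMap.ext fun v => k.ker.starProjection_apply_mem v
  have Ey : ∀ y, k * y = 0 → E * y = y := fun y hy => ContinuousLinearMap.ext fun v =>
    Submodule.starProjection_eq_self_iff.2 (congrArg (fun S : H →L[ℂ] H => S v) hy)
  have c1 : ∀ t, Commute t h → E * (t * E) = t * E := fun t ht => Ey _ (by
    rw [← mul_assoc, (((Commute.one_left t).sub_left ht.symm).sub_left (hc t ht.symm)).eq, mul_assoc,
      kE, mul_zero])
  have c2 : ∀ t, Commute t h → Commute t E := fun t ht => by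
    have := congrArg star (c1 (star t) (by simpa [hh.star_eq] using ht.star_star))
    simp only [star_mul, star_star, hE.isSelfAdjoint.star_eq] at this
    rw [Commute, SemiconjBy, ← c1 t ht, ← mul_assoc, this]
  refine ⟨E, hE, c2, est hh hQ hE a₁ a₂ a₃ n₁ n₂ ?_ ?_⟩
  · have := Ey _ h0
    simp only [mul_sub, sub_mul, mul_add, add_mul, mul_one, one_mul, (c2 h (.refl h)).eq] at this ⊢
    rw [← sub_eq_zero] at this ⊢
    rw [← this]; abel
  · rw [hk, sub_mul, sub_eq_zero] at kE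
    rw [← kE, sub_mul, mul_sub, (c2 h (.refl h)).eq, one_mul, mul_one]

end Crest.Agent.KK
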