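import Crest.Agent.KK.Defs

/-! Job Sh. -/

set_option autoImplicit false
open scoped InnerProductSpace

namespace Crest.Agent.KK.Shf

lemma pow_comm {A : Type} [CStarAlgebra A] {a b : A} (ha : ‖a‖ ≤ 1) (n : ℕ) :
    ‖a ^ n * b - b * a ^ n‖ ≤ n * ‖a * b - b * a‖ := by
  induction n with
  | zero => simp
  | succ n ih =>
    have h1 : ‖a ^ n‖ ≤ 1 := by
      rcases n.eq_zero_or_pos with rfl | h
      · simpa using (IsStarProjection.one A).norm_le
      · exact (norm_pow_le' _ h).trans (pow_le_one₀ (norm_nonneg _) ha)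
    rw [show a ^ (n + 1) * b - b * a ^ (n + 1) = a ^ n * (a * b - b * a) + (a ^ n * b - b * a ^ n) * a
      by rw [pow_succ]; noncomm_ring]
    refine (norm_add_le _ _).trans ((add_le_add (norm_mul_le _ _) (norm_mul_le _ _)).trans ?_)
    push_cast
    nlinarith [norm_nonneg (a * b - b * a), norm_nonneg (a ^ n * b - b * a ^ n), norm_nonneg a]

lemma poly (p : Polynomial ℝ) : ∃ C : ℝ, 0 ≤ C ∧ ∀ (A : Type) [CStarAlgebra A] (a b : A), ‖a‖ ≤ 1 →
    ‖Polynomial.aeval a p * b - b * Polynomial.aeval a p‖ ≤ C * ‖a * b - b * a‖ := by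
  induction p using Polynomial.induction_on' with
  | add p q hp hq =>
    obtain ⟨C, h0, hC⟩ := hp
    obtain ⟨D, h1, hD⟩ := hq
    refine ⟨C + D, by positivity, fun A _ a b ha => ?_⟩
    rw [map_add, add_mul, mul_add, add_sub_add_comm, add_mul]
    exact (norm_add_le _ _).trans (add_le_add (hC A a b ha) (hD A a b ha))
  | monomial n c =>
    refine ⟨‖c‖ * n, by positivity, fun A _ a b ha => ?_⟩
    rw [Polynomial.aeval_monomial, ← Algebra.smul_def, smul_mul_assoc, mul_smul_comm, ← smul_sub,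
      norm_smul, mul_assoc]
    exact mul_le_mul_of_nonneg_left (pow_comm ha n) (norm_nonneg _)

lemma shift : ∃ S : L2 ℕ ℂ →L[ℂ] L2 ℕ ℂ, star S * S = 1 ∧ ∀ k c, S (sg k c) = sg (k + 1) c := by
  have h : Orthonormal ℂ fun k : ℕ => (sg (k + 1) 1 : L2 ℕ ℂ) := orthonormal_iff_ite.2 fun i j => by
    rw [inner_sg_left, sg_apply]
    by_cases h : i = j <;> simp [h]
  refine ⟨h.orthogonalFamily.linearIsometry.toContinuousLinearMap,
    LinearIsometry.adjoint_comp_self _, fun k c => ?_⟩
  refine (@OrthogonalFamily.linearIsometry_apply_single _ _ _ _ _ _ _ _ _ _ _ h.orthogonalFamily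
    (fun _ _ => Classical.propDecidable _) k c).trans ?_
  simp [← map_smul]

end Crest.Agent.KK.Shf

namespace Crest.Agent.KK
open Shf

theorem sh : Sh := by
  refine ⟨fun δ hδ => ?_, fun δ hδ => ?_⟩
  · obtain ⟨S, h1, h2⟩ := shift
    have h0 : ev 0 ∘L S = 0 := ext_sg fun k c => by simp [h2, sg_apply]
    have h3 : ∀ k c, star S (sg (k + 1) c) = sg k c := fun k c => by
      rw [← h2, ← mul_apply_eq_comp, h1]; rfl
    have h4 : ∀ c, star S (sg 0 c) = 0 := fun c => by
      have := congrArg ContinuousLinearMap.adjoint h0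
      rw [ContinuousLinearMap.adjoint_comp, ← adjoint_sg, ContinuousLinearMap.adjoint_adjoint,
        map_zero] at this
      exact congrArg (fun T => T c) this
    set u : ℕ → ℝ := fun k => min 1 (k * δ) with hu
    have u0 : ∀ k, 0 ≤ u k := fun k => le_min zero_le_one (by positivity)
    have hd : ∀ k, ‖((√(u (k + 1)) : ℝ) : ℂ) • (1 : ℂ →L[ℂ] ℂ)‖ ≤ 1 := fun k => by
      rw [norm_smul, norm_one, mul_one, Complex.norm_real, Real.norm_of_nonneg (Real.sqrt_nonneg _)]
      exact Real.sqrt_le_one.2 (min_le_left _ _)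
    set D : L2 ℕ ℂ →L[ℂ] L2 ℕ ℂ := dg fun k => ((√(u (k + 1)) : ℝ) : ℂ) • 1 with hD
    have d1 : ∀ k c, D (sg k c) = ((√(u (k + 1)) : ℝ) : ℂ) • sg k c := fun k c => by
      rw [hD, wp_sg _ ⟨_, hd⟩, ← map_smul]; rfl
    have d2 : star D = D := by
      rw [hD, star_wp _ ⟨_, hd⟩]; simp
    have nS : ‖S‖ ≤ 1 := by
      have := CStarRing.norm_star_mul_self (x := S)
      rw [h1] at this
      nlinarith [norm_nonneg S, (IsStarProjection.one (L2 ℕ ℂ →L[ℂ] L2 ℕ ℂ)).norm_le]
    refine ⟨L2 ℕ ℂ, _, _, inferInstance, inferInstance, S, S * D - S, h1, fun h => ?_, ?_, ?_, ?_⟩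
    · obtain ⟨ξ, hξ⟩ := h (sg 0 1)
      have := congrArg (fun T => T ξ) h0
      simp [hξ] at this
    · obtain ⟨N, hN⟩ := exists_nat_ge (1 / δ)
      have : S * D - S = ∑ k ∈ Finset.range N,
          (((√(u (k + 1)) : ℝ) : ℂ) - 1) • (sg (k + 1) ∘L ev k) := ext_sg fun k c => by
        simp only [sub_apply, mul_apply_eq_comp, d1, map_smul, h2, sum_apply, smul_apply,
          ContinuousLinearMap.comp_apply, ev_apply]
        rw [Finset.sum_eq_single k (fun j _ hj => by simp [sg_apply_ne hj]) fun hk => ?_]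
        · simp [sub_smul]
        · have : (N : ℝ) ≤ k := by exact_mod_cast not_lt.1 (mt Finset.mem_range.2 hk)
          rw [div_le_iff₀ hδ] at hN
          simp [hu, min_eq_left (show 1 ≤ ((k : ℝ) + 1) * δ by nlinarith)]
      rw [this]
      exact (compactOperator (RingHom.id ℂ) (L2 ℕ ℂ) (L2 ℕ ℂ)).sum_mem fun k _ =>
        Submodule.smul_mem _ _ ((isCompactOperator_of_locallyCompactSpace_dom (ev k)).clm_comp
          (sg (k + 1) : ℂ →L[ℂ] L2 ℕ ℂ))
    · rw [add_sub_cancel]
      exact (norm_mul_le _ _).trans (mul_le_one₀ nS (norm_nonneg _) (norm_wp_le _ zero_le_one hd))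
    · have hb : ∀ k, ‖((u (k + 1) - u k : ℝ) : ℂ) • (1 : ℂ →L[ℂ] ℂ)‖ ≤ δ := fun k => by
        rw [norm_smul, norm_one, mul_one, Complex.norm_real, Real.norm_eq_abs]
        refine (abs_min_sub_min_le_max _ _ _ _).trans ?_
        simp [add_mul, hδ.le, abs_of_pos hδ]
      have hq : ∀ k, ((√(u k) : ℝ) : ℂ) * √(u k) = u k := fun k => by
        rw [← Complex.ofReal_mul, Real.mul_self_sqrt (u0 k)]
      refine le_trans (le_of_eq (congrArg _ (ext_sg fun k c => ?_))) (norm_wp_le 1 hδ.le hb)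
      rw [add_sub_cancel, star_mul, d2, wp_sg _ ⟨_, hb⟩]
      rcases k with _ | k <;> simp only [sub_apply, mul_apply_eq_comp, d1, map_smul, h2, h3, h4,
        smul_smul, hq, smul_apply, one_apply_eq_self, Equiv.Perm.one_apply, map_zero]
      · simp [hu]
      · simp [sub_smul]
  · obtain ⟨p, hp⟩ := exists_polynomial_near_of_continuousOn (-1) 1 (fun t => √(1 - t ^ 2))
      (by fun_prop) (δ / 4) (by positivity)
    obtain ⟨C, h0, hC⟩ := poly p
    refine ⟨δ / (2 * (C + 1)), by positivity, fun A _ a b ha h1 h2 h3 => ?_⟩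
    have h4 : ‖Polynomial.aeval a p - cfc (fun t : ℝ => √(1 - t ^ 2)) a‖ ≤ δ / 4 := by
      rw [← cfc_polynomial p a, ← cfc_sub ..]
      refine norm_cfc_le (by positivity) fun t ht => (hp t ?_).le
      rcases subsingleton_or_nontrivial A with h | h
      · simp [spectrum.of_subsingleton] at ht
      · exact abs_le.1 ((spectrum.norm_le_norm_of_mem ht).trans h1)
    have h5 : C * ‖a * b - b * a‖ ≤ δ / 2 := by
      rw [le_div_iff₀ (by positivity)] at h3
      nlinarith [norm_nonneg (a * b - b * a)]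
    generalize cfc (fun t : ℝ => √(1 - t ^ 2)) a = f at h4 ⊢
    rw [show f * b - b * f = (Polynomial.aeval a p * b - b * Polynomial.aeval a p) -
      (Polynomial.aeval a p - f) * b + b * (Polynomial.aeval a p - f) by noncomm_ring]
    refine (norm_add_le _ _).trans ((add_le_add ((norm_sub_le _ _).trans (add_le_add
      ((hC A a b h1).trans h5) (norm_mul_le _ _))) (norm_mul_le _ _)).trans ?_)
    nlinarith [norm_nonneg (Polynomial.aeval a p - f), norm_nonneg b]

end Crest.Agent.KK
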