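import Crest.Agent.KK.Defs

/-! Row 78, job W: reduced words. -/

set_option autoImplicit false
open FreeGroup

namespace Crest.Agent.KK.Wx

variable {n : ℕ}

lemma toWord_cons (a : Fin n × Bool) (x : F n) (h : x.toWord.head? ≠ some (a.1, !a.2)) :
    (mk [a] * x).toWord = a :: x.toWord := by
  conv_lhs => rw [← mk_toWord (x := x), mul_mk, toWord_mk]
  refine IsReduced.reduce_eq (List.IsChain.append IsReduced.singleton isReduced_toWord ?_)
  intro b hb c hc e
  simp only [List.getLast?_singleton, Option.mem_def, Option.some.injEq] at hb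
  subst hb
  by_contra hne
  refine h (hc.trans (congrArg some (Prod.ext e.symm ?_)))
  revert hne; cases a.2 <;> cases c.2 <;> simp

lemma head_mul (s : Fin n) (x : F n) :
    (of s * x).toWord.head? = some (s, true) ↔ x.toWord.head? ≠ some (s, false) := by
  refine ⟨fun h e => ?_, fun h => by rw [show of s = mk [(s, true)] from rfl, toWord_cons _ _ h]; rfl⟩
  obtain ⟨L, hL⟩ := List.head?_eq_some_iff.1 e
  have hr : IsReduced ((s, false) :: L) := hL ▸ isReduced_toWord
  have : of s * x = mk L := by
    rw [← mk_toWord (x := x), hL, show (s, false) :: L = [(s, false)] ++ L from rfl, ← mul_mk,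
      show mk [(s, false)] = (of s)⁻¹ from rfl, mul_inv_cancel_left]
  rw [this, toWord_mk, (hr.infix ⟨[(s, false)], [], by simp⟩).reduce_eq] at h
  obtain ⟨L', rfl⟩ := List.head?_eq_some_iff.1 h
  simpa using (List.isChain_cons_cons.1 hr).1 rfl

lemma head_mul_inv (s : Fin n) (y : F n) (hy : 2 ≤ y.toWord.length) :
    (y * (of s)⁻¹).toWord.head? = y.toWord.head? := by
  have key : ∀ z : F n, z.toWord.head? = (z⁻¹.toWord.getLast?).map fun a => (a.1, !a.2) := fun z => by
    rw [toWord_inv, invRev, List.getLast?_reverse, List.head?_map, Option.map_map]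
    cases z.toWord.head? <;> simp
  rw [key, key y, mul_inv_rev, inv_inv]
  congr 1
  have hl : 2 ≤ y⁻¹.toWord.length := by rwa [toWord_inv, invRev_length]
  by_cases h : y⁻¹.toWord.head? = some (s, false)
  · obtain ⟨L, hL⟩ := List.head?_eq_some_iff.1 h
    have hr : IsReduced ((s, false) :: L) := hL ▸ isReduced_toWord
    have : of s * y⁻¹ = mk L := by
      rw [← mk_toWord (x := y⁻¹), hL, show (s, false) :: L = [(s, false)] ++ L from rfl, ← mul_mk,
        show mk [(s, false)] = (of s)⁻¹ from rfl, mul_inv_cancel_left]
    rw [this, toWord_mk, (hr.infix ⟨[(s, false)], [], by simp⟩).reduce_eq, hL]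
    rw [hL] at hl
    cases L with
    | nil => simp at hl
    | cons a L => simp [List.getLast?_cons_cons]
  · rw [show of s = mk [(s, true)] from rfl, toWord_cons _ _ h]
    cases h' : y⁻¹.toWord with
    | nil => simp [h'] at hl
    | cons a L => simp [List.getLast?_cons_cons]

lemma icc (hn : 3 ≤ n) (g : F n) (hg : g ≠ 1) : {x | IsConj g x}.Infinite := by
  have hne : g.toWord ≠ [] := fun h => hg (toWord_eq_nil_iff.1 h)
  obtain ⟨a, h1, h2⟩ : ∃ a : Fin n, a ≠ (g.toWord.head hne).1 ∧ a ≠ (g.toWord.getLast hne).1 := by
    by_contra hc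
    push Not at hc
    have : (Finset.univ : Finset (Fin n)) ⊆ {(g.toWord.head hne).1, (g.toWord.getLast hne).1} :=
      fun a _ => by
        by_cases h : a = (g.toWord.head hne).1
        · simp [h]
        · simp [← hc a h]
    have := (Finset.card_le_card this).trans (Finset.card_le_two)
    simp at this; omega
  have key : ∀ k : ℕ, (of a ^ k * g * (of a ^ k)⁻¹).toWord.length = k + g.toWord.length + k := by
    intro k
    have e1 : of a ^ k = mk (List.replicate k (a, true)) := by rw [← toWord_of_pow, mk_toWord]
    have e2 : (of a ^ k)⁻¹ = mk (List.replicate k (a, false)) := by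
      rw [e1, inv_mk]; simp [invRev]
    rw [e2, e1, ← mk_toWord (x := g), mul_mk, mul_mk, toWord_mk, IsReduced.reduce_eq, toWord_mk,
      reduce_toWord]
    · simp [add_assoc]
    · refine List.IsChain.append (List.IsChain.append (List.isChain_replicate_of_rel _ fun _ => rfl)
        isReduced_toWord fun b hb c hc e => ?_) (List.isChain_replicate_of_rel _ fun _ => rfl)
        fun b hb c hc e => ?_
      · rw [List.head?_eq_some_head hne, Option.mem_def, Option.some.injEq] at hc
        rw [List.eq_of_mem_replicate (List.mem_of_getLast? hb), ← hc] at e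
        exact absurd e h1
      · rw [List.getLast?_append_of_ne_nil _ hne, List.getLast?_eq_some_getLast hne, Option.mem_def,
          Option.some.injEq] at hb
        rw [List.eq_of_mem_replicate (List.mem_of_mem_head? hc), ← hb] at e
        exact absurd e.symm h2
  refine Set.infinite_of_injective_forall_mem (f := fun k : ℕ => of a ^ k * g * (of a ^ k)⁻¹)
    (fun k k' e => ?_) fun k => isConj_iff.2 ⟨_, rfl⟩
  have := key k
  rw [show of a ^ k * g * (of a ^ k)⁻¹ = of a ^ k' * g * (of a ^ k')⁻¹ from e, key] at this
  omega

end Wx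

open Wx in
theorem words : Words := fun n => ⟨⟨fun x => x.toWord.head?, fun x => by simp, head_mul,
  fun s x hx h => by
    have := toWord_cons (s, true) x h
    dsimp only
    rw [head_mul_inv s _ (by
      rw [show of s = mk [(s, true)] from rfl, this, List.length_cons]
      exact Nat.succ_le_succ (List.length_pos_iff.2 fun e => hx (toWord_eq_nil_iff.1 e)))]
    exact (head_mul s x).2 h⟩, icc⟩

end Crest.Agent.KK
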